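import Vale.Agent.P362.Compile

namespace Vale.Agent.P362

open Finset Matrix

variable {n : ℕ}

lemma oracle_mulVec {m : ℕ} (x : Fin n → Bool) (v : Fin n × Bool × Fin m → ℂ)
    (p : Fin n × Bool × Fin m) : (oracle x *ᵥ v) p = v (p.1, xor p.2.1 (x p.1), p.2.2) := by
  simp only [mulVec, dotProduct, oracle, ite_mul, one_mul, zero_mul]
  rw [Finset.sum_eq_single (p.1, xor p.2.1 (x p.1), p.2.2)]
  · simp
  · intro q _ hq
    rw [if_neg]
    rintro rfl
    simp at hq
  · simp

lemma unitary_dot {B : Type} [Fintype B] [DecidableEq B] (U : Matrix.unitaryGroup B ℂ)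
    (a b : B → ℂ) : star (U.1 *ᵥ a) ⬝ᵥ (U.1 *ᵥ b) = star a ⬝ᵥ b := by
  rw [star_mulVec, dotProduct_mulVec, vecMul_vecMul, ← star_eq_conjTranspose,
    Matrix.mem_unitaryGroup_iff'.mp U.2, vecMul_one]

lemma amgm {a b κ : ℝ} (hκ : 0 < κ) : a * b ≤ κ * a ^ 2 / 2 + b ^ 2 / κ / 2 := by
  have : b ^ 2 / κ = κ * (b / κ) ^ 2 := by field_simp
  have h2 : a * b = κ * (a * (b / κ)) := by field_simp
  rw [this, h2]
  nlinarith [mul_nonneg hκ.le (sq_nonneg (a - b / κ))]

theorem QuantComputes.adv {f : (Fin n → Bool) → Bool} {T : ℕ} (h : QuantComputes f T) :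
    ∃ M : (Fin n → Bool) → ℕ → Fin n → ℝ, (∀ x t i, 0 ≤ M x t i) ∧ (∀ x t, ∑ i, M x t i = 1) ∧
      ∀ x y, f x ≠ f y → ∀ κ : ℝ, 0 < κ → 1 / 18 ≤ ∑ t ∈ range T,
        ∑ i ∈ univ.filter (fun i => x i ≠ y i), (κ * M x t i + M y t i / κ) := by
  obtain ⟨m, U, s, out, h⟩ := h
  let ψ := qstate U s
  let M : (Fin n → Bool) → ℕ → Fin n → ℝ := fun x t i => ∑ q : Bool × Fin m, ‖ψ x t (i, q)‖ ^ 2
  have step : ∀ x y (κ : ℝ), 0 < κ → ∀ t, ‖star (ψ x (t + 1)) ⬝ᵥ ψ y (t + 1) - star (ψ x t) ⬝ᵥ ψ y t‖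
      ≤ ∑ i ∈ univ.filter (fun i => x i ≠ y i), (κ * M x t i + M y t i / κ) := by
    intro x y κ hκ t
    simp only [ψ, qstate, unitary_dot]
    change ‖star (oracle x *ᵥ ψ x t) ⬝ᵥ (oracle y *ᵥ ψ y t) - star (ψ x t) ⬝ᵥ ψ y t‖ ≤ _
    simp only [dotProduct, Pi.star_apply, oracle_mulVec]
    rw [Fintype.sum_prod_type, Fintype.sum_prod_type, ← sum_sub_distrib, sum_filter]
    refine (norm_sum_le _ _).trans (sum_le_sum fun i _ => ?_)
    simp only [M, Fintype.sum_prod_type, Fintype.sum_bool, ← sum_add_distrib, ← sum_sub_distrib]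
    split_ifs with hi
    · rw [mul_sum, sum_div, ← sum_add_distrib]
      refine (norm_sum_le _ _).trans (sum_le_sum fun z _ => ?_)
      have e : ∀ a b c d : ℂ, ‖star a * d + star b * c - (star a * c + star b * d)‖
          ≤ κ * (‖a‖ ^ 2 + ‖b‖ ^ 2) + (‖c‖ ^ 2 + ‖d‖ ^ 2) / κ := by
        intro a b c d
        have h1 := norm_sub_le (star a * d + star b * c) (star a * c + star b * d)
        have h2 := norm_add_le (star a * d) (star b * c)
        have h3 := norm_add_le (star a * c) (star b * d)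
        simp only [norm_mul, norm_star] at h2 h3
        have := amgm (a := ‖a‖) (b := ‖d‖) hκ
        have := amgm (a := ‖b‖) (b := ‖c‖) hκ
        have := amgm (a := ‖a‖) (b := ‖c‖) hκ
        have := amgm (a := ‖b‖) (b := ‖d‖) hκ
        rw [add_div]; linarith
      revert hi
      cases x i <;> cases y i <;> simp only [ne_eq, not_true_eq_false, IsEmpty.forall_iff,
        Bool.xor_false, Bool.xor_true, Bool.not_true, Bool.not_false] <;> intro _
      · exact e _ _ _ _
      · rw [add_comm (star _ * _)]; exact e _ _ _ _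
    · rw [not_not] at hi
      rw [← hi, sum_eq_zero, norm_zero]
      intro z _
      cases x i <;> simp [add_comm]
  have h0 : ∀ x y, star (ψ x 0) ⬝ᵥ ψ y 0 = 1 := fun x y => by
    simp only [ψ, qstate, unitary_dot]; simp
  have tele : ∀ x y (κ : ℝ), 0 < κ → ∀ T, ‖star (ψ x T) ⬝ᵥ ψ y T - 1‖ ≤ ∑ t ∈ range T,
      ∑ i ∈ univ.filter (fun i => x i ≠ y i), (κ * M x t i + M y t i / κ) := by
    intro x y κ hκ T
    induction T with
    | zero => simp [h0]
    | succ T ih =>
      rw [sum_range_succ]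
      have := norm_add_le (star (ψ x (T + 1)) ⬝ᵥ ψ y (T + 1) - star (ψ x T) ⬝ᵥ ψ y T)
        (star (ψ x T) ⬝ᵥ ψ y T - 1)
      rw [sub_add_sub_cancel] at this
      linarith [step x y κ hκ T]
  have hnorm : ∀ x t, ∑ p, ‖ψ x t p‖ ^ 2 = 1 := fun x t => by
    have := tele x x 1 one_pos t
    simp only [ne_eq, not_true_eq_false, filter_false, sum_empty, sum_const_zero, norm_le_zero_iff,
      sub_eq_zero, dotProduct, Pi.star_apply, Complex.star_def, Complex.conj_mul'] at this
    exact_mod_cast this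
  refine ⟨M, fun x t i => by positivity, fun x t => by
    rw [← hnorm x t, Fintype.sum_prod_type], fun x y hxy κ hκ => le_trans ?_ (tele x y κ hκ T)⟩
  have h1 : ‖star (ψ x T) ⬝ᵥ ψ y T‖ ≤ 17 / 18 := by
    have hx := h x
    have hy := h y
    have nx := hnorm x T
    have ny := hnorm y T
    rw [← sum_filter_add_sum_filter_not univ (fun p => out p = f x)] at nx ny
    have e : univ.filter (fun p => ¬ out p = f x) = univ.filter fun p => out p = f y := by
      refine filter_congr fun p _ => ?_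
      revert hxy; cases out p <;> cases f x <;> cases f y <;> simp
    rw [dotProduct, ← sum_filter_add_sum_filter_not univ (fun p => out p = f x)]
    rw [e] at nx ny ⊢
    refine (norm_add_le _ _).trans ((add_le_add (norm_sum_le _ _) (norm_sum_le _ _)).trans ?_)
    simp only [Pi.star_apply, norm_mul, norm_star]
    have a1 := sum_le_sum fun p (_ : p ∈ univ.filter fun p => out p = f x) =>
      amgm (a := ‖ψ x T p‖) (b := ‖ψ y T p‖) (show (0 : ℝ) < 7 / 10 by norm_num)
    have a2 := sum_le_sum fun p (_ : p ∈ univ.filter fun p => out p = f y) =>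
      amgm (a := ‖ψ x T p‖) (b := ‖ψ y T p‖) (show (0 : ℝ) < 10 / 7 by norm_num)
    simp only [sum_add_distrib, ← sum_div, ← mul_sum] at a1 a2
    change 2 / 3 ≤ ∑ p ∈ _, ‖ψ x T p‖ ^ 2 at hx
    change 2 / 3 ≤ ∑ p ∈ _, ‖ψ y T p‖ ^ 2 at hy
    linarith
  have h2 := norm_sub_norm_le (1 : ℂ) (star (ψ x T) ⬝ᵥ ψ y T)
  rw [norm_sub_rev, norm_one] at h2
  linarith

section huang
variable {κ : Type} [Fintype κ] [LinearOrder κ]

def flp (u : κ → Bool) (i : κ) : κ → Bool := Function.update u i (!u i)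

omit [Fintype κ] in
lemma flp_flp (u : κ → Bool) (i : κ) : flp (flp u i) i = u := by simp [flp]

def hs (u : κ → Bool) (i : κ) : ℝ := ∏ j ∈ univ.filter (· < i), sg (u j)

def hA : ((κ → Bool) → ℝ) →ₗ[ℝ] ((κ → Bool) → ℝ) where
  toFun v u := ∑ i, hs u i * v (flp u i)
  map_add' v w := by ext u; simp [mul_add, sum_add_distrib]
  map_smul' c v := by ext u; simp [mul_sum, mul_left_comm]

lemma hs_flp (u : κ → Bool) (i j : κ) : hs (flp u i) j = if i < j then - hs u j else hs u j := by
  unfold hs flp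
  split_ifs with h
  · have hi : i ∈ univ.filter (· < j) := by simpa using h
    rw [← mul_prod_erase _ _ hi, ← mul_prod_erase _ _ hi, Function.update_self,
      prod_congr rfl fun k hk => by rw [Function.update_of_ne (ne_of_mem_erase hk)]]
    cases u i <;> simp
  · refine prod_congr rfl fun k hk => ?_
    rw [Function.update_of_ne]
    rintro rfl
    exact h (by simpa using hk)

lemma hA_sq (v : (κ → Bool) → ℝ) : hA (hA v) = (Fintype.card κ : ℝ) • v := by
  ext u
  change ∑ i, hs u i * ∑ j, hs (flp u i) j * v (flp (flp u i) j) = _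
  simp only [mul_sum]
  have h2 : ∀ i j, hs u i * (hs (flp u i) j * v (flp (flp u i) j))
      + hs u j * (hs (flp u j) i * v (flp (flp u j) i)) = if j = i then 2 * v u else 0 := by
    intro i j
    split_ifs with h
    · subst h
      have : hs u j * hs u j = 1 := by simp [hs, ← prod_mul_distrib, sg_mul_self]
      rw [flp_flp, hs_flp, if_neg (lt_irrefl j)]
      linear_combination 2 * v u * this
    · have : flp (flp u j) i = flp (flp u i) j := by
        simp only [flp, Function.update_of_ne h, Function.update_of_ne (Ne.symm h)]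
        exact Function.update_comm h _ _ _
      rw [this, hs_flp, hs_flp]
      rcases lt_or_gt_of_ne h with h' | h'
      · rw [if_neg (not_lt.mpr h'.le), if_pos h']; ring
      · rw [if_pos h', if_neg (not_lt.mpr h'.le)]; ring
  have h3 : ∑ i, ∑ j, (hs u i * (hs (flp u i) j * v (flp (flp u i) j))
      + hs u j * (hs (flp u j) i * v (flp (flp u j) i))) = Fintype.card κ * (2 * v u) := by
    simp [h2]
  simp only [sum_add_distrib] at h3
  rw [sum_comm (f := fun i j => hs u j * (hs (flp u j) i * v (flp (flp u j) i)))] at h3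
  simp only [Pi.smul_apply, smul_eq_mul]
  linarith

theorem huang [F : Fintype (κ → Bool)] (g : (κ → Bool) → Bool)
    (hg : ∑ u, (∏ i, sg (u i)) * sg (g u) ≠ 0) :
    ∃ δ : (κ → Bool) → ℝ, (∀ u, 0 ≤ δ u) ∧ 0 < ∑ u, δ u ^ 2 ∧
      √(Fintype.card κ) * ∑ u, δ u ^ 2
        ≤ ∑ u, ∑ i, if g u ≠ g (flp u i) then δ u * δ (flp u i) else 0 := by
  obtain rfl : F = Pi.instFintype := Subsingleton.elim _ _
  classical
  let χ : (κ → Bool) → ℝ := fun u => (∏ i, sg (u i)) * sg (g u)
  have hχ : ∀ u, χ u = 1 ∨ χ u = -1 := fun u => mul_self_eq_one_iff.mp (by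
    have : (∏ i, sg (u i)) * ∏ i, sg (u i) = 1 := by simp [← prod_mul_distrib, sg_mul_self]
    simp only [χ]
    linear_combination sg (g u) * sg (g u) * this + sg_mul_self (g u))
  obtain ⟨c, hc⟩ : ∃ c : ℝ, 2 * (univ.filter fun u => χ u ≠ c).card < Fintype.card (κ → Bool) := by
    have e1 : univ.filter (fun u => χ u ≠ -1) = univ.filter fun u => ¬ χ u ≠ 1 :=
      filter_congr fun u _ => by rcases hχ u with h | h <;> rw [h] <;> norm_num
    have e2 := card_filter_add_card_filter_not (s := univ) fun u => χ u ≠ 1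
    have e3 : ∑ u, χ u = (univ.filter fun u => ¬ χ u ≠ 1).card
        - (univ.filter fun u => χ u ≠ 1).card := by
      simp only [card_filter]
      push_cast
      rw [← sum_sub_distrib]
      exact sum_congr rfl fun u _ => by rcases hχ u with h | h <;> rw [h] <;> norm_num
    have e4 : (univ.filter fun u => ¬ χ u ≠ 1).card ≠ (univ.filter fun u => χ u ≠ 1).card := by
      intro h; apply hg; change ∑ u, χ u = 0; rw [e3, h, sub_self]
    rw [card_univ] at e2
    rcases lt_or_gt_of_ne e4 with h | h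
    · exact ⟨-1, by rw [e1]; omega⟩
    · exact ⟨1, by omega⟩
  set l := √(Fintype.card κ : ℝ)
  have hl : l * l = Fintype.card κ := Real.mul_self_sqrt (by positivity)
  obtain ⟨e, he, hE⟩ : ∃ e : ℝ, |e| = l ∧ Fintype.card (κ → Bool) ≤
      2 * Module.finrank ℝ (LinearMap.ker (hA (κ := κ) - e • LinearMap.id)) := by
    have h1 := LinearMap.finrank_range_add_finrank_ker (hA (κ := κ) - (-l) • LinearMap.id)
    have h2 : LinearMap.range (hA (κ := κ) - (-l) • LinearMap.id)
        ≤ LinearMap.ker (hA (κ := κ) - l • LinearMap.id) := by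
      rintro _ ⟨v, rfl⟩
      simp only [LinearMap.mem_ker, LinearMap.sub_apply, LinearMap.smul_apply, LinearMap.id_apply,
        map_sub, map_smul, hA_sq, ← hl]
      module
    have h3 := Submodule.finrank_mono h2
    rw [Module.finrank_fintype_fun_eq_card] at h1
    have hl0 : 0 ≤ l := Real.sqrt_nonneg _
    by_cases h : Fintype.card (κ → Bool) ≤
      2 * Module.finrank ℝ (LinearMap.ker (hA (κ := κ) - l • LinearMap.id))
    · exact ⟨l, abs_of_nonneg hl0, h⟩
    · exact ⟨-l, by rw [abs_neg, abs_of_nonneg hl0], by omega⟩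
  let r : LinearMap.ker (hA (κ := κ) - e • LinearMap.id) →ₗ[ℝ] ({u // χ u ≠ c} → ℝ) :=
    (LinearMap.funLeft ℝ ℝ Subtype.val).comp (Submodule.subtype _)
  obtain ⟨⟨v, hv⟩, hv1, hv0⟩ := Submodule.exists_mem_ne_zero_of_ne_bot
    (LinearMap.ker_ne_bot_of_finrank_lt (f := r) (by
      rw [Module.finrank_fintype_fun_eq_card, Fintype.card_subtype]; omega))
  have hsup : ∀ u, v u ≠ 0 → χ u = c := fun u hu => by
    by_contra h
    exact hu (congrFun hv1 ⟨u, h⟩)
  have hev : ∀ u, e * v u = ∑ i, hs u i * v (flp u i) := fun u => by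
    have := congrFun (sub_eq_zero.mp (show hA v - e • v = 0 from hv)) u
    exact this.symm
  refine ⟨fun u => |v u|, fun u => abs_nonneg _, ?_, ?_⟩
  · obtain ⟨u, hu⟩ := Function.ne_iff.mp (show v ≠ 0 from fun h => hv0 (Subtype.ext h))
    exact sum_pos' (fun _ _ => sq_nonneg _) ⟨u, mem_univ _, by
      have : v u ≠ 0 := hu
      positivity⟩
  · rw [mul_sum]
    refine sum_le_sum fun u _ => ?_
    have h1 : l * |v u| ≤ ∑ i, |v (flp u i)| := by
      rw [← he, ← abs_mul, hev]
      refine (abs_sum_le_sum_abs _ _).trans (le_of_eq (sum_congr rfl fun i _ => ?_))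
      simp [abs_mul, hs, abs_prod, abs_sg]
    have h2 := mul_le_mul_of_nonneg_left h1 (abs_nonneg (v u))
    rw [mul_sum] at h2
    refine le_trans (le_of_eq (by ring)) (h2.trans (le_of_eq (sum_congr rfl fun i _ => ?_)))
    split_ifs with h
    · rfl
    · by_contra hne
      have a1 := hsup u (by rintro h0; simp [h0] at hne)
      have a2 := hsup (flp u i) (by rintro h0; simp [h0] at hne)
      have a3 : ∏ j, sg (flp u i j) = - ∏ j, sg (u j) := by
        rw [← mul_prod_erase _ _ (mem_univ i), ← mul_prod_erase _ _ (mem_univ i), flp,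
          Function.update_self,
          prod_congr rfl fun k hk => by rw [Function.update_of_ne (ne_of_mem_erase hk)]]
        cases u i <;> simp
      rw [not_not] at h
      have a4 : χ (flp u i) = - χ u := by simp only [χ, a3, ← h]; ring
      rcases hχ u with h' | h' <;> linarith

end huang

end Vale.Agent.P362
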