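import Vale.Agent.P362.Func

set_option linter.unusedSectionVars false

namespace Vale.Agent.P362

open Finset Matrix

variable {ν K : ℕ}

open Classical in
noncomputable def surv (x : Ix ν K → Bool) (As : List (GG ν × GG ν)) : Finset (GG ν) :=
  univ.filter fun c => ∀ a ∈ As, ¬ elim x a c

lemma sum_ind {C : Type} [Fintype C] (p : C → Prop) [DecidablePred p] :
    ∑ c, ind (p c) = (univ.filter p).card := by
  rw [card_filter]; push_cast
  exact sum_congr rfl fun c _ => by by_cases h : p c <;> simp [ind, h]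

lemma card_GG : (Fintype.card (GG ν) : ℝ) = 2 ^ ν := by simp

open Classical in
lemma sample (S r : ℕ) (hS : (2 : ℝ) ^ ν ≤ 9 ^ S) (As : List (GG ν × GG ν)) :
    ∃ E : (Ix ν K → Bool) → (List (GG ν × Prop) → ℝ) → ℝ,
      Has (r * (3 ^ S * (As.length * (ν + 1)))) E ∧ (∀ x, Sure (E x) fun l => l.length = r) ∧
      ∀ x a, (surv x As).Nonempty →
        (surv x As).card ≤ 2 * ((surv x As).filter fun c => ¬ elim x a c).card →
        E x (fun l => ind (∀ y ∈ l, elim x a y.1)) ≤ (1 - 1 / (8 * (S + 1))) ^ r := by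
  have h0 := (Has.unif (ι := Ix ν K) (GG ν)).bind (F := fun c x (φ : GG ν × Prop → ℝ) =>
      φ (c, ∀ a ∈ As, ¬ elim x a c))
    fun c => (Det.list_all (fun a => (det_elim a c).map fun p => ¬ p) As).map fun p => (c, p)
  rw [zero_add] at h0
  obtain ⟨E, h1, h2, h3⟩ := h0.find (fun y => y.2) S r
  refine ⟨E, h1, fun x => (h2 x _ (h0.isP x).sure_true).imp fun l hl => hl.1,
    fun x a hne hcard => ?_⟩
  refine le_trans ((h1.isP x).mono fun l => ind_mono fun h y hy hy' => hy'.2 (h y hy))
    (h3 x (fun y => ¬ elim x a y.1) ?_ ?_)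
  · simp only [sum_ind, card_GG]
    have : (1 : ℝ) ≤ (surv x As).card := by exact_mod_cast hne.card_pos
    rw [mul_div_assoc', one_le_div (by positivity)]
    change _ ≤ 9 ^ S * ((surv x As).card : ℝ)
    nlinarith [show (0 : ℝ) < 2 ^ ν by positivity]
  · simp only [sum_ind, card_GG]
    rw [mul_div_assoc']
    refine div_le_div_of_nonneg_right ?_ (by positivity)
    rw [surv, filter_filter] at hcard
    exact_mod_cast hcard

lemma cand {δ : ℝ} (hδ : 0 < δ) (S r : ℕ) (hS : (2 : ℝ) ^ ν ≤ 9 ^ S * δ ^ 4)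
    (l : List (GG ν × Prop)) :
    ∃ E : (Ix ν K → Bool) → (List ((GG ν × GG ν) × Prop) → ℝ) → ℝ,
      Has (r * (3 ^ S * (K + 1 + (K + 1 + (1 + l.length * (ν + 1)))))) E ∧
      (∀ x, Sure (E x) fun l' => l'.length = r ∧
        ∀ y ∈ l', y.2 → flag x y.1 = true ∧ ∀ c ∈ l, elim x y.1 c.1) ∧
      ∀ x a, Valid δ x a →
        E x (fun l' => ind (∀ y ∈ l', ¬ y.2)) ≤ (1 - 1 / (8 * (S + 1))) ^ r := by
  have h0 := (Has.unif (ι := Ix ν K) (GG ν)).bind fun v =>
    (has_forr Had_orth _ Had_zero fun p => (.inl (v, true, p) : Ix ν K)).bind fun u =>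
      (has_forr Had_orth _ Had_zero fun p => (.inl (v, false, p) : Ix ν K)).bind
        (F := fun u' x (φ : (GG ν × GG ν) × Prop → ℝ) =>
          φ ((u, u'), flag x (u, u') = true ∧ ∀ c ∈ l, elim x (u, u') c.1)) fun u' =>
        ((Det.bit (.inr ((u, u'), .inl true) : Ix ν K)).pair
          (Det.list_all (fun c : GG ν × Prop => det_elim (u, u') c.1) l)).map
            fun q => ((u, u'), q.1 = true ∧ q.2)
  rw [zero_add] at h0
  obtain ⟨E, h1, h2, h3⟩ := h0.find (fun y => y.2) S r
  refine ⟨E, h1, fun x => h2 x _ fun φ ψ hle => ?_, fun x a ha => ?_⟩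
  · refine div_le_div_of_nonneg_right (sum_le_sum fun v _ => sum_le_sum fun u _ =>
      mul_le_mul_of_nonneg_left (sum_le_sum fun u' _ =>
        mul_le_mul_of_nonneg_left (hle _ id) (sq_nonneg _)) (sq_nonneg _)) (by positivity)
  · have := h3 x (fun _ => True) ?_ ?_
    · simpa using this
    · have a1 := ha.amp true
      have a2 := ha.amp false
      simp only [if_true, Bool.false_eq_true, if_false] at a1 a2
      have hg : flag x a = true ∧ ∀ c ∈ l, elim x a c.1 :=
        ⟨(ha (.inl a.1)).2.mpr rfl, fun c _ => ha (.inr (.inl c.1))⟩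
      rw [card_GG, mul_div_assoc', one_le_div (by positivity)]
      refine hS.trans (mul_le_mul_of_nonneg_left ?_ (by positivity))
      refine le_trans ?_ (single_le_sum (fun v _ => sum_nonneg fun u _ => mul_nonneg (sq_nonneg _)
        (sum_nonneg fun u' _ => mul_nonneg (sq_nonneg _) (ind_nonneg _))) (mem_univ (idx x a)))
      refine le_trans ?_ (single_le_sum (fun u _ => mul_nonneg (sq_nonneg _)
        (sum_nonneg fun u' _ => mul_nonneg (sq_nonneg _) (ind_nonneg _))) (mem_univ a.1))
      rw [show δ ^ 4 = δ ^ 2 * δ ^ 2 by ring]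
      refine mul_le_mul (pow_le_pow_left₀ hδ.le a1 2) ?_ (by positivity) (sq_nonneg _)
      refine le_trans ?_ (single_le_sum (fun u' _ => mul_nonneg (sq_nonneg _) (ind_nonneg _))
        (mem_univ a.2))
      rw [ind_pos hg, mul_one]
      exact pow_le_pow_left₀ hδ.le a2 2
    · simp only [and_true]
      have := (h0.isP x).nonneg (φ := fun y => ind y.2) fun _ => ind_nonneg _
      linarith

lemma verify (δ : ℝ) (S r : ℕ) (hS : (Fintype.card (Kx ν K) : ℝ) ≤ 9 ^ S) (a : GG ν × GG ν) :
    ∃ E : (Ix ν K → Bool) → (List Prop → ℝ) → ℝ,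
      Has (r * (3 ^ S * (ν + (3 * (ν * (K + 1) + 2) + 1)))) E ∧
      (∀ x, Valid δ x a → Sure (E x) fun l => ∀ y ∈ l, ¬ y) ∧
      ∀ x, ¬ Valid δ x a → E x (fun l => ind (∀ y ∈ l, ¬ y)) ≤ (1 - 1 / (8 * (S + 1))) ^ r := by
  have h0 := (Has.unif (ι := Ix ν K) (Kx ν K)).bind
    (F := fun κ x (φ : Prop → ℝ) => φ (¬ ok δ x a κ)) fun κ => (det_ok δ a κ).map fun p => ¬ p
  rw [zero_add] at h0
  obtain ⟨E, h1, h2, h3⟩ := h0.find (fun y => y) S r
  refine ⟨E, h1, fun x ha => (h2 x (fun y => ¬ y) fun φ ψ hle => ?_).imp fun l hl => hl.2,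
    fun x ha => ?_⟩
  · exact div_le_div_of_nonneg_right (sum_le_sum fun κ _ => hle _ (not_not.mpr (ha κ)))
      (by positivity)
  · have := h3 x (fun _ => True) ?_ ?_
    · simpa using this
    · obtain ⟨κ, hκ⟩ := not_forall.mp ha
      have hc : (0 : ℝ) < Fintype.card (Kx ν K) := by exact_mod_cast Fintype.card_pos
      rw [mul_div_assoc', one_le_div hc]
      refine hS.trans (le_mul_of_one_le_right (by positivity) ?_)
      refine le_trans ?_ (single_le_sum (fun κ _ => ind_nonneg _) (mem_univ κ))
      rw [ind_pos hκ]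
    · simp only [and_true]
      have := (h0.isP x).nonneg (φ := fun y => ind y) fun _ => ind_nonneg _
      linarith

open Classical in
lemma verify_all (δ : ℝ) (S r U : ℕ) (hS : (Fintype.card (Kx ν K) : ℝ) ≤ 9 ^ S)
    (hU : r * (3 ^ S * (ν + (3 * (ν * (K + 1) + 2) + 1))) ≤ U) : ∀ As : List (GG ν × GG ν),
    ∃ E : (Ix ν K → Bool) → (Bool → ℝ) → ℝ, Has (As.length * U) E ∧
      (∀ x, (∃ a ∈ As, Valid δ x a) → Sure (E x) fun b => b = true) ∧
      ∀ x, (∀ a, ¬ Valid δ x a) →
        E x (fun b => ind (b = true)) ≤ As.length * (1 - 1 / (8 * (S + 1))) ^ r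
  | [] => ⟨fun _ φ => φ false, by simpa using Has.pure false, by simp, fun x _ => by simp [ind]⟩
  | a :: As => by
      obtain ⟨E, h1, h2, h3⟩ := verify_all δ S r U hS hU As
      obtain ⟨V, v1, v2, v3⟩ := verify δ S r hS a
      refine ⟨fun x φ => V x fun l => (if ∀ y ∈ l, ¬ y then fun _ φ => φ true else E) x φ,
        ((v1.mono hU).bind (T2 := As.length * U) fun l => ?_).mono
          (by simp [Nat.succ_mul]; omega), fun x hx => ?_, fun x hx => ?_⟩
      · split_ifs
        · exact (Has.pure true).mono (Nat.zero_le _)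
        · exact h1
      · by_cases ha : Valid δ x a
        · refine (v2 x ha).bind fun l hl => ?_
          rw [if_pos hl]; exact Sure.pure rfl
        · refine (v1.isP x).sure_true.bind fun l _ => ?_
          split_ifs
          · exact Sure.pure rfl
          · obtain ⟨a', ha', hv⟩ := hx
            rcases List.mem_cons.mp ha' with rfl | ha'
            · exact absurd hv ha
            · exact h2 x ⟨a', ha', hv⟩
      · have hρ : (0 : ℝ) ≤ As.length * (1 - 1 / (8 * (S + 1))) ^ r :=
          ((h1.isP x).nonneg fun _ => ind_nonneg _).trans (h3 x hx)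
        refine ((v1.isP x).mono (ψ := fun l => ind (∀ y ∈ l, ¬ y) +
          As.length * (1 - 1 / (8 * (S + 1))) ^ r) fun l => ?_).trans ?_
        · split_ifs with hl
          · rw [ind_pos hl]; beta_reduce; rw [ind_pos rfl]; linarith
          · rw [ind_neg hl, zero_add]; exact h3 x hx
        · rw [(v1.isP x).add, (v1.isP x).const]
          simp only [List.length_cons]; push_cast
          linarith [v3 x (hx a)]

open Classical in
lemma loop {δ : ℝ} (hδ : 0 < δ) (S r U : ℕ) (hS : (Fintype.card (Kx ν K) : ℝ) ≤ 9 ^ S)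
    (hS1 : (2 : ℝ) ^ ν ≤ 9 ^ S) (hS2 : (2 : ℝ) ^ ν ≤ 9 ^ S * δ ^ 4)
    (hU : r * (3 ^ S * (ν + (3 * (ν * (K + 1) + 2) + 1))) ≤ U)
    (hU2 : r * (3 ^ S * (K + 1 + (K + 1 + (1 + r * (ν + 1))))) ≤ U) :
    ∀ (s : ℕ) (As : List (GG ν × GG ν)),
    ∃ E : (Ix ν K → Bool) → (Bool → ℝ) → ℝ, Has ((s + 1) * ((As.length + s * r + 1) * U)) E ∧
      (∀ x a, Valid δ x a → (a ∈ As ∨ ((∀ a' ∈ As, flag x a' = true) ∧ (surv x As).card < 2 ^ s)) →
        E x (fun b => ind (b = false)) ≤ s * ((4 ^ ν + 1) * (1 - 1 / (8 * (S + 1))) ^ r)) ∧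
      ∀ x, (∀ a, ¬ Valid δ x a) →
        E x (fun b => ind (b = true)) ≤ (As.length + s * r) * (1 - 1 / (8 * (S + 1))) ^ r := by
  have hρ0 : (0 : ℝ) ≤ 1 - 1 / (8 * (S + 1)) := by
    rw [sub_nonneg, div_le_one (by positivity)]
    have : (0 : ℝ) ≤ S := by positivity
    linarith
  have hρ : (0 : ℝ) ≤ (1 - 1 / (8 * (S + 1))) ^ r := pow_nonneg hρ0 r
  have hmem : ∀ (x : Ix ν K → Bool) a As, Valid δ x a → a ∉ As → (∀ a' ∈ As, flag x a' = true) →
      a.2 ∈ surv x As := by
    intro x a As ha hn hf
    simp only [surv, mem_filter, mem_univ, true_and]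
    rintro a' ha' (h | h)
    · have := (ha (.inl a'.1)).2.mp (by rw [h]; exact hf a' ha')
      exact hn (by rwa [show a = a' from Prod.ext this.symm h])
    · have := (ha (.inl (ptr x a' a.2))).1
      rw [h] at this; exact absurd this (by simp)
  intro s
  induction s with
  | zero =>
    intro As
    obtain ⟨E, h1, h2, h3⟩ := verify_all δ S r U hS hU As
    refine ⟨E, h1.mono (by nlinarith), fun x a ha h => ?_, fun x hx => by simpa using h3 x hx⟩
    have hm : a ∈ As := by
      by_contra hn
      rcases h with h | h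
      · exact hn h
      · have := card_pos.mpr ⟨_, hmem x a As ha hn h.1⟩
        omega
    have := h2 x ⟨a, hm, ha⟩ (fun b => ind (b = false)) (fun _ => 0) fun b hb => by simp [hb, ind]
    simpa [(h1.isP x).const] using this
  | succ s ih =>
    intro As
    choose L l1 l2 l3 using ih
    obtain ⟨E, e1, e2, e3⟩ := sample (K := K) S r hS1 As
    choose C c1 c2 c3 using cand (ν := ν) (K := K) hδ S r hS2
    let nx : List ((GG ν × GG ν) × Prop) → List (GG ν × GG ν) := fun l' =>
      (l'.filter fun y => decide y.2).map Prod.fst ++ As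
    have hlen : ∀ l', l'.length = r → (nx l').length ≤ As.length + r := fun l' h => by
      simp only [nx, List.length_append, List.length_map]
      have := List.length_filter_le (fun y : (GG ν × GG ν) × Prop => decide y.2) l'
      omega
    have hin : ∀ l, l.length = r → Has (U + (s + 1) * ((As.length + r + s * r + 1) * U))
        fun x φ => C l x fun l' => L (nx l') x φ := fun l hl =>
      Has.bind_sure false ((c1 l).mono (by rw [hl]; exact hU2))
        (fun x => (c2 l x).imp fun l' h => h.1) fun l' h => (l1 (nx l')).mono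
          (Nat.mul_le_mul_left _ (Nat.mul_le_mul_right _ (by have := hlen l' h; omega)))
    refine ⟨fun x φ => E x fun l => C l x fun l' => L (nx l') x φ, ?_, fun x a ha h => ?_,
      fun x hx => ?_⟩
    · refine (Has.bind_sure false e1 e2 hin).mono ?_
      have : r * (3 ^ S * (As.length * (ν + 1))) ≤ As.length * U := by
        have h1 : r * (3 ^ S * (ν + 1)) ≤ U :=
          le_trans (Nat.mul_le_mul_left _ (Nat.mul_le_mul_left _ (by omega))) hU
        calc r * (3 ^ S * (As.length * (ν + 1))) = As.length * (r * (3 ^ S * (ν + 1))) := by ring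
          _ ≤ _ := Nat.mul_le_mul_left _ h1
      nlinarith [Nat.zero_le (r * U), Nat.zero_le (s * r * U)]
    · set η := (1 - 1 / (8 * ((S : ℝ) + 1))) ^ r
      by_cases hm : a ∈ As
      · refine le_trans ((e1.isP x).mono (ψ := fun _ => s * ((4 ^ ν + 1) * η)) fun l =>
          (((c1 l).isP x).mono (ψ := fun _ => s * ((4 ^ ν + 1) * η)) fun l' =>
            l2 _ x a ha (Or.inl (by simp [nx, hm]))).trans (((c1 l).isP x).const _).le) ?_
        rw [(e1.isP x).const]; push_cast
        nlinarith [show (0 : ℝ) ≤ (4 ^ ν + 1) * η by positivity]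
      · obtain ⟨hf, hc⟩ := h.resolve_left hm
        let bad : List (GG ν × Prop) → GG ν × GG ν → Prop := fun l a' =>
          (surv x As).card ≤ 2 * ((surv x As).filter fun c => ¬ elim x a' c).card ∧
            ∀ y ∈ l, elim x a' y.1
        have key : ∀ l, C l x (fun l' => L (nx l') x fun b => ind (b = false))
            ≤ s * ((4 ^ ν + 1) * η) + η + ∑ a', ind (bad l a') := fun l => by
          refine (c2 l x _ (fun l' => s * ((4 ^ ν + 1) * η) + ∑ a', ind (bad l a')
            + ind (∀ y ∈ l', ¬ y.2)) fun l' hl' => ?_).trans ?_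
          · have hsum : 0 ≤ ∑ a', ind (bad l a') := sum_nonneg fun _ _ => ind_nonneg _
            have h1 : L (nx l') x (fun b => ind (b = false)) ≤ 1 :=
              ((l1 _).isP x).le_one fun _ => ind_le_one _
            have h0 : (0 : ℝ) ≤ s * ((4 ^ ν + 1) * η) := by positivity
            by_cases hg : ∀ y ∈ l', ¬ y.2
            · rw [ind_pos hg]; linarith
            · push Not at hg
              obtain ⟨y, hy, hy2⟩ := hg
              by_cases hb : bad l y.1
              · have := single_le_sum (f := fun a' => ind (bad l a')) (fun _ _ => ind_nonneg _)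
                  (mem_univ y.1)
                rw [ind_pos hb] at this
                linarith [ind_nonneg (∀ y ∈ l', ¬ y.2)]
              · have h2 := l2 (nx l') x a ha (Or.inr ⟨?_, ?_⟩)
                · linarith [ind_nonneg (∀ y ∈ l', ¬ y.2)]
                · intro a' ha'
                  simp only [nx, List.mem_append, List.mem_map, List.mem_filter,
                    decide_eq_true_eq] at ha'
                  rcases ha' with ⟨y', ⟨h1, h2⟩, rfl⟩ | ha'
                  · exact (hl'.2 y' h1 h2).1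
                  · exact hf a' ha'
                · have h3 : ¬ (surv x As).card
                      ≤ 2 * ((surv x As).filter fun c => ¬ elim x y.1 c).card :=
                    fun h => hb ⟨h, (hl'.2 y hy hy2).2⟩
                  have h4 : surv x (nx l') ⊆ (surv x As).filter fun c => ¬ elim x y.1 c := by
                    intro c hc
                    simp only [surv, mem_filter, mem_univ, true_and] at hc ⊢
                    exact ⟨fun a' ha' => hc a' (by simp [nx, ha']), hc y.1 (by
                      simp only [nx, List.mem_append, List.mem_map, List.mem_filter,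
                        decide_eq_true_eq]
                      exact Or.inl ⟨y, ⟨hy, hy2⟩, rfl⟩)⟩
                  have := card_le_card h4
                  rw [pow_succ] at hc
                  omega
          · rw [((c1 l).isP x).add, ((c1 l).isP x).const]
            linarith [c3 l x a ha]
        refine ((e1.isP x).mono key).trans ?_
        rw [(e1.isP x).add, (e1.isP x).const, (e1.isP x).sum]
        have : ∑ a' : GG ν × GG ν, E x (fun l => ind (bad l a')) ≤ ∑ a' : GG ν × GG ν, η := by
          refine sum_le_sum fun a' _ => ?_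
          by_cases h : (surv x As).card ≤ 2 * ((surv x As).filter fun c => ¬ elim x a' c).card
          · exact le_trans ((e1.isP x).mono fun l => ind_mono fun h => h.2)
              (e3 x a' ⟨_, hmem x a As ha hm hf⟩ h)
          · refine le_trans ((e1.isP x).mono (ψ := fun _ => 0) fun l => ?_) ?_
            · rw [ind_neg fun h' => h h'.1]
            · rwa [(e1.isP x).const]
        simp only [sum_const, card_univ, Fintype.card_prod, nsmul_eq_mul, Nat.cast_mul,
          card_GG] at this
        rw [← mul_pow] at this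
        push_cast
        norm_num at this
        nlinarith
    · refine le_trans (e2 x _ (fun _ => (As.length + r + s * r) * (1 - 1 / (8 * (S + 1))) ^ r)
        fun l _ => (c2 l x _ (fun _ => (As.length + r + s * r) * (1 - 1 / (8 * (S + 1))) ^ r)
          fun l' hl' => (l3 _ x hx).trans ?_).trans (((c1 l).isP x).const _).le) ?_
      · refine mul_le_mul_of_nonneg_right ?_ hρ
        have : ((nx l').length : ℝ) ≤ As.length + r := by exact_mod_cast hlen l' hl'.1
        linarith
      · rw [(e1.isP x).const]; push_cast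
        exact le_of_eq (by ring)

theorem algo {δ : ℝ} (hδ : 0 < δ) (S r U : ℕ) (hS : (Fintype.card (Kx ν K) : ℝ) ≤ 9 ^ S)
    (hS1 : (2 : ℝ) ^ ν ≤ 9 ^ S) (hS2 : (2 : ℝ) ^ ν ≤ 9 ^ S * δ ^ 4)
    (hU : r * (3 ^ S * (ν + (3 * (ν * (K + 1) + 2) + 1))) ≤ U)
    (hU2 : r * (3 ^ S * (K + 1 + (K + 1 + (1 + r * (ν + 1))))) ≤ U)
    (h1 : ((ν + 1) * ((4 ^ ν + 1) * (1 - 1 / (8 * (S + 1))) ^ r) : ℝ) ≤ 1 / 3)
    (h2 : ((ν + 1) * r * (1 - 1 / (8 * (S + 1))) ^ r : ℝ) ≤ 1 / 3) :
    ∃ E : (Ix ν K → Bool) → (Bool → ℝ) → ℝ, Has ((ν + 2) * (((ν + 1) * r + 1) * U)) E ∧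
      ∀ x, 2 / 3 ≤ E x fun y => ind (y = FF δ x) := by
  obtain ⟨E, e1, e2, e3⟩ := loop hδ S r U hS hS1 hS2 hU hU2 (ν + 1) []
  refine ⟨E, by simpa using e1, fun x => ?_⟩
  by_cases hx : ∃ a, Valid δ x a
  · obtain ⟨a, ha⟩ := hx
    have hF : FF δ x = true := by simp only [FF, decide_eq_true_eq]; exact ⟨a, ha⟩
    have := e2 x a ha (Or.inr ⟨by simp, lt_of_le_of_lt (card_le_univ _) (by simp [pow_succ])⟩)
    have e : (fun y => ind (y = FF δ x)) = fun y => 1 - ind (y = false) := by
      ext y; cases y <;> simp [hF, ind]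
    rw [e, (e1.isP x).sub, (e1.isP x).const]
    push_cast at this
    linarith
  · have hF : FF δ x = false := by simp only [FF, decide_eq_false_iff_not]; exact hx
    have := e3 x (not_exists.mp hx)
    have e : (fun y => ind (y = FF δ x)) = fun y => 1 - ind (y = true) := by
      ext y; cases y <;> simp [hF, ind]
    rw [e, (e1.isP x).sub, (e1.isP x).const]
    simp only [List.length_nil] at this
    push_cast at this
    linarith

end Vale.Agent.P362
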