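import Vale.Agent.P362.Prog

namespace Vale.Agent.P362

open Matrix Finset Real

variable {ι Y Z : Type}

lemma Has.amp_iter {T : ℕ} {E : (ι → Bool) → (Y → ℝ) → ℝ} (h : Has T E) (good : Y → Prop)
    (s : ℕ) : ∃ E' : (ι → Bool) → (Y → ℝ) → ℝ, Has (3 ^ s * T) E' ∧ ∀ x, ∃ g b : ℝ, 0 ≤ g ∧ 0 ≤ b ∧
      g * E x (fun y => ind (good y)) = sin (3 ^ s * arcsin (√(E x fun y => ind (good y)))) ^ 2 ∧
      ∀ φ, E' x φ = g * E x (fun y => ind (good y) * φ y) +
        b * E x (fun y => ind (¬ good y) * φ y) := by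
  induction s with
  | zero =>
    refine ⟨E, by simpa using h, fun x => ⟨1, 1, zero_le_one, zero_le_one, ?_, fun φ => ?_⟩⟩
    · have h0 := (h.isP x).nonneg (fun y => ind_nonneg (good y))
      have h1 := (h.isP x).le_one (fun y => ind_le_one (good y))
      rw [pow_zero, one_mul, one_mul, sin_arcsin (by linarith [sqrt_nonneg (E x fun y => ind (good y))])
        (sqrt_le_one.mpr h1), sq_sqrt h0]
    · rw [one_mul, one_mul, ← (h.isP x).add]
      congr 1; ext y; rw [ind_not]; ring
  | succ s ih =>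
    obtain ⟨E', hE', h'⟩ := ih
    refine ⟨_, (hE'.amp good).mono (by rw [pow_succ]; nlinarith), fun x => ?_⟩
    obtain ⟨g, b, hg, hb, hs, hφ⟩ := h' x
    have z : E x (fun _ => 0) = 0 := (h.isP x).const 0
    have e1 : ∀ φ : Y → ℝ, E' x (fun y => ind (good y) * φ y)
        = g * E x (fun y => ind (good y) * φ y) := by
      intro φ
      rw [hφ]
      have a1 : (fun y => ind (good y) * (ind (good y) * φ y)) = fun y => ind (good y) * φ y := by
        ext y; by_cases hy : good y <;> simp [ind, hy]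
      have a2 : (fun y => ind (¬ good y) * (ind (good y) * φ y)) = fun _ => 0 := by
        ext y; by_cases hy : good y <;> simp [ind, hy]
      rw [a1, a2, z]; ring
    have e2 : ∀ φ : Y → ℝ, E' x (fun y => ind (¬ good y) * φ y)
        = b * E x (fun y => ind (¬ good y) * φ y) := by
      intro φ
      rw [hφ]
      have a1 : (fun y => ind (¬ good y) * (ind (¬ good y) * φ y))
          = fun y => ind (¬ good y) * φ y := by
        ext y; by_cases hy : good y <;> simp [ind, hy]
      have a2 : (fun y => ind (good y) * (ind (¬ good y) * φ y)) = fun _ => 0 := by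
        ext y; by_cases hy : good y <;> simp [ind, hy]
      rw [a1, a2, z]; ring
    have e3 : E' x (fun y => ind (good y)) = g * E x (fun y => ind (good y)) := by
      simpa using e1 fun _ => 1
    refine ⟨(3 - 4 * E' x fun y => ind (good y)) ^ 2 * g,
      (1 - 4 * E' x fun y => ind (good y)) ^ 2 * b, by positivity, by positivity, ?_, fun φ => ?_⟩
    · rw [mul_assoc, e3, hs, pow_succ' (3 : ℝ) s, mul_assoc (3 : ℝ), sin_three_mul]
      ring
    · simp only [e1, e2]; ring

lemma exists_scale {θ : ℝ} {S : ℕ} (h1 : θ ≤ π / 2) (hS : 1 ≤ 3 ^ S * θ) :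
    ∃ s ≤ S, 1 / 4 ≤ sin (3 ^ s * θ) ^ 2 := by
  have hπ : π / 6 ≤ 1 := by linarith [pi_lt_four]
  have hex : ∃ s : ℕ, π / 6 ≤ 3 ^ s * θ := ⟨S, hπ.trans hS⟩
  refine ⟨Nat.find hex, Nat.find_min' hex (hπ.trans hS), ?_⟩
  have hlo := Nat.find_spec hex
  have hhi : 3 ^ Nat.find hex * θ ≤ π / 2 := by
    rcases hn : Nat.find hex with _ | n
    · simpa using h1
    · have := Nat.find_min hex (m := n) (by omega)
      rw [pow_succ]; linarith
  have : sin (π / 6) ≤ sin (3 ^ Nat.find hex * θ) :=
    sin_le_sin_of_le_of_le_pi_div_two (by linarith [pi_pos]) hhi hlo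
  rw [sin_pi_div_six] at this
  nlinarith

/-- amplitude amplification with a random scale -/
lemma Has.search {T : ℕ} {E : (ι → Bool) → (Y → ℝ) → ℝ} (h : Has T E) (good : Y → Prop)
    (S : ℕ) : ∃ E' : (ι → Bool) → (Y → ℝ) → ℝ, Has (3 ^ S * T) E' ∧
      (∀ x A, Sure (E x) A → Sure (E' x) A) ∧
      ∀ x, 1 ≤ 9 ^ S * E x (fun y => ind (good y)) → ∀ φ : Y → ℝ, (∀ y, 0 ≤ φ y) →
        E x (fun y => ind (good y) * φ y) ≤
          4 * (S + 1) * E x (fun y => ind (good y)) * E' x (fun y => ind (good y) * φ y) := by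
  choose F hF hF' using h.amp_iter good
  refine ⟨fun x φ => (∑ s : Fin (S + 1), F s x φ) / Fintype.card (Fin (S + 1)), ?_, ?_, ?_⟩
  · have := (Has.unif (ι := ι) (Fin (S + 1))).bind (T2 := 3 ^ S * T) (F := fun s : Fin (S + 1) => F s)
      fun s => (hF s).mono (Nat.mul_le_mul_right _ (Nat.pow_le_pow_right (by norm_num)
        (Nat.lt_succ_iff.mp s.2)))
    simpa using this
  · intro x A hA φ ψ hle
    refine div_le_div_of_nonneg_right (sum_le_sum fun s _ => ?_) (by positivity)
    obtain ⟨g, b, hg, hb, -, hφ⟩ := hF' s x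
    rw [hφ, hφ]
    refine add_le_add (mul_le_mul_of_nonneg_left (hA _ _ fun y hy => ?_) hg)
      (mul_le_mul_of_nonneg_left (hA _ _ fun y hy => ?_) hb) <;>
    exact mul_le_mul_of_nonneg_left (hle y hy) (ind_nonneg _)
  · intro x hx φ hφ
    set a := E x (fun y => ind (good y)) with ha
    have h0 : 0 ≤ a := (h.isP x).nonneg (fun y => ind_nonneg (good y))
    have h1 : a ≤ 1 := (h.isP x).le_one (fun y => ind_le_one (good y))
    have hθ : √a ≤ arcsin (√a) := by
      have := sin_le (arcsin_nonneg.mpr (sqrt_nonneg a))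
      rwa [sin_arcsin (by linarith [sqrt_nonneg a]) (sqrt_le_one.mpr h1)] at this
    have h3 : 1 ≤ 3 ^ S * √a := by
      have : (1 : ℝ) ≤ (3 ^ S * √a) ^ 2 := by
        rw [mul_pow, sq_sqrt h0, ← pow_mul, mul_comm S, pow_mul]; norm_num; exact hx
      by_contra hc
      have : 0 ≤ 3 ^ S * √a := by positivity
      nlinarith
    obtain ⟨s, hs, hsin⟩ := exists_scale (arcsin_le_pi_div_two (√a))
      (h3.trans (mul_le_mul_of_nonneg_left hθ (by positivity)))
    have hn : ∀ t, 0 ≤ F t x fun y => ind (good y) * φ y := fun t =>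
      ((hF t).isP x).nonneg fun y => mul_nonneg (ind_nonneg _) (hφ y)
    have hle : F s x (fun y => ind (good y) * φ y)
        ≤ ∑ t : Fin (S + 1), F t x fun y => ind (good y) * φ y :=
      single_le_sum (f := fun t : Fin (S + 1) => F t x fun y => ind (good y) * φ y)
        (fun t _ => hn t) (mem_univ ⟨s, Nat.lt_succ_of_le hs⟩)
    obtain ⟨g, b, hg, hb, hga, hφ'⟩ := hF' s x
    have a1 : (fun y => ind (good y) * (ind (good y) * φ y)) = fun y => ind (good y) * φ y := by
      ext y; by_cases hy : good y <;> simp [ind, hy]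
    have a2 : (fun y => ind (¬ good y) * (ind (good y) * φ y)) = fun _ => 0 := by
      ext y; by_cases hy : good y <;> simp [ind, hy]
    rw [hφ', a1, a2, (h.isP x).const 0, mul_zero, add_zero] at hle
    rw [← ha] at hga
    have hP : 0 ≤ E x fun y => ind (good y) * φ y :=
      (h.isP x).nonneg fun y => mul_nonneg (ind_nonneg _) (hφ y)
    simp only [Fintype.card_fin]
    push_cast
    rw [mul_div_assoc', le_div_iff₀ (by positivity)]
    have : (E x fun y => ind (good y) * φ y) ≤ 4 * a * (g * E x fun y => ind (good y) * φ y) := by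
      nlinarith
    have h4 := mul_le_mul_of_nonneg_left hle (show 0 ≤ 4 * a by positivity)
    have hS : (0 : ℝ) ≤ S + 1 := by positivity
    nlinarith

/-- independent repetitions -/
def rep (F : (Y → ℝ) → ℝ) : ℕ → (List Y → ℝ) → ℝ
  | 0, φ => φ []
  | r + 1, φ => F fun y => rep F r fun l => φ (y :: l)

lemma Has.rep {T : ℕ} {E : (ι → Bool) → (Y → ℝ) → ℝ} (h : Has T E) :
    ∀ r, Has (r * T) fun x => rep (E x) r
  | 0 => by simpa [P362.rep] using Has.pure (ι := ι) ([] : List Y)
  | r + 1 => by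
      have := h.bind fun y => (Has.rep h r).map (fun l => y :: l)
      exact this.mono (by rw [Nat.succ_mul]; omega)

lemma Sure.rep {F : (Y → ℝ) → ℝ} {A : Y → Prop} (h : Sure F A) :
    ∀ r, Sure (rep F r) fun l => l.length = r ∧ ∀ y ∈ l, A y
  | 0 => fun φ ψ hle => hle [] (by simp)
  | r + 1 => fun φ ψ hle => h _ _ fun y hy => Sure.rep h r _ _ fun l hl =>
      hle _ ⟨by simp [hl.1], by simpa using ⟨hy, hl.2⟩⟩

lemma IsP.rep_all {F : (Y → ℝ) → ℝ} (h : IsP F) (hr : ∀ r, IsP (rep F r)) (A : Y → Prop) :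
    ∀ r, rep F r (fun l => ind (∀ y ∈ l, A y)) = F (fun y => ind (A y)) ^ r
  | 0 => by simp [P362.rep, ind]
  | r + 1 => by
      simp only [P362.rep, List.forall_mem_cons, ind_and, (hr r).const_mul, IsP.rep_all h hr A r]
      rw [pow_succ, ← h.const_mul]
      congr 1; ext y; ring

/-- deterministic computations -/
def Det (T : ℕ) (g : (ι → Bool) → Y) : Prop := Has T fun x φ => φ (g x)

lemma Det.mono {T T' : ℕ} {g : (ι → Bool) → Y} (h : Det T g) (hT : T ≤ T') : Det T' g :=
  Has.mono h hT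

lemma Det.const (y : Y) : Det (ι := ι) 0 fun _ => y := Has.pure y

lemma Det.map {T : ℕ} {g : (ι → Bool) → Y} (h : Det T g) (u : Y → Z) : Det T fun x => u (g x) :=
  Has.map h u

lemma Det.bind {T1 T2 : ℕ} {g : (ι → Bool) → Y} {u : Y → (ι → Bool) → Z} (h1 : Det T1 g)
    (h2 : ∀ y, Det T2 (u y)) : Det (T1 + T2) fun x => u (g x) x :=
  Has.bind h1 h2

lemma Det.pair {T1 T2 : ℕ} {g : (ι → Bool) → Y} {u : (ι → Bool) → Z} (h1 : Det T1 g)
    (h2 : Det T2 u) : Det (T1 + T2) fun x => (g x, u x) :=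
  h1.bind (u := fun y x => (y, u x)) fun y => h2.map fun z => (y, z)

lemma Det.bit (i : ι) : Det 1 fun x : ι → Bool => x i := by
  obtain ⟨H, hHd⟩ : ∃ H : Matrix Bool Bool ℝ, ∀ a b, H a b = (√2)⁻¹ * sg (a && b) :=
    ⟨fun a b => (√2)⁻¹ * sg (a && b), fun _ _ => rfl⟩
  have h2 : (√2)⁻¹ * (√2)⁻¹ = (1 / 2 : ℝ) := by
    rw [← mul_inv, mul_self_sqrt (by norm_num)]; norm_num
  have hH : Orth H := by
    ext a b
    cases a <;> cases b <;> simp [hHd, Matrix.mul_apply, h2] <;> norm_num
  refine ⟨Bool, inferInstance, inferInstance, false,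
    fun x => H * ph (fun b => if b = true then some i else none) x * H, id,
    ⟨H, _, fun _ => H, hH, Impl.const hH, fun x => rfl⟩, fun x φ => ?_⟩
  have e : ∀ a, (H * ph (fun b => if b = true then some i else none) x * H) a false
      = (1 + sg a * sg (x i)) / 2 := by
    intro a
    rw [Matrix.mul_apply]
    simp only [ph, mul_diagonal, hHd, Fintype.sum_bool]
    simp
    linear_combination (1 + sg a * sg (x i)) * h2
  simp only [e, Fintype.sum_bool, id]
  cases x i <;> simp <;> norm_num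

lemma Det.list_all {C : Type} {T : ℕ} {p : C → (ι → Bool) → Prop} (h : ∀ c, Det T (p c)) :
    ∀ l : List C, Det (l.length * T) fun x => ∀ c ∈ l, p c x
  | [] => by simpa using Det.const (ι := ι) True
  | c :: l => by
      have := ((h c).pair (Det.list_all h l)).map fun q => q.1 ∧ q.2
      simp only [List.forall_mem_cons]
      exact this.mono (by simp [Nat.succ_mul]; omega)

lemma Det.word {w : ℕ} (pos : Fin w → ι) : Det w fun (x : ι → Bool) j => x (pos j) := by
  induction w with
  | zero =>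
    have e : (fun (x : ι → Bool) j => x (pos j)) = fun _ (_ : Fin 0) => false :=
      funext fun _ => funext fun j => j.elim0
    rw [e]; exact Det.const _
  | succ w ih =>
    have := ((Det.bit (pos 0)).pair (ih fun j => pos j.succ)).map
      fun q => (Fin.cons q.1 q.2 : Fin (w + 1) → Bool)
    refine Det.mono ?_ (show 1 + w ≤ w + 1 by omega)
    have e : (fun (x : ι → Bool) j => x (pos j)) = fun x =>
        (Fin.cons (x (pos 0)) fun j : Fin w => x (pos j.succ) : Fin (w + 1) → Bool) := by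
      ext x j
      refine Fin.cases ?_ (fun j => ?_) j <;> simp
    rw [e]; exact this

end Vale.Agent.P362
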