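import Vale.Agent.P362.Forr
import Vale.Agent.P362.Search

set_option linter.unusedSectionVars false

namespace Vale.Agent.P362

open Finset MvPolynomial Matrix

variable {G : Type} [Fintype G] [DecidableEq G] {K : ℕ}

/-- the intermediate vectors of the Forrelation circuit -/
noncomputable def stage (H : Matrix G G ℝ) (d : ℕ → G → ℝ) : ℕ → G → ℝ
  | 0 => d 0
  | j + 1 => fun c => d (j + 1) c * (H *ᵥ stage H d j) c

lemma stage_path (H : Matrix G G ℝ) (d : ℕ → G → ℝ) : ∀ (m : ℕ) (w : G → ℝ),
    ∑ c, w c * stage H d m c = ∑ a : Fin (m + 1) → G, w (a (Fin.last m)) *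
      ((∏ j : Fin (m + 1), d j (a j)) * ∏ j : Fin m, H (a j.succ) (a j.castSucc))
  | 0, w => by
      rw [← (Equiv.funUnique (Fin 1) G).symm.sum_comp]
      simp [stage]
  | m + 1, w => by
      have h1 : ∑ c, w c * stage H d (m + 1) c
          = ∑ i, (∑ c, w c * d (m + 1) c * H c i) * stage H d m i := by
        simp only [stage, mulVec, dotProduct, mul_sum, sum_mul]
        rw [sum_comm]
        exact sum_congr rfl fun i _ => sum_congr rfl fun c _ => by ring
      rw [h1, stage_path H d m, ← (Fin.snocEquiv fun _ : Fin (m + 2) => G).sum_comp,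
        Fintype.sum_prod_type, sum_comm]
      refine sum_congr rfl fun a _ => ?_
      rw [sum_mul]
      refine sum_congr rfl fun c _ => ?_
      rw [Fin.prod_univ_castSucc (n := m + 1), Fin.prod_univ_castSucc (n := m)
        (fun j => H (((Fin.snocEquiv fun _ : Fin (m + 2) => G) (c, a)) j.succ)
          (((Fin.snocEquiv fun _ : Fin (m + 2) => G) (c, a)) j.castSucc))]
      simp only [Fin.snocEquiv_apply, Fin.snoc_last, Fin.snoc_castSucc, Fin.val_castSucc,
        Fin.val_last, Fin.succ_last, Fin.succ_castSucc]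
      ring

lemma stage_sq {H : Matrix G G ℝ} (hH : Orth H) {d : ℕ → G → ℝ} (hd : ∀ j c, d j c ^ 2 = 1) :
    ∀ m, ∑ c, stage H d m c ^ 2 = Fintype.card G
  | 0 => by simp [stage, hd]
  | m + 1 => by
      simp only [stage, mul_pow, hd, one_mul]
      rw [← stage_sq hH hd m]
      have : (H *ᵥ stage H d m) ⬝ᵥ (H *ᵥ stage H d m) = stage H d m ⬝ᵥ stage H d m := by
        rw [dotProduct_mulVec, vecMul_mulVec, hH, vecMul_one]
      simpa [dotProduct, sq] using this

lemma stage_one {H : Matrix G G ℝ} (hH : Orth H) :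
    ∀ m, stage (Matrix.of fun a b => H a b ^ 2) (fun _ _ => 1) m = fun _ => 1
  | 0 => rfl
  | m + 1 => by
      ext c
      simp only [stage, stage_one hH m, mulVec, dotProduct, of_apply, one_mul, mul_one]
      simpa using hH.transpose.sum_sq c

lemma stage_smul (H : Matrix G G ℝ) (h : ℝ) (d : ℕ → G → ℝ) :
    ∀ m, stage (h • H) d m = h ^ m • stage H d m
  | 0 => by simp [stage]
  | m + 1 => by
      ext c
      simp only [stage, stage_smul H h d m, smul_mulVec, mulVec_smul, Pi.smul_apply, smul_eq_mul]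
      ring

lemma stage_congr (H : Matrix G G ℝ) {d d' : ℕ → G → ℝ} :
    ∀ m, (∀ j ≤ m, d j = d' j) → stage H d m = stage H d' m
  | 0, h => h 0 le_rfl
  | m + 1, h => by
      simp only [stage, h _ le_rfl, stage_congr H m fun j hj => h j (by omega)]

/-- signs of an instance -/
def sgn (z : Fin (K + 1) × G → Bool) (j : ℕ) (c : G) : ℝ := sg (z (Fin.ofNat (K + 1) j, c))

/-- the Forrelation value -/
noncomputable def Fo (H : Matrix G G ℝ) (z : Fin (K + 1) × G → Bool) : ℝ :=
  (∑ c, stage H (sgn z) K c) / Fintype.card G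

lemma abs_Fo_le [Nonempty G] {H : Matrix G G ℝ} (hH : Orth H) (z : Fin (K + 1) × G → Bool) :
    |Fo H z| ≤ 1 := by
  have hc : (0 : ℝ) < Fintype.card G := by exact_mod_cast Fintype.card_pos
  have h1 := sum_mul_sq_le_sq_mul_sq univ (fun _ => (1 : ℝ)) (stage H (sgn z) K)
  rw [stage_sq (d := sgn z) hH fun j c => sg_sq _] at h1
  simp only [one_mul, one_pow, sum_const, card_univ, nsmul_eq_mul, mul_one] at h1
  rw [Fo, abs_div, abs_of_pos hc, div_le_one hc]
  exact abs_le_of_sq_le_sq (by linarith) hc.le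

lemma sum_cc (H : Matrix G G ℝ) (hK : 0 < K) (F : (Fin (K + 1) → Option G) → ℝ) :
    ∑ a, cc H a * F a = ∑ a : Fin (K + 1) → G,
      (∏ j : Fin K, H (a j.succ) (a j.castSucc)) * F fun j => some (a j) := by
  symm
  refine Finset.sum_of_injOn (fun a j => some (a j)) (fun a _ b _ h => ?_) (by simp)
    (fun a _ ha => ?_) (fun a _ => by simp [cc, Hopt])
  · ext j; simpa using congrFun h j
  · have : ∃ j, a j = none := by
      by_contra hc
      push Not at hc
      choose b hb using fun j => Option.ne_none_iff_exists'.mp (hc j)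
      exact ha ⟨b, by simp, by ext1 j; simp [hb]⟩
    obtain ⟨j, hj⟩ := this
    have : cc H a = 0 := by
      revert hj
      refine Fin.cases (fun hj => ?_) (fun j hj => ?_) j
      · refine prod_eq_zero (mem_univ ⟨0, hK⟩) ?_
        have : (⟨0, hK⟩ : Fin K).castSucc = 0 := rfl
        rw [this, hj]
        cases a (⟨0, hK⟩ : Fin K).succ <;> simp [Hopt]
      · exact prod_eq_zero (mem_univ j) (by simp [hj, Hopt])
    simp [this]

lemma sum_char_wt (a : Fin (K + 1) → G) (a' : Fin (K + 1) → Option G) (y : Fin (K + 1) × G → ℝ) :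
    ∑ x : Fin (K + 1) × G → Bool, (∏ j, sg (x (j, a j))) * wt a' y x = ∏ p : Fin (K + 1) × G,
      if p.2 = a p.1 then (if a' p.1 = some p.2 then 1 else y p)
      else (if a' p.1 = some p.2 then 0 else 1) := by
  have e : ∀ x : Fin (K + 1) × G → Bool, ∏ j, sg (x (j, a j))
      = ∏ p : Fin (K + 1) × G, if p.2 = a p.1 then sg (x p) else 1 := fun x => by
    rw [Fintype.prod_prod_type]; simp
  simp only [e, wt, ← prod_mul_distrib]
  rw [← Fintype.piFinset_univ, ← prod_univ_sum (fun _ => univ)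
    (fun p b => (if p.2 = a p.1 then sg b else 1) *
      if a' p.1 = some p.2 then sg b / 2 else (1 + sg b * y p) / 2)]
  refine prod_congr rfl fun p _ => ?_
  simp only [Fintype.univ_bool, mem_singleton, Bool.true_eq_false, not_false_eq_true, sum_insert,
    sum_singleton, sg_true, sg_false]
  split_ifs <;> ring

lemma Fo_eq (H : Matrix G G ℝ) (z : Fin (K + 1) × G → Bool) : Fo H z = (∑ a : Fin (K + 1) → G,
    (∏ j : Fin K, H (a j.succ) (a j.castSucc)) * ∏ j, sg (z (j, a j))) / Fintype.card G := by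
  have := stage_path H (sgn z) K fun _ => 1
  simp only [one_mul, sgn, Fin.ofNat_val_eq_self] at this
  simp only [Fo, this, mul_comm]

theorem signal [Nonempty G] {H : Matrix G G ℝ} (ε : ℝ) (hH : Orth H) (hK : 0 < K) {r : ℕ}
    (hr : r ≠ 0) {δ : ℝ} (hδ : 0 ≤ δ) (h2 : 2 * δ + tl H ε K r ≤ ε ^ (2 * K)) :
    δ ≤ ∑ z, ind (δ ≤ Fo (K := K) H z) * Dw H ε z := by
  have hc : (0 : ℝ) < Fintype.card G := by exact_mod_cast Fintype.card_pos
  obtain ⟨t, -, h⟩ := chain H ε hH hK (Fo H)
  have h1 := (abs_le.mp (Dw_close H ε hr (Fo (K := K) H) (abs_Fo_le hH))).1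
  have e0 : (1 / 2) ^ Fintype.card (Fin (K + 1) × G) * ∑ x, Fo (K := K) H x = 0 := by
    have : ∀ x : Fin (K + 1) × G → Bool, (1 / 2 : ℝ) ^ Fintype.card (Fin (K + 1) × G)
        = wt (fun _ => none) 0 x := fun x => by simp [wt]
    rw [mul_sum, sum_congr rfl fun x _ => by rw [this x, mul_comm, Fo_eq, div_mul_eq_mul_div,
      sum_mul], ← sum_div, sum_comm, sum_eq_zero, zero_div]
    intro a _
    simp only [mul_assoc, ← mul_sum, sum_char_wt]
    rw [prod_eq_zero (mem_univ (0, a 0)) (by simp), mul_zero]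
  have e1 : ∑ x, Fo H x * ∑ a, cc H a * LG (Wp H ε (sc t) a x : MvPolynomial (Fin K × G) ℝ) = 1 := by
    have e : ∑ x, Fo H x * ∑ a, cc H a * LG (Wp H ε (sc t) a x : MvPolynomial (Fin K × G) ℝ)
        = LG (∑ x, C (Fo H x) * ∑ a, C (cc H a) * Wp H ε (sc t) a x :
          MvPolynomial (Fin K × G) ℝ) := by
      simp only [map_sum, LG_C_mul]
    have e2 : ∀ ω, eval ω (∑ x, C (Fo H x) * ∑ a, C (cc H a) * Wp H ε (sc t) a x :
        MvPolynomial (Fin K × G) ℝ) = 1 := fun ω => by
      simp only [map_sum, map_mul, eval_C, eval_Wp, sum_cc H hK, Fo_eq]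
      generalize (fun p => eval ω (mu H ε (sc t) p)) = y
      have h3 := stage_path (Matrix.of fun a b => H a b ^ 2) (fun _ _ => 1) K fun _ => 1
      simp only [stage_one hH, one_mul, prod_const_one, of_apply, sum_const, card_univ,
        nsmul_eq_mul, mul_one, prod_pow] at h3
      simp only [div_mul_eq_mul_div, ← sum_div, sum_mul_sum]
      rw [div_eq_one_iff_eq hc.ne', h3, sum_comm]
      refine sum_congr rfl fun a _ => ?_
      rw [sum_comm, Finset.sum_eq_single a]
      · have := sum_char_wt a (fun j => some (a j)) y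
        rw [prod_eq_one (fun p _ => by
          by_cases hp : p.2 = a p.1 <;> simp [hp, eq_comm])] at this
        rw [sq, ← mul_one (_ * _), ← this, mul_sum]
        exact sum_congr rfl fun x _ => by ring
      · intro a' _ ha
        obtain ⟨j, hj⟩ := Function.ne_iff.mp ha
        have := sum_char_wt a (fun j => some (a' j)) y
        rw [prod_eq_zero (mem_univ (j, a' j)) (by simp [hj])] at this
        rw [← mul_zero ((∏ j : Fin K, H (a j.succ) (a j.castSucc)) *
          ∏ j : Fin K, H (a' j.succ) (a' j.castSucc)), ← this, mul_sum]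
        exact sum_congr rfl fun x _ => by ring
      · simp
    rw [e, LG_apply]
    simp [e2]
  rw [e0, e1] at h
  have h3 : ∑ z, Fo (K := K) H z * Dw H ε z
      ≤ ∑ z, ind (δ ≤ Fo (K := K) H z) * Dw H ε z + δ * ∑ z, Dw (K := K) H ε z := by
    rw [mul_sum, ← sum_add_distrib]
    refine sum_le_sum fun z _ => ?_
    rw [← add_mul]
    refine mul_le_mul_of_nonneg_right ?_ (Dw_nonneg H ε hK z)
    by_cases hz : δ ≤ Fo H z
    · rw [ind_pos hz]; linarith [(abs_le.mp (abs_Fo_le hH z)).2]
    · rw [ind_neg hz]; linarith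
  have h4 := mul_le_mul_of_nonneg_left (sum_Dw_le (K := K) H ε) hδ
  linarith

/-- the quantum circuit -/
lemma has_forr {ι : Type} {H : Matrix G G ℝ} (hH : Orth H) (s : G) {h : ℝ} (hs : ∀ c, H c s = h)
    (pos : Fin (K + 1) × G → ι) :
    Has (K + 1) fun (x : ι → Bool) (φ : G → ℝ) =>
      ∑ u, (h * (H *ᵥ stage H (sgn (x ∘ pos)) K) u) ^ 2 * φ u := by
  have key : ∀ m, ∃ W : (ι → Bool) → Matrix G G ℝ, Impl (m + 1) W ∧
      ∀ x, (fun c => W x c s) = h • stage H (sgn (x ∘ pos)) m := by
    intro m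
    induction m with
    | zero =>
      refine ⟨fun x => 1 * ph (fun c => some (pos (Fin.ofNat (K + 1) 0, c))) x * H,
        ⟨1, _, fun _ => H, Orth.one, Impl.const hH, fun _ => rfl⟩, fun x => ?_⟩
      ext c
      simp [ph, hs, stage, sgn, mul_comm]
    | succ m ih =>
      obtain ⟨W, hW, hc⟩ := ih
      refine ⟨fun x => 1 * ph (fun c => some (pos (Fin.ofNat (K + 1) (m + 1), c))) x * (H * W x),
        ⟨1, _, fun x => H * W x, Orth.one, hW.const_mul hH, fun _ => rfl⟩, fun x => ?_⟩
      ext c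
      have : (H * W x) c s = (H *ᵥ fun c => W x c s) c := rfl
      simp only [Matrix.one_mul, ph, diagonal_mul, this, hc, stage, sgn, mulVec_smul, Pi.smul_apply,
        smul_eq_mul, Option.elim_some, Function.comp]
      ring
  obtain ⟨W, hW, hc⟩ := key K
  refine ⟨G, inferInstance, inferInstance, s, fun x => H * W x, id, hW.const_mul hH, fun x φ => ?_⟩
  refine sum_congr rfl fun u _ => ?_
  have : (H * W x) u s = (H *ᵥ fun c => W x c s) u := rfl
  simp only [this, hc, mulVec_smul, Pi.smul_apply, smul_eq_mul, id]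

end Vale.Agent.P362
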