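import Vale.Agent.P362.Impl

namespace Vale.Agent.P362

open Matrix Finset MeasureTheory ProbabilityTheory MvPolynomial

/-- moments of the standard Gaussian -/
noncomputable def mom (n : ℕ) : ℝ := ∫ x, x ^ n ∂gaussianReal 0 1

lemma integrable_pow_gauss (n : ℕ) : Integrable (fun x : ℝ => x ^ n) (gaussianReal 0 1) :=
  integrable_pow_of_mem_interior_integrableExpSet (X := fun x : ℝ => x) (by simp) n

lemma mom_zero : mom 0 = 1 := by simp [mom]

lemma mom_succ (n : ℕ) : mom (n + 1) = n * mom (n - 1) := by
  let g : ℝ → ℝ := fun t => Real.exp (t ^ 2 / 2)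
  have hg : ContDiff ℝ ⊤ g := by fun_prop
  have hm : ∀ k, mom k = iteratedDeriv k g 0 := by
    intro k
    have := iteratedDeriv_mgf_zero (X := fun x : ℝ => x) (μ := gaussianReal 0 1) (by simp) k
    rw [mgf_fun_id_gaussianReal] at this
    simp only [zero_mul, zero_add, NNReal.coe_one, one_mul] at this
    rw [mom]; exact this.symm
  have hd : ∀ k, Differentiable ℝ (iteratedDeriv k g) := fun k =>
    hg.differentiable_iteratedDeriv k (by simp)
  have h1 : deriv g = fun t => t * g t := by
    ext t
    have : HasDerivAt (fun t : ℝ => t ^ 2 / 2) t t := by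
      simpa using (hasDerivAt_pow 2 t).div_const 2
    rw [this.exp.deriv, mul_comm]
  have h2 : ∀ k, iteratedDeriv k (fun t => t * g t)
      = fun t => t * iteratedDeriv k g t + k * iteratedDeriv (k - 1) g t := by
    intro k
    induction k with
    | zero => simp
    | succ k ih =>
      rw [iteratedDeriv_succ, ih]
      ext t
      have := (((hasDerivAt_id t).mul (hd k t).hasDerivAt).add
        ((hd (k - 1) t).hasDerivAt.const_mul (k : ℝ))).deriv
      simp only [id] at this
      refine Eq.trans this ?_
      rw [← iteratedDeriv_succ]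
      rcases k with _ | k
      · simp [add_comm]
      · simp only [Nat.add_sub_cancel, ← iteratedDeriv_succ]; push_cast; ring
  rw [hm, hm, iteratedDeriv_succ', h1, h2]
  simp

variable {σ : Type} [Fintype σ] [DecidableEq σ]

/-- the standard Gaussian measure on `σ → ℝ` -/
noncomputable abbrev gam (σ : Type) [Fintype σ] : Measure (σ → ℝ) :=
  Measure.pi fun _ : σ => gaussianReal 0 1

omit [DecidableEq σ] in
lemma eval_monomial' (ω : σ → ℝ) (s : σ →₀ ℕ) (c : ℝ) :
    eval ω (monomial s c) = c * ∏ i, ω i ^ s i := by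
  rw [eval_monomial, Finsupp.prod_fintype _ _ (by simp)]

omit [DecidableEq σ] in
lemma integrable_eval (P : MvPolynomial σ ℝ) : Integrable (fun ω => eval ω P) (gam σ) := by
  induction P using MvPolynomial.induction_on' with
  | monomial s c =>
    simp only [eval_monomial']
    exact (Integrable.fintype_prod (f := fun i x => x ^ s i)
      fun i => integrable_pow_gauss _).const_mul c
  | add p q hp hq => simp only [map_add]; exact hp.add hq

/-- Gaussian expectation of a polynomial -/
noncomputable def LG : MvPolynomial σ ℝ →ₗ[ℝ] ℝ where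
  toFun P := ∫ ω, eval ω P ∂gam σ
  map_add' p q := by
    simp only [map_add]
    exact integral_add (integrable_eval p) (integrable_eval q)
  map_smul' c p := by simp [smul_eval, integral_const_mul]

omit [DecidableEq σ] in
lemma LG_apply (P : MvPolynomial σ ℝ) : LG P = ∫ ω, eval ω P ∂gam σ := rfl

omit [DecidableEq σ] in
lemma LG_monomial (s : σ →₀ ℕ) (c : ℝ) : LG (monomial s c) = c * ∏ i, mom (s i) := by
  simp only [LG_apply, eval_monomial', integral_const_mul]
  rw [integral_fintype_prod_eq_prod (fun i x => x ^ s i)]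
  rfl

omit [DecidableEq σ] in
lemma LG_C (c : ℝ) : LG (C c : MvPolynomial σ ℝ) = c := by simp [LG_apply]

omit [DecidableEq σ] in
lemma LG_C_mul (c : ℝ) (P : MvPolynomial σ ℝ) : LG (C c * P) = c * LG P := by
  rw [C_mul', map_smul, smul_eq_mul]

/-- Gaussian integration by parts -/
lemma stein (b : σ) (P : MvPolynomial σ ℝ) : LG (X b * P) = LG (pderiv b P) := by
  induction P using MvPolynomial.induction_on' with
  | monomial s c =>
    rw [pderiv_monomial, X, monomial_mul, LG_monomial, LG_monomial,
      ← mul_prod_erase _ _ (mem_univ b), ← mul_prod_erase _ _ (mem_univ b)]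
    have e1 : ∏ i ∈ univ.erase b, mom ((Finsupp.single b 1 + s : σ →₀ ℕ) i)
        = ∏ i ∈ univ.erase b, mom (s i) :=
      prod_congr rfl fun i hi => by simp [(ne_of_mem_erase hi).symm]
    have e2 : ∏ i ∈ univ.erase b, mom ((s - Finsupp.single b 1 : σ →₀ ℕ) i)
        = ∏ i ∈ univ.erase b, mom (s i) :=
      prod_congr rfl fun i hi => by simp [(ne_of_mem_erase hi).symm]
    rw [e1, e2]
    simp only [Finsupp.coe_add, Pi.add_apply, Finsupp.single_eq_same, Finsupp.coe_tsub,
      Pi.sub_apply, add_comm 1, mom_succ]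
    ring
  | add p q hp hq => simp only [mul_add, map_add, hp, hq]

omit [Fintype σ] [DecidableEq σ] in
lemma deriv_prod {κ : Type} [DecidableEq κ]
    (D : Derivation ℝ (MvPolynomial σ ℝ) (MvPolynomial σ ℝ)) (s : Finset κ)
    (w : κ → MvPolynomial σ ℝ) :
    D (∏ p ∈ s, w p) = ∑ p ∈ s, D (w p) * ∏ q ∈ s.erase p, w q := by
  induction s using Finset.induction_on with
  | empty => simp
  | insert a s ha ih =>
    rw [prod_insert ha, D.leibniz, ih, sum_insert ha, erase_insert ha, smul_eq_mul, smul_eq_mul,
      mul_sum, add_comm, mul_comm]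
    congr 1
    refine sum_congr rfl fun p hp => ?_
    have : a ≠ p := fun h => ha (h ▸ hp)
    rw [erase_insert_of_ne this, prod_insert (fun h => ha (mem_of_mem_erase h))]
    ring

/-- rotation invariance -/
lemma gam_map {O : Matrix σ σ ℝ} (hO : Orth O) : (gam σ).map (fun ω => O *ᵥ ω) = gam σ := by
  have hon : Orthonormal ℝ fun j : σ => (WithLp.toLp 2 fun i => O i j : EuclideanSpace ℝ σ) := by
    rw [orthonormal_iff_ite]
    intro i j
    have := congrFun (congrFun hO i) j
    simp only [Matrix.mul_apply, transpose_apply, Matrix.one_apply] at this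
    rw [← this, EuclideanSpace.inner_toLp_toLp]
    simp [dotProduct, mul_comm]
  let b : OrthonormalBasis σ ℝ (EuclideanSpace ℝ σ) := OrthonormalBasis.mk hon
    (hon.linearIndependent.span_eq_top_of_card_eq_finrank' (by simp)).ge
  have h1 := stdGaussian_eq_map_pi_orthonormalBasis b
  have h2 : (fun x : σ → ℝ => ∑ i, x i • b i) = WithLp.toLp 2 ∘ fun ω => O *ᵥ ω := by
    ext x i
    simp [b, mulVec, dotProduct, mul_comm]
  rw [h2, ← map_pi_eq_stdGaussian, ← Measure.map_map (by fun_prop) (by fun_prop)] at h1
  exact ((MeasurableEquiv.toLp 2 (σ → ℝ)).measurableEmbedding.map_injective h1).symm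

end Vale.Agent.P362
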