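import Vale.Agent.P362.Pot
import Vale.Agent.P362.Gauss

namespace Vale.Agent.P362

open Finset MvPolynomial Matrix

variable {G : Type} [Fintype G] [DecidableEq G] {K : ℕ}

noncomputable def Vp (H : Matrix G G ℝ) (j : Fin K) (c : G) : MvPolynomial (Fin K × G) ℝ :=
  ∑ b, C (H c b) * X (j, b)

noncomputable def Ap (H : Matrix G G ℝ) (ε : ℝ) (j : Fin (K + 1)) (i : G) :
    MvPolynomial (Fin K × G) ℝ :=
  Fin.cases 1 (fun j' => C ε * Vp H j' i) j

noncomputable def Bp (ε : ℝ) (j : Fin (K + 1)) (i : G) : MvPolynomial (Fin K × G) ℝ :=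
  Fin.lastCases 1 (fun j' => C ε * X (j', i)) j

noncomputable def mu (H : Matrix G G ℝ) (ε : ℝ) (s : Fin (K + 1) × G → ℝ) (p : Fin (K + 1) × G) :
    MvPolynomial (Fin K × G) ℝ :=
  C (s p) * (Ap H ε p.1 p.2 * Bp ε p.1 p.2)

noncomputable def fac (H : Matrix G G ℝ) (ε : ℝ) (s : Fin (K + 1) × G → ℝ)
    (a : Fin (K + 1) → Option G) (x : Fin (K + 1) × G → Bool) (p : Fin (K + 1) × G) :
    MvPolynomial (Fin K × G) ℝ :=
  if a p.1 = some p.2 then C (sg (x p) / 2) else C (1 / 2) + C (sg (x p) / 2) * mu H ε s p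

noncomputable def Wp (H : Matrix G G ℝ) (ε : ℝ) (s : Fin (K + 1) × G → ℝ)
    (a : Fin (K + 1) → Option G) (x : Fin (K + 1) × G → Bool) : MvPolynomial (Fin K × G) ℝ :=
  ∏ p, fac H ε s a x p

variable (H : Matrix G G ℝ) (ε : ℝ)

lemma eval_Wp (s : Fin (K + 1) × G → ℝ) (a : Fin (K + 1) → Option G) (x : Fin (K + 1) × G → Bool)
    (ω : Fin K × G → ℝ) : eval ω (Wp H ε s a x) = wt a (fun p => eval ω (mu H ε s p)) x := by
  rw [Wp, wt, map_prod]
  refine prod_congr rfl fun p _ => ?_
  unfold fac
  split_ifs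
  · simp
  · simp; ring

lemma pderiv_Ap (j' : Fin K) (b : G) (j : Fin (K + 1)) (i : G) :
    pderiv (j', b) (Ap H ε j i) = if j = j'.succ then C (ε * H i b) else 0 := by
  refine Fin.cases ?_ (fun j => ?_) j
  · simp [Ap, (Fin.succ_ne_zero j').symm]
  · simp only [Ap, Fin.cases_succ, pderiv_C_mul, Vp, map_sum, pderiv_X, Fin.succ_inj]
    split_ifs with h
    · subst h
      rw [Finset.sum_eq_single b]
      · simp
      · intro c _ hc; simp [hc]
      · simp
    · simp [h]

omit [Fintype G] in
lemma pderiv_Bp (j' : Fin K) (b : G) (j : Fin (K + 1)) (i : G) :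
    pderiv (j', b) (Bp ε j i) = if (j, i) = (j'.castSucc, b) then C ε else 0 := by
  refine Fin.lastCases ?_ (fun j => ?_) j
  · simp [Bp, (Fin.castSucc_ne_last j').symm]
  · simp only [Bp, Fin.lastCases_castSucc, pderiv_C_mul, pderiv_X, Pi.single_apply, Prod.mk.injEq,
      Fin.castSucc_inj]
    split_ifs <;> simp

lemma Wp_update (s : Fin (K + 1) × G → ℝ) (a : Fin (K + 1) → Option G)
    (x : Fin (K + 1) × G → Bool) (j : Fin (K + 1)) (c : G) (ha : a j = none) :
    Wp H ε s (Function.update a j (some c)) x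
      = C (sg (x (j, c)) / 2) * ∏ q ∈ univ.erase (j, c), fac H ε s a x q := by
  rw [Wp, ← mul_prod_erase _ _ (mem_univ (j, c))]
  congr 1
  · simp [fac]
  · refine prod_congr rfl fun p hp => ?_
    unfold fac
    by_cases hj : p.1 = j
    · have : p.2 ≠ c := fun hi => ne_of_mem_erase hp (Prod.ext hj hi)
      simp [hj, ha, this.symm]
    · rw [Function.update_of_ne hj]

lemma deriv_fac (D : Derivation ℝ (MvPolynomial (Fin K × G) ℝ) (MvPolynomial (Fin K × G) ℝ))
    (s : Fin (K + 1) × G → ℝ) (a : Fin (K + 1) → Option G) (x : Fin (K + 1) × G → Bool)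
    (p : Fin (K + 1) × G) : D (fac H ε s a x p) = if a p.1 = some p.2 then 0 else
      C (sg (x p) / 2) * (C (s p) * (D (Ap H ε p.1 p.2) * Bp ε p.1 p.2
        + Ap H ε p.1 p.2 * D (Bp ε p.1 p.2))) := by
  unfold fac mu
  split_ifs
  · exact derivation_C _ _
  · simp only [map_add, Derivation.leibniz, derivation_C, smul_eq_mul]
    ring

lemma chain_step (s : Fin (K + 1) × G → ℝ) (a : Fin (K + 1) → Option G)
    (x : Fin (K + 1) × G → Bool) (j : Fin K) (i : G) (h1 : a j.castSucc = some i)
    (h2 : a j.succ = none) (hs : ∀ c, s (j.succ, c) = 1) :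
    LG (Bp ε j.castSucc i * Wp H ε s a x) = ε ^ 2 *
      ∑ c, H c i * LG (Bp ε j.succ c * Wp H ε s (Function.update a j.succ (some c)) x) := by
  have e : Bp ε j.castSucc i = C ε * X (j, i) := by simp [Bp]
  rw [e, mul_assoc, LG_C_mul, stein, Wp, deriv_prod, Fintype.sum_prod_type,
    Finset.sum_eq_single j.succ, map_sum, mul_sum, mul_sum]
  · refine sum_congr rfl fun c _ => ?_
    have hne : ¬ (j.succ, c) = (j.castSucc, i) := by
      simp [(Fin.castSucc_lt_succ (i := j)).ne']
    rw [deriv_fac, pderiv_Ap, pderiv_Bp, Wp_update _ _ _ _ _ _ _ h2, hs, if_neg (by simp [h2]),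
      if_pos rfl, if_neg hne, ← LG_C_mul (H c i), ← LG_C_mul ε, ← LG_C_mul (ε ^ 2)]
    congr 1
    simp only [map_mul, map_one, map_pow]
    ring
  · intro j' _ hj'
    refine sum_eq_zero fun c _ => ?_
    rw [deriv_fac, pderiv_Ap, pderiv_Bp, if_neg hj']
    by_cases h : (j', c) = (j.castSucc, i)
    · rw [if_pos (by simp only [Prod.mk.injEq] at h; simp [h.1, h.2, h1]), zero_mul]
    · rw [if_neg h]; simp
  · simp

lemma zero_step (hH : Orth H) (s : Fin (K + 1) × G → ℝ) (a : Fin (K + 1) → Option G)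
    (x : Fin (K + 1) × G → Bool) (j : Fin K) (i : G) (h1 : a j.succ = some i)
    (hs : ∀ c, s (j.castSucc, c) = 0) :
    LG (mu H ε s (j.succ, i) * Wp H ε s a x) = 0 := by
  let D : Derivation ℝ (MvPolynomial (Fin K × G) ℝ) (MvPolynomial (Fin K × G) ℝ) :=
    ∑ b, H i b • pderiv (j, b)
  have hD : ∀ P, D P = ∑ b, C (H i b) * pderiv (j, b) P := fun P => by
    simp only [D]
    rw [← Derivation.coeFnAddMonoidHom_apply, map_sum]
    simp [C_mul']
  have hst : ∀ P, LG (Vp H j i * P) = LG (D P) := fun P => by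
    simp only [hD, Vp, sum_mul, map_sum, mul_assoc, LG_C_mul, stein]
  have hB : ∀ j' c, j' ≠ j.castSucc → D (Bp ε j' c) = 0 := fun j' c h => by
    simp [hD, pderiv_Bp, h]
  have hA : ∀ j' c, (j', c) ≠ (j.succ, i) → D (Ap H ε j' c) = 0 := fun j' c h => by
    simp only [hD, pderiv_Ap]
    split_ifs with h'
    · subst h'
      have hc : i ≠ c := fun hc => h (by rw [hc])
      have := congrFun (congrFun hH.mul_transpose i) c
      simp only [Matrix.mul_apply, transpose_apply, Matrix.one_apply, if_neg hc] at this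
      simp only [← map_mul, ← map_sum]
      have e : ∑ b, H i b * (ε * H c b) = ε * ∑ b, H i b * H c b := by
        rw [mul_sum]; exact sum_congr rfl fun b _ => by ring
      rw [e, this]; simp
    · simp
  have hW : D (Wp H ε s a x) = 0 := by
    rw [Wp, deriv_prod]
    refine sum_eq_zero fun p _ => ?_
    rw [deriv_fac]
    split_ifs with h
    · simp
    · by_cases hp : p.1 = j.castSucc
      · have : s p = 0 := by rw [← hs p.2, ← hp]
        simp [this]
      · rw [hB _ _ hp, hA _ _ (by rintro h'; apply h; rw [show p = (j.succ, i) from h', h1])]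
        simp
  have e : mu H ε s (j.succ, i) * Wp H ε s a x
      = C (s (j.succ, i) * ε) * (Vp H j i * (Bp ε j.succ i * Wp H ε s a x)) := by
    simp only [mu, Ap, Fin.cases_succ, map_mul]; ring
  rw [e, LG_C_mul, hst, D.leibniz, hW, hB _ _ (Fin.castSucc_lt_succ (i := j)).ne']
  simp

lemma zero_all (hH : Orth H) (x : Fin (K + 1) × G → Bool) : ∀ (n : ℕ) (s : Fin (K + 1) × G → ℝ),
    (univ.filter fun p => s p ≠ 0).card = n → (∀ c, s (0, c) = 0) →
    LG (Wp H ε s (fun _ => none) x) = (1 / 2) ^ Fintype.card (Fin (K + 1) × G)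
  | 0, s, hn, _ => by
      have : ∀ p, s p = 0 := by simpa using hn
      have e : Wp H ε s (fun _ => none) x = C ((1 / 2) ^ Fintype.card (Fin (K + 1) × G)) := by
        simp only [Wp, fac, mu, this, map_pow]
        simp
      rw [e, LG_C]
  | n + 1, s, hn, h0 => by
      obtain ⟨⟨j, i⟩, hp, hmin⟩ := exists_min_image (univ.filter fun p => s p ≠ 0) Prod.fst
        (card_pos.mp (by omega))
      have hp' : s (j, i) ≠ 0 := by simpa using hp
      obtain ⟨j, rfl⟩ := Fin.exists_succ_eq.mpr (show j ≠ 0 by rintro rfl; exact hp' (h0 i))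
      have hs : ∀ c, s (j.castSucc, c) = 0 := fun c => by
        by_contra hc
        have := hmin (j.castSucc, c) (by simpa using hc)
        exact absurd this (not_le.mpr Fin.castSucc_lt_succ)
      have ih := zero_all hH x n (Function.update s (j.succ, i) 0) (by
        have : (univ.filter fun p => Function.update s (j.succ, i) 0 p ≠ 0)
            = (univ.filter fun p => s p ≠ 0).erase (j.succ, i) := by
          ext p
          by_cases h : p = (j.succ, i)
          · simp [h]
          · simp [h]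
        rw [this, card_erase_of_mem hp, hn]; rfl) (fun c => by
          rw [Function.update_of_ne (by simp [(Fin.succ_ne_zero j).symm]), h0])
      have e : Wp H ε s (fun _ => none) x = Wp H ε (Function.update s (j.succ, i) 0) (fun _ => none) x
          + mu H ε s (j.succ, i) * Wp H ε s (Function.update (fun _ => none) j.succ (some i)) x := by
        rw [Wp_update _ _ _ _ _ _ _ rfl, Wp, Wp, ← mul_prod_erase _ _ (mem_univ (j.succ, i)),
          ← mul_prod_erase _ _ (mem_univ (j.succ, i))]
        have : ∏ q ∈ univ.erase (j.succ, i),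
            fac H ε (Function.update s (j.succ, i) 0) (fun _ => none) x q
            = ∏ q ∈ univ.erase (j.succ, i), fac H ε s (fun _ => none) x q :=
          prod_congr rfl fun q hq => by
            simp only [fac, mu, Function.update_of_ne (ne_of_mem_erase hq)]
        rw [this]
        simp only [fac, mu, Function.update_self, reduceCtorEq, if_false, map_zero]
        ring
      rw [e, map_add, ih, zero_step H ε hH s _ x j i (by simp) hs, add_zero]

omit [DecidableEq G] in
lemma hasDerivAt_LG {κ : Type} [DecidableEq κ] (u v : κ → MvPolynomial (Fin K × G) ℝ) (t : ℝ)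
    (S : Finset κ) : ∀ R : MvPolynomial (Fin K × G) ℝ,
    HasDerivAt (fun t : ℝ => LG (R * ∏ p ∈ S, (u p + C t * v p)))
      (∑ p ∈ S, LG (R * (v p * ∏ q ∈ S.erase p, (u q + C t * v q)))) t := by
  induction S using Finset.induction_on with
  | empty => intro R; simpa using hasDerivAt_const t _
  | insert a S ha ih =>
    intro R
    have e : (fun t : ℝ => LG (R * ∏ p ∈ insert a S, (u p + C t * v p)))
        = fun t : ℝ => LG (R * u a * ∏ p ∈ S, (u p + C t * v p))
          + t * LG (R * v a * ∏ p ∈ S, (u p + C t * v p)) := by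
      ext t
      rw [prod_insert ha, ← LG_C_mul, ← map_add]
      congr 1; ring
    rw [e]
    refine ((ih (R * u a)).add ((hasDerivAt_id t).mul (ih (R * v a)))).congr_deriv ?_
    symm
    rw [sum_insert ha, erase_insert ha, one_mul, id, mul_sum, add_left_comm, ← sum_add_distrib,
      mul_assoc]
    congr 1
    refine sum_congr rfl fun p hp => ?_
    have : a ≠ p := fun h => ha (h ▸ hp)
    rw [erase_insert_of_ne this, prod_insert (fun h => ha (mem_of_mem_erase h)), ← LG_C_mul,
      ← map_add]
    congr 1; ring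

def Hopt (o o' : Option G) : ℝ := match o, o' with
  | some c, some i => H c i
  | _, _ => 0

/-- path coefficients -/
def cc (a : Fin (K + 1) → Option G) : ℝ := ∏ j : Fin K, Hopt H (a j.succ) (a j.castSucc)

def sc (t : ℝ) (p : Fin (K + 1) × G) : ℝ := if p.1 = 0 then t else 1

noncomputable def pc (a : Fin (K + 1) → Option G) (m : Fin (K + 1)) : ℝ :=
  ∏ j : Fin K, if j.succ ≤ m then Hopt H (a j.succ) (a j.castSucc) else ind (a j.succ = none)

noncomputable def Sm (t : ℝ) (x : Fin (K + 1) × G → Bool) (m : Fin (K + 1)) : ℝ :=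
  ∑ a, pc H a m * (a m).elim 0 fun i => LG (Bp ε m i * Wp H ε (sc t) a x)

lemma sum_split {J : Type} [Fintype J] [DecidableEq J] (j : J) (F : (J → Option G) → ℝ) :
    ∑ a, F a = ∑ a, if a j = none then F a + ∑ c, F (Function.update a j (some c)) else 0 := by
  have h1 : ∀ a, F a = (if a j = none then F a else 0) + ∑ c, if a j = some c then F a else 0 := by
    intro a
    rcases h : a j with _ | c
    · simp
    · simp
  rw [sum_congr rfl fun a _ => h1 a, sum_add_distrib, sum_comm]
  simp only [sum_reidx]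
  rw [sum_comm, ← sum_add_distrib]
  refine sum_congr rfl fun a _ => ?_
  split_ifs <;> simp

lemma Sm_step (t : ℝ) (x : Fin (K + 1) × G → Bool) (j : Fin K) :
    Sm H ε t x j.castSucc = ε ^ 2 * Sm H ε t x j.succ := by
  have hne : j.castSucc ≠ j.succ := (Fin.castSucc_lt_succ (i := j)).ne
  have hns : ¬ j.succ ≤ j.castSucc := not_le.mpr Fin.castSucc_lt_succ
  unfold Sm
  rw [sum_split j.succ fun a => pc H a j.succ *
    (a j.succ).elim 0 fun i => LG (Bp ε j.succ i * Wp H ε (sc t) a x), mul_sum]
  refine sum_congr rfl fun a _ => ?_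
  split_ifs with h
  · have hpc : ∀ c, pc H (Function.update a j.succ (some c)) j.succ
        = pc H a j.castSucc * Hopt H (some c) (a j.castSucc) := fun c => by
      unfold pc
      rw [← mul_prod_erase _ _ (mem_univ j), ← mul_prod_erase _ _ (mem_univ j), if_pos le_rfl,
        if_neg hns, ind_pos h, one_mul, Function.update_self, Function.update_of_ne hne, mul_comm]
      congr 1
      refine prod_congr rfl fun j' hj => ?_
      have hj' := ne_of_mem_erase hj
      have h1 : j'.succ ≠ j.succ := by simpa using hj'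
      rw [Function.update_of_ne h1]
      have h2 : j'.succ ≤ j.succ ↔ j'.succ ≤ j.castSucc := by
        have : (j' : ℕ) ≠ j := fun h => hj' (Fin.ext h)
        simp only [Fin.le_def, Fin.val_succ, Fin.val_castSucc]; omega
      by_cases h3 : j'.succ ≤ j.castSucc
      · rw [if_pos h3, if_pos (h2.mpr h3), Function.update_of_ne]
        intro h4
        have := congrArg Fin.val h4
        simp only [Fin.le_def, Fin.val_succ, Fin.val_castSucc] at h3 this; omega
      · rw [if_neg h3, if_neg (fun h => h3 (h2.mp h))]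
    simp only [h, Option.elim_none, mul_zero, zero_add, hpc, Function.update_self, Option.elim_some]
    rcases h1 : a j.castSucc with _ | i
    · simp [Hopt]
    · rw [Option.elim_some, chain_step H ε _ a x j i h1 h (fun c => by simp [sc])]
      simp only [Hopt, mul_sum]
      exact sum_congr rfl fun c _ => by ring
  · have : pc H a j.castSucc = 0 :=
      prod_eq_zero (mem_univ j) (by rw [if_neg hns, ind_neg h])
    simp [this]

lemma Sm_zero (t : ℝ) (x : Fin (K + 1) × G → Bool) :
    Sm H ε t x 0 = ∑ i, LG (Bp ε 0 i *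
      Wp H ε (sc t) (Function.update (fun _ => none) 0 (some i)) x) := by
  unfold Sm
  rw [sum_split 0, Finset.sum_eq_single fun _ => none]
  · simp [pc, ind]
  · intro a _ ha
    split_ifs with h
    · obtain ⟨j, hj⟩ := Function.ne_iff.mp ha
      obtain ⟨j, rfl⟩ := Fin.exists_succ_eq.mpr (show j ≠ 0 by rintro rfl; exact hj h)
      have : ∀ c, pc H (Function.update a 0 (some c)) 0 = 0 := fun c =>
        prod_eq_zero (mem_univ j) (by
          rw [if_neg (by simp), Function.update_of_ne (Fin.succ_ne_zero j), ind_neg hj])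
      simp [this, h]
    · rfl
  · simp

lemma Sm_last (hK : 0 < K) (t : ℝ) (x : Fin (K + 1) × G → Bool) :
    Sm H ε t x (Fin.last K) = ∑ a, cc H a * LG (Wp H ε (sc t) a x) := by
  refine sum_congr rfl fun a _ => ?_
  have e : pc H a (Fin.last K) = cc H a := by simp [pc, cc, Fin.le_last]
  rw [e]
  rcases h : a (Fin.last K) with _ | i
  · have : cc H a = 0 := by
      obtain ⟨K, rfl⟩ := Nat.exists_eq_succ_of_ne_zero hK.ne'
      exact prod_eq_zero (mem_univ (Fin.last K)) (by rw [Fin.succ_last, h]; simp [Hopt])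
    simp [this]
  · simp [Bp]

lemma Sm_chain (t : ℝ) (x : Fin (K + 1) × G → Bool) (m : Fin (K + 1)) :
    Sm H ε t x 0 = ε ^ (2 * (m : ℕ)) * Sm H ε t x m := by
  induction m using Fin.induction with
  | zero => simp
  | succ j ih =>
    rw [ih, Sm_step, Fin.val_castSucc, Fin.val_succ]; ring

theorem chain (hH : Orth H) (hK : 0 < K) (g : (Fin (K + 1) × G → Bool) → ℝ) :
    ∃ t ∈ Set.Icc (0 : ℝ) 1, ∑ x, g x * LG (Wp H ε (fun _ => 1) (fun _ => none) x)
      = (1 / 2) ^ Fintype.card (Fin (K + 1) × G) * ∑ x, g x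
        + ε ^ (2 * K) * ∑ x, g x * ∑ a, cc H a * LG (Wp H ε (sc t) a x) := by
  have hd : ∀ (x : Fin (K + 1) × G → Bool) t, HasDerivAt (fun t => LG (Wp H ε (sc t) (fun _ => none) x))
      (ε ^ (2 * K) * ∑ a, cc H a * LG (Wp H ε (sc t) a x)) t := by
    intro x t
    let u : Fin (K + 1) × G → MvPolynomial (Fin K × G) ℝ := fun p =>
      if p.1 = 0 then C (1 / 2) else fac H ε (fun _ => 1) (fun _ => none) x p
    let v : Fin (K + 1) × G → MvPolynomial (Fin K × G) ℝ := fun p =>
      if p.1 = 0 then C (sg (x p) / 2) * Bp ε p.1 p.2 else 0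
    have huv : ∀ t p, u p + C t * v p = fac H ε (sc t) (fun _ => none) x p := fun t p => by
      simp only [u, v, fac, mu, sc]
      split_ifs with h1 h2 h2
      · simp at h2
      · rw [h1]; simp only [Ap, Fin.cases_zero]; ring
      · simp at h2
      · simp
    have := hasDerivAt_LG u v t univ 1
    simp only [huv, one_mul] at this
    refine this.congr_deriv ?_
    have hl := Sm_chain H ε t x (Fin.last K)
    rw [Sm_last H ε hK, Fin.val_last] at hl
    rw [← hl, Sm_zero, Fintype.sum_prod_type, Finset.sum_eq_single (0 : Fin (K + 1))]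
    · refine sum_congr rfl fun i _ => ?_
      rw [Wp_update _ _ _ _ _ _ _ rfl]
      simp only [v, if_true]
      congr 1; ring
    · intro j _ hj; simp [v, hj]
    · simp
  have hd' : ∀ t, HasDerivAt (fun t => ∑ x, g x * LG (Wp H ε (sc t) (fun _ => none) x))
      (∑ x, g x * (ε ^ (2 * K) * ∑ a, cc H a * LG (Wp H ε (sc t) a x))) t := fun t =>
    HasDerivAt.fun_sum fun x _ => (hd x t).const_mul (g x)
  obtain ⟨t, ht, h⟩ := exists_hasDerivAt_eq_slope _ _ zero_lt_one
    (fun t _ => (hd' t).continuousAt.continuousWithinAt) (fun t _ => hd' t)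
  refine ⟨t, ⟨ht.1.le, ht.2.le⟩, ?_⟩
  have e1 : (sc 1 : Fin (K + 1) × G → ℝ) = fun _ => 1 := by ext p; simp [sc]
  have e0 : ∀ x : Fin (K + 1) × G → Bool, LG (Wp H ε (sc 0) (fun _ => none) x) = (1 / 2) ^ Fintype.card (Fin (K + 1) × G) :=
    fun x => zero_all H ε hH x _ _ rfl fun c => by simp [sc]
  simp only [e1, e0, sub_zero, div_one, ← sum_mul] at h
  simp only [mul_left_comm (g _) (ε ^ _), ← mul_sum] at h
  linarith

end Vale.Agent.P362
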