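import Vale.Agent.P362.Search

namespace Vale.Agent.P362

open Matrix Finset Real
open scoped Kronecker

variable {n m : ℕ}

lemma permM_mulVec {B : Type} [Fintype B] [DecidableEq B] (σ : Equiv.Perm B) (v : B → ℝ) (p : B) :
    (permM σ *ᵥ v) p = v (σ.symm p) := by
  simp only [mulVec, dotProduct, permM, ite_mul, one_mul, zero_mul]
  rw [Finset.sum_eq_single (σ.symm p)]
  · simp
  · intro b _ hb
    rw [if_neg]
    rintro rfl
    simp at hb
  · simp

lemma invol_mulVec {B : Type} [Fintype B] [DecidableEq B] (f : B → B) (h : Function.Involutive f)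
    (v : B → ℝ) (p : B) : (permM (Function.Involutive.toPerm f h) *ᵥ v) p = v (f p) :=
  permM_mulVec _ _ _

lemma or_invol (x : Fin n → Bool) : Function.Involutive
    (fun q : Fin n × Bool × Fin m => (q.1, xor q.2.1 (x q.1), q.2.2)) := by
  rintro ⟨i, b, z⟩; simp

def orPerm (x : Fin n → Bool) : Equiv.Perm (Fin n × Bool × Fin m) :=
  Function.Involutive.toPerm _ (or_invol x)

noncomputable def rstate (U : ℕ → Matrix (Fin n × Bool × Fin m) (Fin n × Bool × Fin m) ℝ)
    (s : Fin n × Bool × Fin m) (x : Fin n → Bool) : ℕ → (Fin n × Bool × Fin m → ℝ)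
  | 0 => U 0 *ᵥ Pi.single s 1
  | t + 1 => U (t + 1) *ᵥ (permM (orPerm x) *ᵥ rstate U s x t)

lemma rstate_congr {U U' : ℕ → Matrix (Fin n × Bool × Fin m) (Fin n × Bool × Fin m) ℝ}
    (s : Fin n × Bool × Fin m) (x : Fin n → Bool) :
    ∀ t, (∀ j ≤ t, U j = U' j) → rstate U s x t = rstate U' s x t
  | 0, h => by simp [rstate, h 0 le_rfl]
  | t + 1, h => by
      simp only [rstate]
      rw [h _ le_rfl, rstate_congr s x t fun j hj => h j (by omega)]

noncomputable def emb (i0 : Fin n) (ψ : Fin m → ℝ) : Fin n × Bool × Fin m → ℝ :=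
  fun p => if p.1 = i0 then (√2)⁻¹ * ψ p.2.2 else 0

lemma lift_emb (i0 : Fin n) (V : Matrix (Fin m) (Fin m) ℝ) (ψ : Fin m → ℝ) :
    ((1 : Matrix (Fin n) (Fin n) ℝ) ⊗ₖ ((1 : Matrix Bool Bool ℝ) ⊗ₖ V)) *ᵥ emb i0 ψ
      = emb i0 (V *ᵥ ψ) := by
  ext ⟨i, b, z⟩
  simp only [mulVec, dotProduct, emb, Fintype.sum_prod_type, kroneckerMap_apply, Matrix.one_apply]
  rw [Finset.sum_eq_single i]
  · rw [Finset.sum_eq_single b]
    · split_ifs <;> simp_all [mul_sum, mul_left_comm]
    · intro c _ hc; simp [Ne.symm hc]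
    · simp
  · intro c _ hc; simp [Ne.symm hc]
  · simp

lemma sum_emb (i0 : Fin n) (ψ : Fin m → ℝ) (φ : Fin m → ℝ) :
    ∑ p, emb i0 ψ p ^ 2 * φ p.2.2 = ∑ z, ψ z ^ 2 * φ z := by
  simp only [emb, Fintype.sum_prod_type]
  rw [Finset.sum_eq_single i0]
  · simp only [if_true, Fintype.sum_bool, mul_pow, inv_pow, sq_sqrt (show (0 : ℝ) ≤ 2 by norm_num),
      ← sum_add_distrib]
    exact sum_congr rfl fun z _ => by ring
  · intro c _ hc; simp [hc]
  · simp

lemma prep_invol (i0 : Fin n) (pos : Fin m → Option (Fin n)) : Function.Involutive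
    (fun q : Fin n × Bool × Fin m =>
      (Equiv.swap i0 ((pos q.2.2).getD i0) q.1, q.2.1, q.2.2)) := by
  rintro ⟨i, b, z⟩; simp

noncomputable def prep (i0 : Fin n) (pos : Fin m → Option (Fin n)) :
    Matrix (Fin n × Bool × Fin m) (Fin n × Bool × Fin m) ℝ :=
  permM (Function.Involutive.toPerm _ (prep_invol i0 pos)) *
    diagonal fun p => sg (p.2.1 && (pos p.2.2).isSome)

lemma prep_orth (i0 : Fin n) (pos : Fin m → Option (Fin n)) : Orth (prep i0 pos) :=
  (Orth.permM _).mul (Orth.diag fun _ => sg_mul_self _)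

lemma prep_emb (i0 : Fin n) (pos : Fin m → Option (Fin n)) (ψ : Fin m → ℝ)
    (p : Fin n × Bool × Fin m) : (prep i0 pos *ᵥ emb i0 ψ) p =
      if p.1 = (pos p.2.2).getD i0 then sg (p.2.1 && (pos p.2.2).isSome) * ((√2)⁻¹ * ψ p.2.2)
      else 0 := by
  obtain ⟨i, b, z⟩ := p
  rw [prep, ← mulVec_mulVec, invol_mulVec]
  simp only [mulVec_diagonal, emb,
    Equiv.swap_apply_eq_iff, Equiv.swap_apply_left, mul_ite, mul_zero]

lemma oracle_prep (i0 : Fin n) (pos : Fin m → Option (Fin n)) (ψ : Fin m → ℝ) (x : Fin n → Bool) :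
    permM (orPerm x) *ᵥ (prep i0 pos *ᵥ emb i0 ψ) = prep i0 pos *ᵥ emb i0 (ph pos x *ᵥ ψ) := by
  ext ⟨i, b, z⟩
  rw [orPerm, invol_mulVec, prep_emb, prep_emb]
  simp only [ph,
    mulVec_diagonal]
  rcases h : pos z with _ | j
  · simp
  · by_cases hi : i = j
    · subst hi
      simp [sg_xor]; ring
    · simp [hi]

lemma Impl.compile (i0 : Fin n) (s : Fin m) :
    ∀ {T : ℕ} {W : (Fin n → Bool) → Matrix (Fin m) (Fin m) ℝ}, Impl T W →
      ∀ M : Matrix (Fin n × Bool × Fin m) (Fin n × Bool × Fin m) ℝ, Orth M →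
      ∃ U : ℕ → Matrix (Fin n × Bool × Fin m) (Fin n × Bool × Fin m) ℝ, (∀ t, Orth (U t)) ∧
        ∀ x, rstate U (i0, false, s) x T = M *ᵥ emb i0 (W x *ᵥ Pi.single s 1)
  | 0, W, ⟨V, hV, h⟩, M, hM => by
      obtain ⟨H, hH, hc⟩ := exists_orth_col (emb i0 (Pi.single s 1)) (by
        have := sum_emb i0 (Pi.single s (1 : ℝ)) fun _ => 1
        simp only [mul_one] at this
        rw [this, Finset.sum_eq_single s] <;> simp +contextual) (i0, false, s)
      have hL : Orth ((1 : Matrix (Fin n) (Fin n) ℝ) ⊗ₖ ((1 : Matrix Bool Bool ℝ) ⊗ₖ V)) :=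
        ((Impl.const (ι := Unit) hV).kronR.kronR).orth fun _ => true
      refine ⟨fun _ => M * (1 ⊗ₖ (1 ⊗ₖ V)) * H, fun _ => (hM.mul hL).mul hH, fun x => ?_⟩
      have : H *ᵥ Pi.single (i0, false, s) 1 = emb i0 (Pi.single s 1) := by
        ext p; simp [hc]
      simp only [rstate, ← mulVec_mulVec, this, lift_emb, h]
  | T + 1, W, ⟨V, pos, W', hV, hW, h⟩, M, hM => by
      obtain ⟨U, hU, hs⟩ := hW.compile i0 s (prep i0 pos) (prep_orth i0 pos)
      have hL : Orth ((1 : Matrix (Fin n) (Fin n) ℝ) ⊗ₖ ((1 : Matrix Bool Bool ℝ) ⊗ₖ V)) :=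
        ((Impl.const (ι := Unit) hV).kronR.kronR).orth fun _ => true
      refine ⟨Function.update U (T + 1) (M * (1 ⊗ₖ (1 ⊗ₖ V)) * (prep i0 pos)ᵀ), fun t => ?_,
        fun x => ?_⟩
      · by_cases ht : t = T + 1
        · subst ht
          rw [Function.update_self]
          exact (hM.mul hL).mul (prep_orth i0 pos).transpose
        · rw [Function.update_of_ne ht]; exact hU t
      · simp only [rstate, Function.update_self]
        rw [rstate_congr (U' := U) _ x T fun j hj => Function.update_of_ne (by omega) _ _, hs,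
          oracle_prep, mulVec_mulVec, Matrix.mul_assoc, prep_orth i0 pos, Matrix.mul_one,
          ← mulVec_mulVec, lift_emb, h]
        simp only [mulVec_mulVec, Matrix.mul_assoc]

lemma Has.quant {T : ℕ} {E : (Fin n → Bool) → (Bool → ℝ) → ℝ} (h : Has T E) (hn : 1 ≤ n)
    {f : (Fin n → Bool) → Bool} (hf : ∀ x, 2 / 3 ≤ E x fun y => ind (y = f x)) :
    QuantComputes f T := by
  obtain ⟨B, _, _, s, W, out, hW, h⟩ := h
  let e := (Fintype.equivFin B).symm
  obtain ⟨U, hU, hs⟩ := (hW.reindex e).compile ⟨0, hn⟩ (e.symm s) 1 Orth.one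
  let U' : ℕ → Matrix.unitaryGroup (Fin n × Bool × Fin (Fintype.card B)) ℂ := fun t =>
    ⟨(U t).map Complex.ofReal, by
      rw [Matrix.mem_unitaryGroup_iff']
      ext p q
      have := congrFun (congrFun (hU t) p) q
      simp only [Matrix.mul_apply, transpose_apply, Matrix.one_apply] at this
      simp only [Matrix.mul_apply, star_apply, map_apply, Complex.star_def, Complex.conj_ofReal,
        Matrix.one_apply]
      have h2 := congrArg Complex.ofReal this
      push_cast at h2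
      rw [h2]; split_ifs <;> simp⟩
  have hq : ∀ x t p, qstate U' (⟨0, hn⟩, false, e.symm s) x t p
      = (rstate U (⟨0, hn⟩, false, e.symm s) x t p : ℂ) := by
    intro x t
    induction t with
    | zero => intro p; simp [qstate, rstate, U']
    | succ t ih =>
      intro p
      have : ∀ q, (oracle x *ᵥ qstate U' (⟨0, hn⟩, false, e.symm s) x t) q
          = ((permM (orPerm x) *ᵥ rstate U (⟨0, hn⟩, false, e.symm s) x t) q : ℝ) := by
        intro q
        simp only [mulVec, dotProduct, ih, oracle, permM]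
        push_cast
        refine sum_congr rfl fun r _ => ?_
        by_cases hr : q = (r.1, r.2.1 ^^ x r.1, r.2.2)
        · rw [if_pos hr, if_pos (show q = orPerm x r from hr)]; simp
        · rw [if_neg hr, if_neg (show ¬ q = orPerm x r from hr)]; simp
      simp only [qstate, rstate]
      rw [mulVec, dotProduct, mulVec, dotProduct]
      simp only [this, U', map_apply]
      push_cast
      rfl
  refine ⟨Fintype.card B, U', (⟨0, hn⟩, false, e.symm s), fun p => out (e p.2.2), fun x => ?_⟩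
  refine (hf x).trans (le_of_eq ?_)
  simp only [hq, hs, one_mulVec, Complex.norm_real, Real.norm_eq_abs, sq_abs, sum_filter]
  have := sum_emb (⟨0, hn⟩ : Fin n) ((W x).submatrix e e *ᵥ Pi.single (e.symm s) 1)
    fun z => ind (out (e z) = f x)
  rw [h, ← Equiv.sum_comp e]
  simp only [mulVec_single_one, col_apply, submatrix_apply, Equiv.apply_symm_apply] at this ⊢
  rw [← this]
  refine sum_congr rfl fun p _ => ?_
  by_cases hp : out (e p.2.2) = f x
  · rw [if_pos hp, ind_pos hp, mul_one]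
  · rw [if_neg hp, ind_neg hp, mul_zero]

end Vale.Agent.P362
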