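import Mathlib

namespace Vale.Agent.P362

open Matrix

/-- Deterministic decision trees querying the bits of an input indexed by `ι`. -/
inductive DTree (ι : Type) : Type
  | leaf : Bool → DTree ι
  | node : ι → DTree ι → DTree ι → DTree ι

/-- The output of a decision tree on the input `x`. -/
def DTree.eval {ι : Type} : DTree ι → (ι → Bool) → Bool
  | .leaf b, _ => b
  | .node i t0 t1, x => if x i = true then t1.eval x else t0.eval x

/-- The number of queries made by a decision tree on the input `x`. -/
def DTree.cost {ι : Type} : DTree ι → (ι → Bool) → ℕ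
  | .leaf _, _ => 0
  | .node i t0 t1, x => (if x i = true then t1.cost x else t0.cost x) + 1

/-- Some randomized algorithm (a probability distribution over decision trees) makes at most
`T` queries on every input and for all internal randomness, and is correct with probability
at least `2/3` on every input. -/
def RandComputes {n : ℕ} (f : (Fin n → Bool) → Bool) (T : ℕ) : Prop :=
  ∃ μ : PMF (DTree (Fin n)), (∀ t ∈ μ.support, ∀ x, t.cost x ≤ T) ∧
    ∀ x, (2 / 3 : ENNReal) ≤ (μ.map fun t => t.eval x) (f x)

/-- Bounded-error randomized query complexity. -/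
noncomputable def R {n : ℕ} (f : (Fin n → Bool) → Bool) : ℕ := sInf {T | RandComputes f T}

/-- The query unitary, mapping the basis state `(i, b, z)` to `(i, b xor x i, z)`. -/
def oracle {n m : ℕ} (x : Fin n → Bool) :
    Matrix (Fin n × Bool × Fin m) (Fin n × Bool × Fin m) ℂ :=
  fun p q => if p = (q.1, xor q.2.1 (x q.1), q.2.2) then 1 else 0

/-- The state `U t * O x * ⋯ * U 1 * O x * U 0` applied to the basis state `s`. -/
noncomputable def qstate {n m : ℕ} (U : ℕ → Matrix.unitaryGroup (Fin n × Bool × Fin m) ℂ)
    (s : Fin n × Bool × Fin m) (x : Fin n → Bool) : ℕ → (Fin n × Bool × Fin m → ℂ)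
  | 0 => (U 0).1 *ᵥ Pi.single s 1
  | t + 1 => (U (t + 1)).1 *ᵥ (oracle x *ᵥ qstate U s x t)

/-- Some quantum algorithm with `T` queries (workspace of any finite dimension `m`, final
measurement in the computational basis followed by the output map `out`) is correct with
probability at least `2/3` on every input. -/
def QuantComputes {n : ℕ} (f : (Fin n → Bool) → Bool) (T : ℕ) : Prop :=
  ∃ (m : ℕ) (U : ℕ → Matrix.unitaryGroup (Fin n × Bool × Fin m) ℂ) (s : Fin n × Bool × Fin m)
    (out : Fin n × Bool × Fin m → Bool),
    ∀ x, (2 / 3 : ℝ) ≤ ∑ p ∈ Finset.univ.filter (fun p => out p = f x), ‖qstate U s x T p‖ ^ 2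

/-- Bounded-error quantum query complexity. -/
noncomputable def Q {n : ℕ} (f : (Fin n → Bool) → Bool) : ℕ := sInf {T | QuantComputes f T}

/-- The exponents `α ≥ 0` with `R f ≤ C (1 + Q f) ^ α` for all total Boolean functions. -/
def admissible : Set ℝ :=
  {α | 0 ≤ α ∧ ∃ C : ℝ, ∀ n : ℕ, 1 ≤ n → ∀ f : (Fin n → Bool) → Bool,
    (R f : ℝ) ≤ C * (1 + (Q f : ℝ)) ^ α}

end Vale.Agent.P362
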