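import Vale.Agent.P362.Sep

namespace Vale.Agent.P362

open Filter

lemma eventually_poly (c : ℝ) : ∀ᶠ σ : ℕ in atTop, c * (σ : ℝ) ^ 9 ≤ 2 ^ σ := by
  have h := (tendsto_pow_const_div_const_pow_of_one_lt 9 (show (1 : ℝ) < 2 by norm_num)).const_mul c
  rw [mul_zero] at h
  filter_upwards [h.eventually (gt_mem_nhds one_pos)] with σ hσ
  rw [← mul_div_assoc, div_lt_one (by positivity)] at hσ
  exact hσ.le

theorem four_le {α : ℝ} (h : α ∈ admissible) : 4 ≤ α := by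
  obtain ⟨h0, C, hC⟩ := h
  by_contra hα
  push Not at hα
  obtain ⟨K, hK⟩ := exists_nat_ge (15 / (4 - α) + 2)
  have h4 : 0 < 4 - α := by linarith
  have hK1 : 0 ≤ 15 / (4 - α) := by positivity
  have hK2 : 2 ≤ K := by
    have : (2 : ℝ) ≤ K := by linarith
    exact_mod_cast this
  have hK2' : (2 : ℝ) ≤ K := by exact_mod_cast hK2
  have hK3 : 15 ≤ K * (4 - α) := by
    rw [← div_le_iff₀ h4]; linarith
  obtain ⟨c, hc⟩ := sep hK2
  have ht : Tendsto (fun σ : ℕ => (2 : ℝ) ^ σ) atTop atTop :=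
    tendsto_pow_atTop_atTop_of_one_lt (by norm_num)
  obtain ⟨σ, h1, h2, h3, h5⟩ := ((ht.eventually_ge_atTop c).and ((ht.eventually_gt_atTop C).and
    ((eventually_poly (10 ^ 6 * (8 * K * (K + 1) + K + 10) ^ 9)).and
      (eventually_ge_atTop 1)))).exists
  obtain ⟨n, hn, f, hR, hQ⟩ := hc σ h1 (by
    have a1 : 8 * K * (K + 1) * σ + K + 10 ≤ (8 * K * (K + 1) + K + 10) * σ := by nlinarith
    have a2 : 10 ^ 6 * ((8 * K * (K + 1) + K + 10) * σ) ^ 9 ≤ 2 ^ σ := by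
      rw [mul_pow, ← mul_assoc]; exact_mod_cast h3
    exact (Nat.mul_le_mul_left _ (Nat.pow_le_pow_left a1 9)).trans a2)
  have hf := hC n hn f
  generalize hs : (2 : ℝ) ^ σ = s at *
  have hs1 : 1 ≤ s := by rw [← hs]; exact one_le_pow₀ (by norm_num)
  have hs0 : 0 < s := by linarith
  have a1 : (1 + (Q f : ℝ)) ^ α ≤ s ^ (((4 * K ^ 2 + 8 * K + 1 : ℕ) : ℝ) * α) := by
    rw [Real.rpow_natCast_mul hs0.le]
    exact Real.rpow_le_rpow (by positivity) hQ h0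
  have a2 : s ^ (((4 * K ^ 2 + 8 * K + 1 : ℕ) : ℝ) * α) * s ^ 21 ≤ s ^ (16 * K ^ 2) := by
    rw [← Real.rpow_natCast s 21, ← Real.rpow_add hs0, ← Real.rpow_natCast]
    refine Real.rpow_le_rpow_of_exponent_le hs1 ?_
    push_cast
    nlinarith
  have a3 : 0 < (1 + (Q f : ℝ)) ^ α := by positivity
  have a4 : (R f : ℝ) < s * (1 + (Q f : ℝ)) ^ α := hf.trans_lt (mul_lt_mul_of_pos_right h2 a3)
  have a5 := mul_lt_mul_of_pos_right a4 (show 0 < s ^ 20 by positivity)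
  have a6 := mul_le_mul_of_nonneg_right a1 (show 0 ≤ s ^ 21 by positivity)
  have : s * (1 + (Q f : ℝ)) ^ α * s ^ 20 = (1 + (Q f : ℝ)) ^ α * s ^ 21 := by ring
  linarith

end Vale.Agent.P362
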