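import Vale.Agent.P362.Chain

set_option linter.unusedSectionVars false

namespace Vale.Agent.P362

open Finset MvPolynomial Matrix MeasureTheory
open scoped Kronecker

variable {G : Type} [Fintype G] [DecidableEq G] {K : ℕ} (H : Matrix G G ℝ) (ε : ℝ)

lemma eval_Vp (ω : Fin K × G → ℝ) (q : Fin K × G) :
    eval ω (Vp H q.1 q.2) = (((1 : Matrix (Fin K) (Fin K) ℝ) ⊗ₖ H) *ᵥ ω) q := by
  obtain ⟨j, c⟩ := q
  simp only [Vp, map_sum, map_mul, eval_C, eval_X, mulVec, dotProduct, Fintype.sum_prod_type,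
    kroneckerMap_apply, Matrix.one_apply]
  rw [Finset.sum_eq_single j]
  · simp
  · intro b _ hb; simp [Ne.symm hb]
  · simp

def Gd : Set (Fin K × G → ℝ) :=
  {ω | ∀ q, |ε * ω q| ≤ 1 / 2 ∧ |ε * eval ω (Vp H q.1 q.2)| ≤ 1 / 2}

lemma measurableSet_Gd : MeasurableSet (Gd (K := K) H ε) := by
  refine IsClosed.measurableSet ?_
  simp only [Gd, Set.ofPred_forall, Set.ofPred_and]
  refine isClosed_iInter fun q => IsClosed.inter (isClosed_le (by fun_prop) (by fun_prop))
    (isClosed_le ?_ (by fun_prop))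
  exact (continuous_const.mul (MvPolynomial.continuous_eval _)).abs

noncomputable def PA (r : ℕ) : MvPolynomial (Fin K × G) ℝ := ∏ q, (1 + (C ε * X q) ^ (2 * r))
noncomputable def PV (r : ℕ) : MvPolynomial (Fin K × G) ℝ :=
  ∏ q : Fin K × G, (1 + (C ε * Vp H q.1 q.2) ^ (2 * r))

noncomputable def tl (K : ℕ) (r : ℕ) : ℝ :=
  ∫ ω in (Gd (K := K) H ε)ᶜ, eval ω (PA ε r * PV H ε r) ∂gam (Fin K × G)

lemma one_le_prod_even {κ : Type} [Fintype κ] (u : κ → ℝ) (r : ℕ) :
    1 ≤ ∏ q, (1 + u q ^ (2 * r)) :=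
  Finset.one_le_prod fun q _ => by
    have := (even_two_mul r).pow_nonneg (u q); linarith

lemma prod_even_ge {κ : Type} [Fintype κ] [DecidableEq κ] (u : κ → ℝ) (r : ℕ) (q : κ)
    (h : 1 / 2 < |u q|) : 1 + (1 / 4) ^ r ≤ ∏ q, (1 + u q ^ (2 * r)) := by
  rw [← mul_prod_erase _ _ (mem_univ q)]
  have h1 : 1 ≤ ∏ q ∈ univ.erase q, (1 + u q ^ (2 * r)) := Finset.one_le_prod fun q _ => by
    have := (even_two_mul r).pow_nonneg (u q); linarith
  have h2 : (1 / 4) ^ r ≤ u q ^ (2 * r) := by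
    rw [pow_mul]
    refine pow_le_pow_left₀ (by norm_num) ?_ r
    rw [← sq_abs]; nlinarith
  have : (0 : ℝ) ≤ (1 / 4) ^ r := by positivity
  nlinarith

lemma tl_nonneg (r : ℕ) : 0 ≤ tl H ε K r := by
  refine integral_nonneg fun ω => ?_
  simp only [PA, PV, map_mul, map_prod, map_add, map_pow, map_one]
  have h1 := one_le_prod_even (fun q : Fin K × G => eval ω (C ε) * eval ω (X q)) r
  have h2 := one_le_prod_even (fun q : Fin K × G => eval ω (C ε) * eval ω (Vp H q.1 q.2)) r
  positivity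

lemma tl_le (hH : Orth H) (r : ℕ) : tl H ε K r ≤ (1 + 4 ^ r) *
    ((1 + 2 * ε ^ (2 * r) * mom (2 * r) + ε ^ (4 * r) * mom (4 * r)) ^ (K * Fintype.card G) - 1) := by
  set m := (1 + 2 * ε ^ (2 * r) * mom (2 * r) + ε ^ (4 * r) * mom (4 * r)) ^ (K * Fintype.card G)
  have hA : LG (PA (K := K) (G := G) ε r ^ 2) = m := by
    simp only [LG_apply, PA, map_pow, map_prod, map_add, map_one, map_mul, eval_C, eval_X,
      ← prod_pow]
    rw [integral_fintype_prod_eq_pow (fun u : ℝ => (1 + (ε * u) ^ (2 * r)) ^ 2)]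
    have : (fun u : ℝ => (1 + (ε * u) ^ (2 * r)) ^ 2)
        = fun u : ℝ => u ^ 0 + 2 * ε ^ (2 * r) * u ^ (2 * r) + ε ^ (4 * r) * u ^ (4 * r) := by
      ext u; ring
    rw [this, integral_add, integral_add, integral_const_mul, integral_const_mul]
    · simp [m, mom]
    · exact integrable_pow_gauss _
    · exact (integrable_pow_gauss _).const_mul _
    · exact (integrable_pow_gauss _).add ((integrable_pow_gauss _).const_mul _)
    · exact (integrable_pow_gauss _).const_mul _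
  have hV : LG (PV (K := K) H ε r ^ 2) = m := by
    have hO : Orth ((1 : Matrix (Fin K) (Fin K) ℝ) ⊗ₖ H) :=
      ((Impl.const (ι := Unit) hH).kronR).orth fun _ => true
    rw [← hA, LG_apply, LG_apply]
    conv_rhs => rw [← gam_map hO]
    rw [integral_map (by fun_prop) (MvPolynomial.continuous_eval _).aestronglyMeasurable]
    simp [PA, PV, eval_Vp]
  let P : MvPolynomial (Fin K × G) ℝ :=
    C ((1 + 4 ^ r) / 2) * (PA ε r ^ 2 + PV H ε r ^ 2 - C 2)
  have hP : LG P = (1 + 4 ^ r) * (m - 1) := by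
    simp only [P, LG_C_mul, map_sub, map_add, hA, hV, LG_C]; ring
  have hpt : ∀ ω, 1 ≤ eval ω (PA (K := K) (G := G) ε r) ∧ 1 ≤ eval ω (PV (K := K) H ε r) := fun ω => by
    simp only [PA, PV, map_prod, map_add, map_pow, map_one]
    exact ⟨one_le_prod_even _ r, one_le_prod_even _ r⟩
  rw [← hP, LG_apply]
  refine le_trans (setIntegral_mono_on (integrable_eval _).integrableOn
    (integrable_eval P).integrableOn (measurableSet_Gd H ε).compl fun ω hω => ?_)
    (setIntegral_le_integral (integrable_eval P) (Filter.Eventually.of_forall fun ω => ?_))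
  · obtain ⟨h1, h2⟩ := hpt ω
    have h3 : 1 + (1 / 4) ^ r ≤ eval ω (PA (K := K) (G := G) ε r) * eval ω (PV H ε r) := by
      simp only [Gd, Set.mem_compl_iff, Set.mem_ofPred_eq, not_forall, not_and_or, not_le] at hω
      obtain ⟨q, hq | hq⟩ := hω
      · have := prod_even_ge (fun q => ε * ω q) r q hq
        have e : eval ω (PA (K := K) (G := G) ε r) = ∏ q, (1 + (ε * ω q) ^ (2 * r)) := by simp [PA]
        rw [← e] at this
        nlinarith
      · have := prod_even_ge (fun q : Fin K × G => ε * eval ω (Vp H q.1 q.2)) r q hq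
        have e : eval ω (PV (K := K) H ε r)
            = ∏ q : Fin K × G, (1 + (ε * eval ω (Vp H q.1 q.2)) ^ (2 * r)) := by simp [PV]
        rw [← e] at this
        nlinarith
    simp only [P, map_mul, map_sub, map_add, map_pow, eval_C]
    set A := eval ω (PA (K := K) (G := G) ε r)
    set B := eval ω (PV (K := K) H ε r)
    have h4 : (4 : ℝ) ^ r * (1 / 4) ^ r = 1 := by rw [← mul_pow]; simp
    have h5 : (0 : ℝ) < 4 ^ r := by positivity
    have h6 : 1 ≤ 4 ^ r * (A * B - 1) := by nlinarith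
    nlinarith [mul_nonneg h5.le (sq_nonneg (A - B)), sq_nonneg (A - B)]
  · obtain ⟨h1, h2⟩ := hpt ω
    simp only [P, map_mul, map_sub, map_add, map_pow, eval_C, Pi.zero_apply]
    refine mul_nonneg (by positivity) (by nlinarith)

lemma abs_le_one_add_pow (u : ℝ) {r : ℕ} (hr : r ≠ 0) : |u| ≤ 1 + u ^ (2 * r) := by
  have h0 := (even_two_mul r).pow_nonneg u
  by_cases h : |u| ≤ 1
  · linarith
  · rw [← (even_two_mul r).pow_abs]
    have := le_self_pow₀ (not_le.mp h).le (show 2 * r ≠ 0 by omega)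
    linarith

lemma sum_abs_wt_le {r : ℕ} (hr : r ≠ 0) (s : Fin (K + 1) × G → ℝ) (hs : ∀ p, |s p| ≤ 1)
    (a : Fin (K + 1) → Option G) (ω : Fin K × G → ℝ) :
    ∑ x, |wt a (fun p => eval ω (mu H ε s p)) x| ≤ eval ω (PA ε r * PV H ε r) := by
  let α : Fin (K + 1) → G → ℝ := fun j i =>
    Fin.cases 1 (fun j' => 1 + (ε * eval ω (Vp H j' i)) ^ (2 * r)) j
  let β : Fin (K + 1) → G → ℝ := fun j i =>
    Fin.lastCases 1 (fun j' => 1 + (ε * ω (j', i)) ^ (2 * r)) j
  have hα : ∀ j i, 1 ≤ α j i ∧ |eval ω (Ap H ε j i)| ≤ α j i := fun j i => by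
    refine Fin.cases ?_ (fun j => ?_) j
    · simp [α, Ap]
    · simp only [α, Ap, Fin.cases_succ, map_mul, eval_C]
      exact ⟨by have := (even_two_mul r).pow_nonneg (ε * eval ω (Vp H j i)); linarith,
        abs_le_one_add_pow _ hr⟩
  have hβ : ∀ j i, 1 ≤ β j i ∧ |eval ω (Bp ε j i)| ≤ β j i := fun j i => by
    refine Fin.lastCases ?_ (fun j => ?_) j
    · simp [β, Bp]
    · simp only [β, Bp, Fin.lastCases_castSucc, map_mul, eval_C, eval_X]
      exact ⟨by have := (even_two_mul r).pow_nonneg (ε * ω (j, i)); linarith,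
        abs_le_one_add_pow _ hr⟩
  have e : eval ω (PA ε r * PV H ε r) = ∏ p : Fin (K + 1) × G, β p.1 p.2 * α p.1 p.2 := by
    rw [prod_mul_distrib, Fintype.prod_prod_type, Fintype.prod_prod_type, Fin.prod_univ_castSucc,
      Fin.prod_univ_succ]
    simp [α, β, PA, PV, Fintype.prod_prod_type]
  rw [e]
  simp only [wt, abs_prod]
  rw [← Fintype.piFinset_univ, ← prod_univ_sum (fun _ => univ)
    (fun p b => |if a p.1 = some p.2 then sg b / 2 else (1 + sg b * eval ω (mu H ε s p)) / 2|)]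
  refine prod_le_prod (fun p _ => sum_nonneg fun _ _ => abs_nonneg _) fun p _ => ?_
  obtain ⟨a1, a2⟩ := hα p.1 p.2
  obtain ⟨b1, b2⟩ := hβ p.1 p.2
  have h1 : 1 ≤ β p.1 p.2 * α p.1 p.2 := by nlinarith
  have h2 : |eval ω (mu H ε s p)| ≤ β p.1 p.2 * α p.1 p.2 := by
    simp only [mu, map_mul, eval_C, abs_mul]
    have := mul_le_mul a2 b2 (abs_nonneg _) (by linarith)
    have h3 := mul_le_mul_of_nonneg_right (hs p)
      (mul_nonneg (abs_nonneg (eval ω (Ap H ε p.1 p.2))) (abs_nonneg (eval ω (Bp ε p.1 p.2))))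
    linarith
  simp only [Fintype.univ_bool, mem_singleton, Bool.true_eq_false, not_false_eq_true, sum_insert,
    sum_singleton, sg_true, sg_false]
  split_ifs
  · norm_num; linarith
  · generalize eval ω (mu H ε s p) = y at h2
    have := abs_le.mp h2
    rcases abs_cases ((1 + -1 * y) / 2) with h | h <;>
      rcases abs_cases ((1 + 1 * y) / 2) with h' | h' <;> linarith

lemma abs_sum_wt_le {r : ℕ} (hr : r ≠ 0) (s : Fin (K + 1) × G → ℝ) (hs : ∀ p, |s p| ≤ 1)
    (a : Fin (K + 1) → Option G) (ω : Fin K × G → ℝ) (g : (Fin (K + 1) × G → Bool) → ℝ)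
    (hg : ∀ x, |g x| ≤ 1) :
    |∑ x, g x * wt a (fun p => eval ω (mu H ε s p)) x| ≤ eval ω (PA ε r * PV H ε r) := by
  refine (abs_sum_le_sum_abs _ _).trans (le_trans (sum_le_sum fun x _ => ?_)
    (sum_abs_wt_le H ε hr s hs a ω))
  rw [abs_mul]
  exact mul_le_of_le_one_left (abs_nonneg _) (hg x)

lemma mu_small (hK : 0 < K) (s : Fin (K + 1) × G → ℝ) (hs : ∀ p, |s p| ≤ 1) {ω : Fin K × G → ℝ}
    (hω : ω ∈ Gd H ε) (p : Fin (K + 1) × G) : |eval ω (mu H ε s p)| ≤ 1 / 2 := by
  obtain ⟨j, i⟩ := p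
  have hA : |eval ω (Ap H ε j i)| ≤ if j = 0 then 1 else 1 / 2 := by
    refine Fin.cases ?_ (fun j => ?_) j
    · simp [Ap]
    · simpa [Ap] using (hω (j, i)).2
  have hB : |eval ω (Bp ε j i)| ≤ if j = Fin.last K then 1 else 1 / 2 := by
    refine Fin.lastCases ?_ (fun j => ?_) j
    · simp [Bp]
    · simpa [Bp] using (hω (j, i)).1
  simp only [mu, map_mul, eval_C, abs_mul]
  have h0 := abs_nonneg (eval ω (Ap H ε j i))
  have h1 := abs_nonneg (eval ω (Bp ε j i))
  have h2 : |eval ω (Ap H ε j i)| * |eval ω (Bp ε j i)| ≤ 1 / 2 := by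
    split_ifs at hA hB with a1 a2 a2
    · rw [a1] at a2
      have := congrArg Fin.val a2
      simp at this; omega
    all_goals nlinarith
  nlinarith [hs (j, i), mul_nonneg h0 h1]

/-- the planted sub-probability distribution -/
noncomputable def Dw (z : Fin (K + 1) × G → Bool) : ℝ :=
  ∫ ω in Gd H ε, eval ω (Wp H ε (fun _ => 1) (fun _ => none) z) ∂gam (Fin K × G)

lemma Dw_nonneg (hK : 0 < K) (z : Fin (K + 1) × G → Bool) : 0 ≤ Dw H ε z := by
  refine setIntegral_nonneg (measurableSet_Gd H ε) fun ω hω => ?_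
  rw [eval_Wp]
  refine prod_nonneg fun p _ => ?_
  have := abs_le.mp (mu_small H ε hK (fun _ => 1) (by simp) hω p)
  simp only [reduceCtorEq, if_false]
  cases z p <;> simp only [sg_true, sg_false] <;> linarith

lemma sum_Dw (g : (Fin (K + 1) × G → Bool) → ℝ) : ∑ z, g z * Dw H ε z = ∫ ω in Gd H ε,
    eval ω (∑ z, C (g z) * Wp H ε (fun _ => 1) (fun _ => none) z) ∂gam (Fin K × G) := by
  simp only [Dw, map_sum, map_mul, eval_C]
  rw [integral_finsetSum _ fun z _ => ((integrable_eval _).integrableOn).const_mul _]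
  simp only [integral_const_mul]

lemma sum_Dw_le : ∑ z, Dw (K := K) H ε z ≤ 1 := by
  have := sum_Dw (K := K) H ε fun _ => 1
  simp only [one_mul, map_one, map_sum, eval_Wp, sum_wt, if_true] at this
  rw [this]
  simp [measureReal_le_one]

lemma Dw_close {r : ℕ} (hr : r ≠ 0) (g : (Fin (K + 1) × G → Bool) → ℝ) (hg : ∀ x, |g x| ≤ 1) :
    |∑ z, g z * Dw H ε z - ∑ x, g x * LG (Wp H ε (fun _ => 1) (fun _ => none) x)|
      ≤ tl H ε K r := by
  have e : ∑ x, g x * LG (Wp H ε (fun _ => 1) (fun _ => none) x)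
      = LG (∑ z, C (g z) * Wp H ε (fun _ => 1) (fun _ => none) z) := by
    simp only [map_sum, LG_C_mul]
  rw [sum_Dw, e, LG_apply, ← integral_add_compl (measurableSet_Gd H ε) (integrable_eval _),
    sub_add_cancel_left, abs_neg]
  refine abs_integral_le_integral_abs.trans (integral_mono (integrable_eval _).integrableOn.abs
    (integrable_eval _).integrableOn fun ω => ?_)
  simp only [map_sum, map_mul (eval ω) (C _), eval_C, eval_Wp]
  exact abs_sum_wt_le H ε hr _ (by simp) _ ω g hg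

theorem indist (hH : Orth H) (hK : 0 < K) {r : ℕ} (hr : r ≠ 0)
    (g : (Fin (K + 1) × G → Bool) → ℝ) (hg : ∀ x, |g x| ≤ 1) {B S : ℝ} (hB0 : 0 ≤ B)
    (hB : ∀ y : Fin (K + 1) × G → ℝ, (∀ p, |y p| ≤ 1 / 2) → DD (cc H) y g ≤ B)
    (hS : ∑ a : Fin (K + 1) → Option G, |cc H a| ≤ S) :
    ∑ z, g z * Dw H ε z ≤ (1 / 2) ^ Fintype.card (Fin (K + 1) × G) * ∑ x, g x
      + tl H ε K r + ε ^ (2 * K) * (B + S * tl H ε K r) := by
  obtain ⟨t, ht, h⟩ := chain H ε hH hK g
  have h1 := (abs_le.mp (Dw_close H ε hr g hg)).2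
  have hs : ∀ p : Fin (K + 1) × G, |sc t p| ≤ 1 := fun p => by
    unfold sc; split_ifs
    · rw [abs_of_nonneg ht.1]; exact ht.2
    · simp
  have h2 : ∑ x, g x * ∑ a, cc H a * LG (Wp H ε (sc t) a x) ≤ B + S * tl H ε K r := by
    have e : ∑ x, g x * ∑ a, cc H a * LG (Wp H ε (sc t) a x)
        = LG (∑ x, C (g x) * ∑ a, C (cc H a) * Wp H ε (sc t) a x) := by
      simp only [map_sum, LG_C_mul]
    have e2 : ∀ ω, eval ω (∑ x, C (g x) * ∑ a, C (cc H a) * Wp H ε (sc t) a x)
        = DD (cc H) (fun p => eval ω (mu H ε (sc t) p)) g := fun ω => by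
      simp only [map_sum, map_mul, eval_C, eval_Wp, DD]
    rw [e, LG_apply, ← integral_add_compl (measurableSet_Gd H ε) (integrable_eval _)]
    refine add_le_add ?_ ?_
    · refine (setIntegral_mono_on (integrable_eval _).integrableOn (g := fun _ => B)
        (by simp) (measurableSet_Gd H ε) fun ω hω => ?_).trans ?_
      · rw [e2]; exact hB _ (mu_small H ε hK _ hs hω)
      · simp only [integral_const, MeasurableSet.univ, measureReal_restrict_apply, Set.univ_inter,
          smul_eq_mul]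
        exact mul_le_of_le_one_left hB0 measureReal_le_one
    · rw [tl, ← integral_const_mul]
      refine integral_mono (integrable_eval _).integrableOn
        ((integrable_eval _).integrableOn.const_mul _) fun ω => ?_
      beta_reduce
      rw [e2]
      simp only [DD, mul_sum]
      rw [sum_comm]
      have h0 : 0 ≤ eval ω (PA ε r * PV H ε r) :=
        (abs_nonneg _).trans (abs_sum_wt_le H ε hr _ hs (fun _ => none) ω g hg)
      refine le_trans (sum_le_sum fun a _ => ?_) ((sum_mul _ _ _).symm.le.trans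
        (mul_le_mul_of_nonneg_right hS h0))
      simp only [mul_left_comm (g _), ← mul_sum]
      refine (le_abs_self _).trans ?_
      rw [abs_mul]
      exact mul_le_mul_of_nonneg_left (abs_sum_wt_le H ε hr _ hs a ω g hg) (abs_nonneg _)
  have h3 := mul_le_mul_of_nonneg_left h2 ((even_two_mul K).pow_nonneg ε)
  linarith

end Vale.Agent.P362
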