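import Vale.Agent.P362.Had

set_option linter.unusedSectionVars false

namespace Vale.Agent.P362

open Finset Matrix

abbrev TabIx (ν K : ℕ) := Bool × Fin (K + 1) × Fin (ν + 1) × GG ν
abbrev Slot (ν K : ℕ) := Bool ⊕ (GG ν × Fin ν) ⊕ Fin ν ⊕ (TabIx ν K × Fin (ν * (K + 1) + 2))
abbrev Ix (ν K : ℕ) := (GG ν × Bool × (Fin (K + 1) × GG ν)) ⊕ ((GG ν × GG ν) × Slot ν K)
abbrev Kx (ν K : ℕ) := GG ν ⊕ GG ν ⊕ TabIx ν K ⊕ Bool

variable {ν K : ℕ}

def mark (x : Ix ν K → Bool) (a : GG ν × GG ν) : Bool := x (.inr (a, .inl false))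
def flag (x : Ix ν K → Bool) (a : GG ν × GG ν) : Bool := x (.inr (a, .inl true))
def ptr (x : Ix ν K → Bool) (a : GG ν × GG ν) (c : GG ν) : GG ν :=
  fun l => x (.inr (a, .inr (.inl (c, l))))
def idx (x : Ix ν K → Bool) (a : GG ν × GG ν) : GG ν := fun l => x (.inr (a, .inr (.inr (.inl l))))
noncomputable def tab (x : Ix ν K → Bool) (a : GG ν × GG ν) (s : Bool) (j l : ℕ) (c : GG ν) : ℝ :=
  dec (ν * (K + 1)) fun b =>
    x (.inr (a, .inr (.inr (.inr ((s, Fin.ofNat (K + 1) j, Fin.ofNat (ν + 1) l, c), b)))))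
def ent (x : Ix ν K → Bool) (v : GG ν) (s : Bool) : Fin (K + 1) × GG ν → Bool :=
  fun p => x (.inl (v, s, p))

def elim (x : Ix ν K → Bool) (a : GG ν × GG ν) (c : GG ν) : Prop :=
  c = a.2 ∨ mark x (ptr x a c, c) = true

def ok (δ : ℝ) (x : Ix ν K → Bool) (a : GG ν × GG ν) : Kx ν K → Prop
  | .inl r => mark x (r, a.2) = false ∧ (flag x (r, a.2) = true ↔ r = a.1)
  | .inr (.inl c) => elim x a c
  | .inr (.inr (.inl q)) => Chk (tab x a q.1) (sgn (ent x (idx x a) q.1)) q.2.1 q.2.2.1 q.2.2.2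
  | .inr (.inr (.inr s)) => δ ≤ hh ν ^ (K + 2) * tab x a s K ν (if s = true then a.1 else a.2)

def Valid (δ : ℝ) (x : Ix ν K → Bool) (a : GG ν × GG ν) : Prop := ∀ κ, ok δ x a κ

open Classical in
/-- the separating function -/
noncomputable def FF (δ : ℝ) (x : Ix ν K → Bool) : Bool := decide (∃ a, Valid δ x a)

lemma Valid.amp {δ : ℝ} {x : Ix ν K → Bool} {a : GG ν × GG ν} (h : Valid δ x a) (s : Bool) :
    δ ≤ hh ν * (Had ν *ᵥ stage (Had ν) (sgn (ent x (idx x a) s)) K)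
      (if s = true then a.1 else a.2) := by
  have h1 : δ ≤ hh ν ^ (K + 2) * tab x a s K ν (if s = true then a.1 else a.2) :=
    h (.inr (.inr (.inr s)))
  rw [amp_eq, ← chk_sound (tab := tab x a s) (d := sgn (ent x (idx x a) s)) (K := K) (fun j hj l hl c =>
    h (.inr (.inr (.inl (s, ⟨j, by omega⟩, ⟨l, by omega⟩, c))))) K le_rfl]
  exact h1

lemma det_elim (a : GG ν × GG ν) (c : GG ν) : Det (ν + 1) fun x : Ix ν K → Bool => elim x a c :=
  (Det.word fun l => (.inr (a, .inr (.inl (c, l))) : Ix ν K)).bind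
    (u := fun r x => c = a.2 ∨ mark x (r, c) = true)
    fun r => (Det.bit (.inr ((r, c), .inl false) : Ix ν K)).map fun b => c = a.2 ∨ b = true

lemma det_tab (a : GG ν × GG ν) (s : Bool) (j l : ℕ) (c : GG ν) :
    Det (ν * (K + 1) + 2) fun x : Ix ν K → Bool => tab x a s j l c :=
  (Det.word fun b => (.inr (a, .inr (.inr (.inr
    ((s, Fin.ofNat (K + 1) j, Fin.ofNat (ν + 1) l, c), b)))) : Ix ν K)).map (dec _)

lemma det_ok (δ : ℝ) (a : GG ν × GG ν) (κ : Kx ν K) :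
    Det (ν + (3 * (ν * (K + 1) + 2) + 1)) fun x : Ix ν K → Bool => ok δ x a κ := by
  rcases κ with r | c | q | s
  · exact (((Det.bit (.inr ((r, a.2), .inl false) : Ix ν K)).pair
      (Det.bit (.inr ((r, a.2), .inl true) : Ix ν K))).map
        fun q => q.1 = false ∧ (q.2 = true ↔ r = a.1)).mono (by omega)
  · exact (det_elim a c).mono (by omega)
  · exact (Det.word fun l => (.inr (a, .inr (.inr (.inl l))) : Ix ν K)).bind
      (u := fun v x => Chk (tab x a q.1) (sgn (ent x v q.1)) q.2.1 q.2.2.1 q.2.2.2)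
      fun v => det_chk (det_tab a q.1) (d := fun x => sgn (ent x v q.1))
        (fun j c => (Det.bit (.inl (v, q.1, (Fin.ofNat (K + 1) j, c)) : Ix ν K)).map sg) _ _ _
  · exact ((det_tab a s K ν (if s = true then a.1 else a.2)).map
      fun y => δ ≤ hh ν ^ (K + 2) * y).mono (by omega)

lemma Has.bind_sure {ι Y Z : Type} {T1 T2 : ℕ} {E : (ι → Bool) → (Y → ℝ) → ℝ}
    {F : Y → (ι → Bool) → (Z → ℝ) → ℝ} (z0 : Z) (h1 : Has T1 E) {A : Y → Prop}
    (hA : ∀ x, Sure (E x) A) (h2 : ∀ y, A y → Has T2 (F y)) :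
    Has (T1 + T2) fun x φ => E x fun y => F y x φ := by
  classical
  have := h1.bind (T2 := T2) (F := fun y => if A y then F y else fun _ φ => φ z0) fun y => by
    split_ifs with h
    · exact h2 y h
    · exact (Has.pure z0).mono (Nat.zero_le _)
  convert this using 3 with x φ
  exact le_antisymm (hA x _ _ fun y hy => by simp [hy]) (hA x _ _ fun y hy => by simp [hy])

lemma Has.find {ι Y : Type} {T : ℕ} {E : (ι → Bool) → (Y → ℝ) → ℝ} (h : Has T E)
    (good : Y → Prop) (S r : ℕ) : ∃ E' : (ι → Bool) → (List Y → ℝ) → ℝ,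
      Has (r * (3 ^ S * T)) E' ∧
      (∀ x A, Sure (E x) A → Sure (E' x) fun l => l.length = r ∧ ∀ y ∈ l, A y) ∧
      ∀ x (A : Y → Prop), 1 ≤ 9 ^ S * E x (fun y => ind (good y)) →
        E x (fun y => ind (good y)) ≤ 2 * E x (fun y => ind (good y ∧ A y)) →
        E' x (fun l => ind (∀ y ∈ l, ¬ (good y ∧ A y))) ≤ (1 - 1 / (8 * (S + 1))) ^ r := by
  obtain ⟨E', h1, h2, h3⟩ := h.search good S
  refine ⟨fun x => P362.rep (E' x) r, h1.rep r, fun x A hA => (h2 x A hA).rep r,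
    fun x A ha hA => ?_⟩
  beta_reduce
  rw [(h1.isP x).rep_all (fun r => (h1.rep r).isP x) (fun y => ¬ (good y ∧ A y))]
  refine pow_le_pow_left₀ ((h1.isP x).nonneg fun _ => ind_nonneg _) ?_ r
  have h4 := h3 x ha (fun y => ind (A y)) fun _ => ind_nonneg _
  simp only [← ind_and] at h4
  simp only [ind_not, (h1.isP x).sub, (h1.isP x).const]
  have hpos : 0 < E x fun y => ind (good y) := by
    by_contra hc
    have : (0 : ℝ) ≤ 9 ^ S := by positivity
    nlinarith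
  have hS : (0 : ℝ) < 8 * (S + 1) := by positivity
  have : 1 / (8 * ((S : ℝ) + 1)) ≤ E' x fun y => ind (good y ∧ A y) := by
    rw [div_le_iff₀ hS]
    by_contra hc
    nlinarith
  linarith

end Vale.Agent.P362
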