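import Vale.Agent.P362.Amp

set_option linter.unusedSectionVars false

namespace Vale.Agent.P362

open Finset Matrix

abbrev GG (ν : ℕ) := Fin ν → Bool

variable {ν : ℕ}

def Hn (ν : ℕ) : Matrix (GG ν) (GG ν) ℝ := Matrix.of fun u c => ∏ l, sg (u l && c l)

noncomputable def hh (ν : ℕ) : ℝ := (√(2 ^ ν))⁻¹

lemma hh_sq : hh ν ^ 2 = (2 ^ ν)⁻¹ := by
  rw [hh, inv_pow, Real.sq_sqrt (by positivity)]

lemma hh_pos : 0 < hh ν := by unfold hh; positivity

noncomputable def Had (ν : ℕ) : Matrix (GG ν) (GG ν) ℝ := hh ν • Hn ν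

lemma Hn_mul_self (u c : GG ν) : Hn ν u c * Hn ν u c = 1 := by
  simp [Hn, ← prod_mul_distrib, sg_mul_self]

lemma Had_orth : Orth (Had ν) := by
  ext a b
  simp only [Had, Hn, Matrix.mul_apply, transpose_apply, Matrix.smul_apply, of_apply, smul_eq_mul]
  have : ∀ u : GG ν, hh ν * (∏ l, sg (u l && a l)) * (hh ν * ∏ l, sg (u l && b l))
      = hh ν ^ 2 * ∏ l, sg (u l && a l) * sg (u l && b l) := fun u => by
    rw [prod_mul_distrib]; ring
  simp only [this, ← mul_sum]
  rw [← Fintype.piFinset_univ, ← prod_univ_sum (fun _ => univ)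
    (fun l u => sg (u && a l) * sg (u && b l)), hh_sq, Matrix.one_apply]
  split_ifs with h
  · subst h
    simp [sg_mul_self, one_add_one_eq_two]
  · obtain ⟨l, hl⟩ := Function.ne_iff.mp h
    rw [prod_eq_zero (mem_univ l), mul_zero]
    revert hl
    cases a l <;> cases b l <;> simp

lemma Had_zero (c : GG ν) : Had ν c (fun _ => false) = hh ν := by simp [Had, Hn]

lemma abs_Had (a b : GG ν) : |Had ν a b| = hh ν := by
  simp [Had, Hn, abs_mul, abs_prod, abs_sg, abs_of_pos hh_pos]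

/-- levels of the fast Hadamard transform -/
def lev (v : GG ν → ℝ) : ℕ → GG ν → ℝ
  | 0 => v
  | l + 1 => fun c => if h : l < ν then lev v l (Function.update c ⟨l, h⟩ false)
      + sg (c ⟨l, h⟩) * lev v l (Function.update c ⟨l, h⟩ true) else lev v l c

lemma lev_eq (v : GG ν → ℝ) : ∀ l ≤ ν, ∀ c, lev v l c =
    ∑ u : GG ν, (∏ i : Fin ν, if (i : ℕ) < l then sg (c i && u i) else ind (u i = c i)) * v u
  | 0, _, c => by
      rw [Finset.sum_eq_single c]
      · simp [lev, ind]
      · intro u _ hu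
        obtain ⟨i, hi⟩ := Function.ne_iff.mp hu
        rw [prod_eq_zero (mem_univ i) (by simp [ind, hi]), zero_mul]
      · simp
  | l + 1, h, c => by
      have hl : l < ν := h
      simp only [lev, dif_pos hl, lev_eq v l hl.le, mul_sum, ← sum_add_distrib]
      refine sum_congr rfl fun u _ => ?_
      have e : ∀ b, (∏ i : Fin ν, if (i : ℕ) < l then sg (Function.update c ⟨l, hl⟩ b i && u i)
          else ind (u i = Function.update c ⟨l, hl⟩ b i)) = ind (u ⟨l, hl⟩ = b) *
          ∏ i ∈ univ.erase (⟨l, hl⟩ : Fin ν), if (i : ℕ) < l + 1 then sg (c i && u i) else ind (u i = c i) := by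
        intro b
        rw [← mul_prod_erase _ _ (mem_univ ⟨l, hl⟩)]
        simp only [lt_self_iff_false, if_false, Function.update_self]
        congr 1
        refine prod_congr rfl fun i hi => ?_
        have hi' := ne_of_mem_erase hi
        have : (i : ℕ) ≠ l := fun h => hi' (Fin.ext h)
        rw [Function.update_of_ne hi']
        have : (i : ℕ) < l ↔ (i : ℕ) < l + 1 := by omega
        simp only [this]
      rw [e, e, ← mul_prod_erase _ _ (mem_univ ⟨l, hl⟩), if_pos (Nat.lt_succ_self l)]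
      cases u ⟨l, hl⟩ <;> simp [ind, mul_assoc]

lemma lev_full (v : GG ν → ℝ) : lev v ν = Hn ν *ᵥ v := by
  ext c
  rw [lev_eq v ν le_rfl]
  simp [mulVec, dotProduct, Hn]

/-- local checks of a tableau -/
def Chk (tab : ℕ → ℕ → GG ν → ℝ) (d : ℕ → GG ν → ℝ) : ℕ → ℕ → GG ν → Prop
  | 0, 0, c => tab 0 0 c = d 0 c
  | j + 1, 0, c => tab (j + 1) 0 c = d (j + 1) c * tab j ν c
  | j, l + 1, c => ∀ h : l < ν, tab j (l + 1) c = tab j l (Function.update c ⟨l, h⟩ false)
      + sg (c ⟨l, h⟩) * tab j l (Function.update c ⟨l, h⟩ true)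

lemma chk_sound {tab : ℕ → ℕ → GG ν → ℝ} {d : ℕ → GG ν → ℝ} {K : ℕ}
    (h : ∀ j ≤ K, ∀ l ≤ ν, ∀ c, Chk tab d j l c) :
    ∀ j ≤ K, tab j ν = Hn ν *ᵥ stage (Hn ν) d j := by
  have key : ∀ j ≤ K, ∀ l ≤ ν, tab j l = lev (tab j 0) l := by
    intro j hj l
    induction l with
    | zero => intro _; rfl
    | succ l ih =>
      intro hl
      ext c
      have := h j hj (l + 1) hl c
      have h2 : ∀ h : l < ν, tab j (l + 1) c = tab j l (Function.update c ⟨l, h⟩ false)
        + sg (c ⟨l, h⟩) * tab j l (Function.update c ⟨l, h⟩ true) := by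
        cases j <;> exact this
      rw [h2 hl, ih (by omega)]
      simp only [lev, dif_pos (show l < ν from hl)]
  intro j
  induction j with
  | zero =>
    intro hj
    rw [key 0 hj ν le_rfl, lev_full]
    congr 1
    ext c; exact h 0 hj 0 (by omega) c
  | succ j ih =>
    intro hj
    rw [key _ hj ν le_rfl, lev_full]
    congr 1
    ext c
    have : tab (j + 1) 0 c = d (j + 1) c * tab j ν c := h (j + 1) hj 0 (by omega) c
    rw [this, ih (by omega)]
    rfl

lemma chk_congr {tab tab' : ℕ → ℕ → GG ν → ℝ} {d : ℕ → GG ν → ℝ} {K : ℕ}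
    (e : ∀ j ≤ K, ∀ l ≤ ν, tab j l = tab' j l) {j l : ℕ} (hj : j ≤ K) (hl : l ≤ ν) {c : GG ν}
    (h : Chk tab' d j l c) : Chk tab d j l c := by
  rcases l with _ | l
  · rcases j with _ | j
    · simp only [Chk] at h ⊢
      rwa [e 0 hj 0 hl]
    · simp only [Chk] at h ⊢
      rwa [e _ hj 0 hl, e j (by omega) ν le_rfl]
  · rcases j with _ | j <;>
    · simp only [Chk] at h ⊢
      rwa [e _ hj _ hl, e _ hj l (by omega)]

lemma chk_complete (d : ℕ → GG ν → ℝ) (j l : ℕ) (c : GG ν) :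
    Chk (fun j l => lev (stage (Hn ν) d j) l) d j l c := by
  rcases l with _ | l
  · rcases j with _ | j
    · rfl
    · simp only [Chk, lev_full]; rfl
  · rcases j with _ | j <;>
    · intro h
      simp only [lev, dif_pos h]

def IntB (B : ℕ) (y : ℝ) : Prop := ∃ n : ℤ, (n : ℝ) = y ∧ |n| ≤ B

lemma IntB.mono {B B' : ℕ} {y : ℝ} (h : IntB B y) (hB : B ≤ B') : IntB B' y := by
  obtain ⟨n, hn, h⟩ := h
  exact ⟨n, hn, h.trans (by exact_mod_cast hB)⟩

lemma IntB.sg_mul {B : ℕ} {y : ℝ} (h : IntB B y) (b : Bool) : IntB B (sg b * y) := by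
  obtain ⟨n, hn, h⟩ := h
  cases b
  · exact ⟨n, by simp [hn], h⟩
  · exact ⟨-n, by simp [hn], by simpa using h⟩

lemma IntB.add {B : ℕ} {y z : ℝ} (h : IntB B y) (h' : IntB B z) : IntB (2 * B) (y + z) := by
  obtain ⟨n, hn, h⟩ := h
  obtain ⟨m, hm, h'⟩ := h'
  refine ⟨n + m, by simp [hn, hm], (abs_add_le _ _).trans ?_⟩
  push_cast; linarith

lemma intB_lev {B : ℕ} {v : GG ν → ℝ} (h : ∀ c, IntB B (v c)) : ∀ l c, IntB (2 ^ l * B) (lev v l c)
  | 0, c => by simpa [lev] using h c
  | l + 1, c => by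
      simp only [lev]
      split_ifs with hl
      · rw [pow_succ', mul_assoc]
        exact (intB_lev h l _).add ((intB_lev h l _).sg_mul _)
      · exact (intB_lev h l c).mono (Nat.mul_le_mul_right _ (Nat.pow_le_pow_right (by norm_num)
          (by omega)))

lemma intB_stage (z : ℕ → GG ν → Bool) :
    ∀ j c, IntB (2 ^ (ν * j)) (stage (Hn ν) (fun j c => sg (z j c)) j c)
  | 0, c => by
      have : IntB 1 1 := ⟨1, by simp, by simp⟩
      simpa [stage] using this.sg_mul (z 0 c)
  | j + 1, c => by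
      simp only [stage, ← lev_full]
      have := (intB_lev (intB_stage z j) ν c).sg_mul (z (j + 1) c)
      rwa [← pow_add, show ν + ν * j = ν * (j + 1) by ring] at this

/-- decoding of signed integers -/
noncomputable def dec (w : ℕ) (b : Fin (w + 2) → Bool) : ℝ :=
  ((Fintype.equivFin _ b : ℕ) : ℝ) - 2 ^ w

lemma exists_dec {w : ℕ} {y : ℝ} (h : IntB (2 ^ w) y) : ∃ b, dec w b = y := by
  obtain ⟨n, hn, h⟩ := h
  have h' := abs_le.mp h
  push_cast at h'
  have h0 : 0 ≤ n + 2 ^ w := by linarith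
  have h1 : (n + 2 ^ w).toNat < Fintype.card (Fin (w + 2) → Bool) := by
    simp only [Fintype.card_pi, Fintype.card_bool, prod_const, card_univ, Fintype.card_fin]
    rw [Int.toNat_lt h0]
    push_cast
    have : (0 : ℤ) < 2 ^ w := by positivity
    rw [pow_add]; linarith
  refine ⟨(Fintype.equivFin _).symm ⟨_, h1⟩, ?_⟩
  simp only [dec, Equiv.apply_symm_apply]
  have : (((n + 2 ^ w).toNat : ℤ) : ℝ) = ((n + 2 ^ w : ℤ) : ℝ) := by rw [Int.toNat_of_nonneg h0]
  push_cast at this
  rw [this, hn]; ring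

lemma det_chk {ι : Type} {T : ℕ} {tab : (ι → Bool) → ℕ → ℕ → GG ν → ℝ}
    {d : (ι → Bool) → ℕ → GG ν → ℝ} (ht : ∀ j l c, Det T fun x => tab x j l c)
    (hd : ∀ j c, Det 1 fun x => d x j c) (j l : ℕ) (c : GG ν) :
    Det (3 * T + 1) fun x => Chk (tab x) (d x) j l c := by
  rcases l with _ | l
  · rcases j with _ | j
    · exact (((ht 0 0 c).pair (hd 0 c)).map fun q => q.1 = q.2).mono (by omega)
    · exact ((((ht (j + 1) 0 c).pair (hd (j + 1) c)).pair (ht j ν c)).map
        fun q => q.1.1 = q.1.2 * q.2).mono (by omega)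
  · by_cases h : l < ν
    · have := ((((ht j (l + 1) c).pair (ht j l (Function.update c ⟨l, h⟩ false))).pair
        (ht j l (Function.update c ⟨l, h⟩ true))).map
        fun q => q.1.1 = q.1.2 + sg (c ⟨l, h⟩) * q.2).mono (show _ ≤ 3 * T + 1 by omega)
      convert this using 2 with x
      rcases j with _ | j <;> exact ⟨fun h' => h' h, fun h' _ => h'⟩
    · have := (Det.const (ι := ι) True).mono (show _ ≤ 3 * T + 1 by omega)
      convert this using 2 with x
      rcases j with _ | j <;> exact ⟨fun _ => trivial, fun _ h' => absurd h' h⟩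

/-- twisting the last block moves the Forrelation peak -/
noncomputable def twist {K : ℕ} (u : GG ν) (p : Fin (K + 1) × GG ν) : Bool :=
  decide (p.1 = Fin.last K) && decide (Hn ν u p.2 = -1)

lemma amp_twist {K : ℕ} (hK : 0 < K) (u : GG ν) (z : Fin (K + 1) × GG ν → Bool) :
    hh ν * (Had ν *ᵥ stage (Had ν) (sgn fun p => xor (z p) (twist u p)) K) u = Fo (Had ν) z := by
  obtain ⟨K, rfl⟩ := Nat.exists_eq_succ_of_ne_zero hK.ne'
  have e1 : stage (Had ν) (sgn fun p : Fin (K + 1 + 1) × GG ν => xor (z p) (twist u p)) K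
      = stage (Had ν) (sgn z) K := stage_congr _ K fun j hj => by
    ext c
    have : Fin.ofNat (K + 1 + 1) j ≠ Fin.last (K + 1) := by
      intro h
      have := congrArg Fin.val h
      simp only [Fin.ofNat, Fin.val_last] at this
      rw [Nat.mod_eq_of_lt (by omega)] at this
      omega
    simp only [sgn, twist, this, decide_false, Bool.false_and, Bool.xor_false]
  have e2 : Fin.ofNat (K + 1 + 1) (K + 1) = Fin.last (K + 1) := by
    ext; simp [Fin.ofNat]
  have e3 : ∀ c, sgn (fun p : Fin (K + 1 + 1) × GG ν => xor (z p) (twist u p)) (K + 1) c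
      = sgn z (K + 1) c * Hn ν u c := fun c => by
    simp only [sgn, sg_xor, twist, e2, decide_true, Bool.true_and]
    congr 1
    rcases mul_self_eq_one_iff.mp (Hn_mul_self u c) with h | h
    · rw [h]; norm_num
    · rw [h]; simp
  have hc : (Fintype.card (GG ν) : ℝ) = 2 ^ ν := by simp
  rw [Fo, hc, div_eq_inv_mul, ← hh_sq, mulVec, dotProduct, mul_sum, mul_sum]
  refine sum_congr rfl fun c _ => ?_
  simp only [Nat.succ_eq_add_one, stage, e1, e3]
  generalize (Had ν *ᵥ stage (Had ν) (sgn z) K) c = A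
  simp only [Had, Matrix.smul_apply, smul_eq_mul]
  linear_combination (hh ν ^ 2 * sgn z (K + 1) c * A) * Hn_mul_self u c

lemma amp_eq {K : ℕ} (u : GG ν) (d : ℕ → GG ν → ℝ) :
    hh ν * (Had ν *ᵥ stage (Had ν) d K) u = hh ν ^ (K + 2) * (Hn ν *ᵥ stage (Hn ν) d K) u := by
  simp only [Had, stage_smul, smul_mulVec, mulVec_smul, Pi.smul_apply, smul_eq_mul]
  ring

end Vale.Agent.P362
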