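import Vale.Agent.P362.Defs

namespace Vale.Agent.P362

open Matrix Finset
open scoped Kronecker

variable {ι : Type}

/-- sign of a bit -/
def sg (b : Bool) : ℝ := if b = true then -1 else 1

@[simp] lemma sg_true : sg true = -1 := by simp [sg]
@[simp] lemma sg_false : sg false = 1 := by simp [sg]
lemma sg_mul_self (b : Bool) : sg b * sg b = 1 := by cases b <;> simp
lemma sg_sq (b : Bool) : sg b ^ 2 = 1 := by cases b <;> simp
lemma sg_xor (a b : Bool) : sg (xor a b) = sg a * sg b := by cases a <;> cases b <;> simp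
lemma abs_sg (b : Bool) : |sg b| = 1 := by cases b <;> simp

section
variable {B C : Type} [Fintype B] [DecidableEq B] [Fintype C] [DecidableEq C]

def Orth (U : Matrix B B ℝ) : Prop := Uᵀ * U = 1

lemma Orth.one : Orth (1 : Matrix B B ℝ) := by simp [Orth]

lemma Orth.mul_transpose {U : Matrix B B ℝ} (h : Orth U) : U * Uᵀ = 1 := mul_eq_one_comm.mp h

lemma Orth.transpose {U : Matrix B B ℝ} (h : Orth U) : Orth Uᵀ := by
  simpa [Orth] using h.mul_transpose

lemma Orth.mul {U V : Matrix B B ℝ} (hU : Orth U) (hV : Orth V) : Orth (U * V) := by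
  unfold Orth at *
  rw [transpose_mul, Matrix.mul_assoc, ← Matrix.mul_assoc Uᵀ, hU, Matrix.one_mul, hV]

lemma Orth.diag {d : B → ℝ} (h : ∀ b, d b * d b = 1) : Orth (diagonal d) := by
  simp [Orth, diagonal_mul_diagonal, h]

lemma Orth.sum_sq {U : Matrix B B ℝ} (h : Orth U) (s : B) : ∑ b, U b s ^ 2 = 1 := by
  have := congrFun (congrFun h s) s
  simpa [Matrix.mul_apply, sq] using this

/-- permutation matrices -/
def permM (σ : Equiv.Perm B) : Matrix B B ℝ := fun p q => if p = σ q then 1 else 0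

lemma permM_mul_apply (σ : Equiv.Perm B) (A : Matrix B C ℝ) (p : B) (q : C) :
    (permM σ * A) p q = A (σ.symm p) q := by
  simp only [Matrix.mul_apply, permM, ite_mul, one_mul, zero_mul]
  rw [Finset.sum_eq_single (σ.symm p)]
  · simp
  · intro b _ hb
    rw [if_neg]
    rintro rfl
    simp at hb
  · simp

lemma Orth.permM (σ : Equiv.Perm B) : Orth (permM σ) := by
  have h : Orth (P362.permM σ)ᵀ := by
    unfold Orth
    ext p q
    rw [transpose_transpose, permM_mul_apply]
    simp [P362.permM, Matrix.one_apply, eq_comm]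
  simpa using h.transpose

/-- Householder: every unit vector is a column of an orthogonal matrix -/
lemma exists_orth_col (v : B → ℝ) (hv : ∑ b, v b ^ 2 = 1) (s : B) :
    ∃ U : Matrix B B ℝ, Orth U ∧ ∀ b, U b s = v b := by
  set w : B → ℝ := Pi.single s 1 - v with hw
  have hww : w ⬝ᵥ w = 2 * (1 - v s) := by
    have : v ⬝ᵥ v = 1 := by simpa [dotProduct, sq] using hv
    simp only [hw, sub_dotProduct, dotProduct_sub, this, single_dotProduct, dotProduct_single]
    simp; ring
  have hws : w s = 1 - v s := by simp [hw]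
  by_cases h0 : 1 - v s = 0
  · refine ⟨1, Orth.one, fun b => ?_⟩
    have : w = 0 := by
      rw [h0, mul_zero] at hww
      exact dotProduct_self_eq_zero.mp hww
    have hb := congrFun this b
    simp only [hw, Pi.sub_apply, Pi.zero_apply, sub_eq_zero] at hb
    rw [← hb, Matrix.one_apply, Pi.single_apply]
  · refine ⟨1 - (1 - v s)⁻¹ • vecMulVec w w, ?_, fun b => ?_⟩
    · unfold Orth
      have ht : (vecMulVec w w)ᵀ = vecMulVec w w := by simp
      have hm : vecMulVec w w * vecMulVec w w = (2 * (1 - v s)) • vecMulVec w w := by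
        rw [vecMulVec_mul_vecMulVec, hww]
        ext i j; simp [vecMulVec_apply]; ring
      rw [transpose_sub, transpose_one, transpose_smul, ht, Matrix.sub_mul, Matrix.mul_sub,
        Matrix.mul_sub, Matrix.smul_mul, Matrix.smul_mul, Matrix.mul_smul, Matrix.mul_smul, hm]
      simp only [Matrix.one_mul, Matrix.mul_one, smul_smul]
      have : (1 - v s)⁻¹ * ((1 - v s)⁻¹ * (2 * (1 - v s))) = 2 * (1 - v s)⁻¹ := by field_simp
      rw [this]
      module
    · simp only [Matrix.sub_apply, Matrix.smul_apply, vecMulVec_apply, hws, smul_eq_mul]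
      have : (1 - v s)⁻¹ * (w b * (1 - v s)) = w b := by field_simp
      rw [this, hw, Matrix.one_apply]
      simp [Pi.single_apply]

/-- phase query -/
def ph (pos : B → Option ι) (x : ι → Bool) : Matrix B B ℝ :=
  diagonal fun b => sg ((pos b).elim false x)

lemma Orth.ph (pos : B → Option ι) (x : ι → Bool) : Orth (ph pos x) :=
  Orth.diag fun _ => sg_mul_self _

/-- families of orthogonal matrices implementable with `T` phase queries -/
def Impl : ℕ → ((ι → Bool) → Matrix B B ℝ) → Prop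
  | 0, W => ∃ U, Orth U ∧ ∀ x, W x = U
  | T + 1, W => ∃ U pos W', Orth U ∧ Impl T W' ∧ ∀ x, W x = U * ph pos x * W' x

lemma Impl.const {U : Matrix B B ℝ} (h : Orth U) : Impl (ι := ι) 0 fun _ => U := ⟨U, h, fun _ => rfl⟩

lemma Impl.orth : ∀ {T : ℕ} {W : (ι → Bool) → Matrix B B ℝ}, Impl T W → ∀ x, Orth (W x)
  | 0, _, ⟨_, hU, h⟩, x => h x ▸ hU
  | _ + 1, _, ⟨_, pos, _, hU, hW, h⟩, x => h x ▸ (hU.mul (Orth.ph pos x)).mul (hW.orth x)

lemma Impl.const_mul {U : Matrix B B ℝ} (hU : Orth U) :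
    ∀ {T : ℕ} {W : (ι → Bool) → Matrix B B ℝ}, Impl T W → Impl T fun x => U * W x
  | 0, _, ⟨V, hV, h⟩ => ⟨U * V, hU.mul hV, fun x => by simp [h x]⟩
  | _ + 1, _, ⟨V, pos, W', hV, hW, h⟩ =>
      ⟨U * V, pos, W', hU.mul hV, hW, fun x => by simp [h x, Matrix.mul_assoc]⟩

lemma Impl.mul {T1 : ℕ} {W1 : (ι → Bool) → Matrix B B ℝ} (h1 : Impl T1 W1) :
    ∀ {T2 : ℕ} {W2 : (ι → Bool) → Matrix B B ℝ}, Impl T2 W2 → Impl (T1 + T2) fun x => W2 x * W1 x
  | 0, _, ⟨V, hV, h⟩ => by simpa [h] using h1.const_mul hV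
  | _ + 1, _, ⟨V, pos, W', hV, hW, h⟩ =>
      ⟨V, pos, fun x => W' x * W1 x, hV, h1.mul hW, fun x => by simp [h x, Matrix.mul_assoc]⟩

lemma Impl.ph (pos : B → Option ι) : Impl 1 (ph pos) :=
  ⟨1, pos, fun _ => 1, Orth.one, Impl.const Orth.one, fun x => by simp⟩

lemma Impl.transpose :
    ∀ {T : ℕ} {W : (ι → Bool) → Matrix B B ℝ}, Impl T W → Impl T fun x => (W x)ᵀ
  | 0, _, ⟨V, hV, h⟩ => ⟨Vᵀ, hV.transpose, fun x => by simp [h x]⟩
  | T + 1, W, ⟨V, pos, W', hV, hW, h⟩ => by
      have h1 : Impl (0 + 1 + T) fun x => (W' x)ᵀ * (P362.ph pos x * Vᵀ) :=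
        ((Impl.const hV.transpose).mul (Impl.ph pos)).mul hW.transpose
      rw [show 0 + 1 + T = T + 1 by ring] at h1
      convert h1 using 2 with x
      simp [h x, P362.ph, Matrix.mul_assoc]

lemma Impl.succ {T : ℕ} {W : (ι → Bool) → Matrix B B ℝ} (h : Impl T W) : Impl (T + 1) W :=
  ⟨1, fun _ => none, W, Orth.one, h, fun x => by simp [P362.ph]⟩

lemma Impl.mono {T T' : ℕ} {W : (ι → Bool) → Matrix B B ℝ} (h : Impl T W) (hT : T ≤ T') :
    Impl T' W := by
  induction hT with
  | refl => exact h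
  | step _ ih => exact ih.succ

lemma Impl.kronL :
    ∀ {T : ℕ} {W : (ι → Bool) → Matrix B B ℝ}, Impl T W →
      Impl T fun x => W x ⊗ₖ (1 : Matrix C C ℝ)
  | 0, _, ⟨V, hV, h⟩ => ⟨V ⊗ₖ 1, by
      unfold Orth at *
      rw [← kroneckerMap_transpose, ← mul_kronecker_mul, hV]; simp, fun x => by simp [h x]⟩
  | _ + 1, _, ⟨V, pos, W', hV, hW, h⟩ =>
      ⟨V ⊗ₖ 1, fun p => pos p.1, fun x => W' x ⊗ₖ 1, by
        unfold Orth at *
        rw [← kroneckerMap_transpose, ← mul_kronecker_mul, hV]; simp, hW.kronL, fun x => by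
        have : P362.ph (fun p : B × C => pos p.1) x = P362.ph pos x ⊗ₖ (1 : Matrix C C ℝ) := by
          rw [← diagonal_one, P362.ph, P362.ph, diagonal_kronecker_diagonal]; simp
        simp only [h x, this, ← mul_kronecker_mul, Matrix.one_mul]⟩

lemma Impl.kronR :
    ∀ {T : ℕ} {W : (ι → Bool) → Matrix B B ℝ}, Impl T W →
      Impl T fun x => (1 : Matrix C C ℝ) ⊗ₖ W x
  | 0, _, ⟨V, hV, h⟩ => ⟨1 ⊗ₖ V, by
      unfold Orth at *
      rw [← kroneckerMap_transpose, ← mul_kronecker_mul, hV]; simp, fun x => by simp [h x]⟩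
  | _ + 1, _, ⟨V, pos, W', hV, hW, h⟩ =>
      ⟨1 ⊗ₖ V, fun p => pos p.2, fun x => 1 ⊗ₖ W' x, by
        unfold Orth at *
        rw [← kroneckerMap_transpose, ← mul_kronecker_mul, hV]; simp, hW.kronR, fun x => by
        have : P362.ph (fun p : C × B => pos p.2) x = (1 : Matrix C C ℝ) ⊗ₖ P362.ph pos x := by
          rw [← diagonal_one, P362.ph, P362.ph, diagonal_kronecker_diagonal]; simp
        simp only [h x, this, ← mul_kronecker_mul, Matrix.one_mul]⟩

lemma Impl.block {D : C → Type} [∀ c, Fintype (D c)] [∀ c, DecidableEq (D c)] :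
    ∀ {T : ℕ} {W : ∀ c, (ι → Bool) → Matrix (D c) (D c) ℝ}, (∀ c, Impl T (W c)) →
      Impl T fun x => blockDiagonal' fun c => W c x
  | 0, _, h => by
      choose V hV h using h
      refine ⟨blockDiagonal' V, ?_, fun x => by simp [h]⟩
      unfold Orth at *
      rw [blockDiagonal'_transpose, ← blockDiagonal'_mul]
      simp only [hV]
      exact blockDiagonal'_one
  | _ + 1, _, h => by
      choose V pos W' hV hW h using h
      refine ⟨blockDiagonal' V, fun p => pos p.1 p.2, fun x => blockDiagonal' fun c => W' c x, ?_,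
        Impl.block hW, fun x => ?_⟩
      · unfold Orth at *
        rw [blockDiagonal'_transpose, ← blockDiagonal'_mul]
        simp only [hV]
        exact blockDiagonal'_one
      · have : P362.ph (fun p : Σ c, D c => pos p.1 p.2) x
            = blockDiagonal' fun c => P362.ph (pos c) x := by
          simp only [P362.ph]; rw [blockDiagonal'_diagonal]
        simp only [h, this, ← blockDiagonal'_mul]

lemma Impl.reindex (e : C ≃ B) :
    ∀ {T : ℕ} {W : (ι → Bool) → Matrix B B ℝ}, Impl T W → Impl T fun x => (W x).submatrix e e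
  | 0, _, ⟨V, hV, h⟩ => ⟨V.submatrix e e, by
      unfold Orth at *
      rw [transpose_submatrix, submatrix_mul_equiv, hV]; simp, fun x => by simp [h x]⟩
  | _ + 1, _, ⟨V, pos, W', hV, hW, h⟩ =>
      ⟨V.submatrix e e, fun p => pos (e p), fun x => (W' x).submatrix e e, by
        unfold Orth at *
        rw [transpose_submatrix, submatrix_mul_equiv, hV]; simp, hW.reindex e, fun x => by
        have : P362.ph (fun p : C => pos (e p)) x = (P362.ph pos x).submatrix e e := by
          simp only [P362.ph]; rw [submatrix_diagonal_equiv]; rfl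
        simp only [h x, this, submatrix_mul_equiv]⟩

/-- relabelling of the input positions -/
lemma Impl.relabel {κ : Type} (e : ι → κ) :
    ∀ {T : ℕ} {W : (ι → Bool) → Matrix B B ℝ}, Impl T W → Impl T fun x : κ → Bool => W (x ∘ e)
  | 0, _, ⟨V, hV, h⟩ => ⟨V, hV, fun x => by simp [h]⟩
  | _ + 1, _, ⟨V, pos, W', hV, hW, h⟩ =>
      ⟨V, fun p => (pos p).map e, fun x => W' (x ∘ e), hV, hW.relabel e, fun x => by
        have : P362.ph (fun p => (pos p).map e) x = P362.ph pos (x ∘ e) := by
          simp only [P362.ph]; congr 1; ext b; cases pos b <;> simp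
        simp only [h, this]⟩

end

end Vale.Agent.P362
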