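import Vale.Agent.P362.Pot

namespace Vale.Agent.P362

open Finset

variable {ι κ : Type}

namespace DTree

open Classical in
/-- truncation: accept when a bad position is touched or the block is queried too often -/
noncomputable def tr (bad blk : ι → Prop) : DTree ι → ℕ → DTree ι
  | .leaf b, _ => .leaf b
  | .node i t0 t1, d => if bad i then .leaf true else if blk i then
      (if d = 0 then .leaf true else .node i (tr bad blk t0 (d - 1)) (tr bad blk t1 (d - 1)))
      else .node i (tr bad blk t0 d) (tr bad blk t1 d)

open Classical in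
noncomputable def bdepth (blk : ι → Prop) : DTree ι → ℕ
  | .leaf _ => 0
  | .node i t0 t1 => max (bdepth blk t0) (bdepth blk t1) + if blk i then 1 else 0

open Classical in
noncomputable def cnt (blk : ι → Prop) : DTree ι → (ι → Bool) → ℕ
  | .leaf _, _ => 0
  | .node i t0 t1, x => (if x i = true then cnt blk t1 x else cnt blk t0 x) + if blk i then 1 else 0

def touch (bad : ι → Prop) : DTree ι → (ι → Bool) → Prop
  | .leaf _, _ => False
  | .node i t0 t1, x => bad i ∨ if x i = true then touch bad t1 x else touch bad t0 x

def sub (φ : ι → Bool ⊕ (κ × Bool)) : DTree ι → DTree κ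
  | .leaf b => .leaf b
  | .node i t0 t1 => match φ i with
    | .inl b => if b = true then sub φ t1 else sub φ t0
    | .inr q => if q.2 = true then .node q.1 (sub φ t1) (sub φ t0) else .node q.1 (sub φ t0) (sub φ t1)

def and' : DTree ι → DTree ι → DTree ι
  | .leaf b, s => if b = true then s else .leaf false
  | .node i t0 t1, s => .node i (and' t0 s) (and' t1 s)

lemma bdepth_tr (bad blk : ι → Prop) : ∀ (t : DTree ι) (d : ℕ), bdepth blk (tr bad blk t d) ≤ d
  | .leaf _, _ => by simp [tr, bdepth]
  | .node i t0 t1, d => by
      unfold tr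
      split_ifs with h1 h2 h3
      · simp [bdepth]
      · simp [bdepth]
      · have := bdepth_tr bad blk t0 (d - 1)
        have := bdepth_tr bad blk t1 (d - 1)
        simp only [bdepth, if_pos h2]; omega
      · have := bdepth_tr bad blk t0 d
        have := bdepth_tr bad blk t1 d
        simp only [bdepth, if_neg h2]; omega

lemma eval_tr_of (bad blk : ι → Prop) {x y : ι → Bool} (h : ∀ i, ¬ bad i → x i = y i) :
    ∀ (t : DTree ι) (d : ℕ), t.eval y = true → (tr bad blk t d).eval x = true
  | .leaf _, _, ht => ht
  | .node i t0 t1, d, ht => by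
      unfold tr
      simp only [eval] at ht
      split_ifs with h1 h2 h3
      · rfl
      · rfl
      all_goals
        simp only [eval, h i h1]
        split_ifs at ht ⊢
        · exact eval_tr_of bad blk h t1 _ ht
        · exact eval_tr_of bad blk h t0 _ ht

lemma of_eval_tr (bad blk : ι → Prop) (x : ι → Bool) : ∀ (t : DTree ι) (d : ℕ),
    (tr bad blk t d).eval x = true → t.eval x = true ∨ touch bad t x ∨ d < cnt blk t x
  | .leaf _, _, ht => Or.inl ht
  | .node i t0 t1, d, ht => by
      unfold tr at ht
      simp only [eval, touch, cnt]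
      split_ifs at ht with h1 h2 h3
      · exact Or.inr (Or.inl (Or.inl h1))
      · refine Or.inr (Or.inr ?_)
        rw [if_pos h2]; omega
      · simp only [eval] at ht
        rw [if_pos h2]
        split_ifs at ht ⊢
        · rcases of_eval_tr bad blk x t1 _ ht with h | h | h
          · exact Or.inl h
          · exact Or.inr (Or.inl (Or.inr h))
          · exact Or.inr (Or.inr (by omega))
        · rcases of_eval_tr bad blk x t0 _ ht with h | h | h
          · exact Or.inl h
          · exact Or.inr (Or.inl (Or.inr h))
          · exact Or.inr (Or.inr (by omega))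
      · simp only [eval] at ht
        rw [if_neg h2]
        split_ifs at ht ⊢
        · rcases of_eval_tr bad blk x t1 _ ht with h | h | h
          · exact Or.inl h
          · exact Or.inr (Or.inl (Or.inr h))
          · exact Or.inr (Or.inr (by omega))
        · rcases of_eval_tr bad blk x t0 _ ht with h | h | h
          · exact Or.inl h
          · exact Or.inr (Or.inl (Or.inr h))
          · exact Or.inr (Or.inr (by omega))

lemma eval_sub (φ : ι → Bool ⊕ (κ × Bool)) (z : κ → Bool) : ∀ t : DTree ι,
    (sub φ t).eval z = t.eval fun i => (φ i).elim id fun q => xor (z q.1) q.2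
  | .leaf _ => rfl
  | .node i t0 t1 => by
      have h0 := eval_sub φ z t0
      have h1 := eval_sub φ z t1
      simp only [eval]
      rw [← h0, ← h1]
      obtain ⟨b, hi⟩ | ⟨⟨j, c⟩, hi⟩ : (∃ b, φ i = .inl b) ∨ ∃ q, φ i = .inr q := by
        cases φ i <;> simp
      · cases b <;> simp [sub, hi]
      · cases c <;> cases h : z j <;> simp [sub, hi, eval, h]

lemma depth_sub (blk : ι → Prop) (φ : ι → Bool ⊕ (κ × Bool)) (h : ∀ i q, φ i = .inr q → blk i) :
    ∀ t : DTree ι, (sub φ t).depth ≤ bdepth blk t
  | .leaf _ => le_rfl
  | .node i t0 t1 => by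
      have := depth_sub blk φ h t0
      have := depth_sub blk φ h t1
      simp only [sub, bdepth]
      rcases hi : φ i with b | ⟨j, c⟩
      · simp only; split_ifs <;> omega
      · rw [if_pos (h i _ hi)]
        simp only; split_ifs <;> simp only [depth] <;> omega

lemma sum_cnt_le {β : Type} [Fintype β] (lab : ι → Option β) (x : ι → Bool) :
    ∀ t : DTree ι, ∑ b, cnt (fun i => lab i = some b) t x ≤ t.cost x
  | .leaf _ => by simp [cnt]
  | .node i t0 t1 => by
      classical
      have := sum_cnt_le lab x t0
      have := sum_cnt_le lab x t1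
      have h1 : ∑ b, (if lab i = some b then 1 else 0) ≤ 1 := by
        rcases lab i with _ | c <;> simp
      simp only [cnt, cost, sum_add_distrib]
      split_ifs <;> (refine Nat.add_le_add (by assumption) ?_; convert h1)

open Classical in
noncomputable def rows {β : Type} (row : ι → Option β) (y : ι → Bool) : DTree ι → ℕ → Finset β
  | .leaf _, _ => ∅
  | .node i t0 t1, d => match row i with
    | none => if y i = true then rows row y t1 d else rows row y t0 d
    | some r => if d = 0 then ∅ else
        insert r (if y i = true then rows row y t1 (d - 1) else rows row y t0 (d - 1))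

lemma card_rows {β : Type} (row : ι → Option β) (y : ι → Bool) :
    ∀ (t : DTree ι) (d : ℕ), (rows row y t d).card ≤ d
  | .leaf _, _ => by simp [rows]
  | .node i t0 t1, d => by
      classical
      simp only [rows]
      rcases row i with _ | r
      · simp only; split_ifs
        · exact card_rows row y t1 d
        · exact card_rows row y t0 d
      · simp only
        have := card_rows row y t0 (d - 1)
        have := card_rows row y t1 (d - 1)
        split_ifs
        · simp
        all_goals exact (card_insert_le _ _).trans (by omega)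

lemma touch_rows {β : Type} (row : ι → Option β) {x y : ι → Bool} {r : β}
    (h : ∀ i, row i ≠ some r → x i = y i) : ∀ (t : DTree ι) (d : ℕ),
    touch (fun i => row i = some r) t x → r ∈ rows row y t d ∨ d < cnt (fun i => row i ≠ none) t x
  | .leaf _, _, ht => ht.elim
  | .node i t0 t1, d, ht => by
      classical
      simp only [touch] at ht
      rcases hi : row i with _ | r'
      · have hx := h i (by simp [hi])
        simp only [hi, reduceCtorEq, false_or] at ht
        simp only [rows, cnt, hi, ne_eq, not_true_eq_false, if_false, add_zero, ← hx]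
        split_ifs at ht ⊢
        · exact touch_rows row h t1 d ht
        · exact touch_rows row h t0 d ht
      · simp only [rows, cnt, hi, ne_eq, reduceCtorEq, not_false_eq_true, if_true]
        by_cases hd : d = 0
        · right; omega
        · rw [if_neg hd]
          by_cases hr : r' = r
          · left; simp [hr]
          · have hx := h i (by simp [hi, hr])
            simp only [hi, Option.some.injEq, hr, false_or] at ht
            rw [← hx]
            split_ifs at ht ⊢
            · rcases touch_rows row h t1 (d - 1) ht with h' | h'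
              · left; simp [h']
              · right; simp only [ne_eq] at h'; omega
            · rcases touch_rows row h t0 (d - 1) ht with h' | h'
              · left; simp [h']
              · right; simp only [ne_eq] at h'; omega

lemma eval_and' (s : DTree ι) (x : ι → Bool) :
    ∀ t : DTree ι, (and' t s).eval x = (t.eval x && s.eval x)
  | .leaf b => by cases b <;> simp [and', eval]
  | .node i t0 t1 => by
      simp only [and', eval, eval_and' s x t0, eval_and' s x t1]
      split_ifs <;> rfl

lemma cost_and' (s : DTree ι) (x : ι → Bool) :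
    ∀ t : DTree ι, (and' t s).cost x ≤ t.cost x + s.cost x
  | .leaf b => by cases b <;> simp [and', cost]
  | .node i t0 t1 => by
      have := cost_and' s x t0
      have := cost_and' s x t1
      simp only [and', cost]
      split_ifs <;> omega

def relabel (e : ι → κ) : DTree ι → DTree κ
  | .leaf b => .leaf b
  | .node i t0 t1 => .node (e i) (relabel e t0) (relabel e t1)

lemma eval_relabel (e : ι → κ) (x : κ → Bool) : ∀ t : DTree ι, (relabel e t).eval x = t.eval (x ∘ e)
  | .leaf _ => rfl
  | .node i t0 t1 => by simp [relabel, eval, eval_relabel e x t0, eval_relabel e x t1]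

lemma cost_relabel (e : ι → κ) (x : κ → Bool) : ∀ t : DTree ι, (relabel e t).cost x = t.cost (x ∘ e)
  | .leaf _ => rfl
  | .node i t0 t1 => by simp [relabel, cost, cost_relabel e x t0, cost_relabel e x t1]

end DTree

/-- acceptance probabilities of randomized `T`-query algorithms -/
def Mix (T : ℕ) (p : (ι → Bool) → ℝ) : Prop :=
  ∃ E : (DTree ι → ℝ) → ℝ, IsP E ∧ Sure E (fun t => ∀ x, t.cost x ≤ T) ∧
    ∀ x, p x = E fun t => ind (t.eval x = true)

lemma Mix.one : Mix (ι := ι) 0 fun _ => 1 :=
  ⟨fun φ => φ (.leaf true), ⟨Unit, inferInstance, fun _ => 1, fun _ => .leaf true, by simp, by simp,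
    by simp⟩, Sure.pure fun _ => le_rfl, fun x => by simp [DTree.eval, ind]⟩

lemma Mix.mul {T T' : ℕ} {p p' : (ι → Bool) → ℝ} (h : Mix T p) (h' : Mix T' p') :
    Mix (T + T') fun x => p x * p' x := by
  obtain ⟨E, e1, e2, e3⟩ := h
  obtain ⟨F, f1, f2, f3⟩ := h'
  refine ⟨fun φ => E fun t => F fun s => φ (t.and' s), ?_, e2.bind fun t ht φ ψ hle =>
    f2 _ _ fun s hs => hle _ fun x => (DTree.cost_and' s x t).trans (Nat.add_le_add (ht x) (hs x)),
    fun x => ?_⟩
  · obtain ⟨B, _, w, out, hw, h1, h⟩ := e1
    obtain ⟨B', _, w', out', hw', h1', h'⟩ := f1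
    refine ⟨B × B', inferInstance, fun b => w b.1 * w' b.2, fun b => (out b.1).and' (out' b.2),
      fun b => mul_nonneg (hw _) (hw' _), ?_, fun φ => ?_⟩
    · rw [Fintype.sum_prod_type]; simp [← mul_sum, h1, h1']
    · simp only [h, h', Fintype.sum_prod_type, mul_sum, mul_assoc]
  · simp only [DTree.eval_and', Bool.and_eq_true, ind_and, f1.const_mul, ← f3, e3]
    rw [mul_comm, ← e1.const_mul]
    simp only [mul_comm]

lemma Mix.pow {T : ℕ} {p : (ι → Bool) → ℝ} (h : Mix T p) : ∀ t, Mix (t * T) fun x => p x ^ t
  | 0 => by simpa using Mix.one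
  | t + 1 => by simpa [pow_succ, Nat.succ_mul] using (Mix.pow h t).mul h

lemma RandComputes.mix {n T : ℕ} {f : (Fin n → Bool) → Bool} (h : RandComputes f T)
    (e : Fin n → ι) : ∃ p : (ι → Bool) → ℝ, Mix T p ∧
      ∀ x, 0 ≤ p x ∧ (f (x ∘ e) = true → 2 / 3 ≤ p x) ∧ (f (x ∘ e) = false → p x ≤ 1 / 3) := by
  classical
  obtain ⟨μ, h1, h2⟩ := h
  let m : PMF ((Fin n → Bool) → Bool) := μ.map fun t => t.eval
  have hrep : ∀ g, ∃ t : DTree (Fin n), (∀ x, t.cost x ≤ T) ∧ (m g ≠ 0 → t.eval = g) := fun g => by
    by_cases hg : m g = 0
    · exact ⟨.leaf true, fun _ => Nat.zero_le _, fun h => absurd hg h⟩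
    · obtain ⟨t, ht, rfl⟩ := (PMF.mem_support_map_iff _ _ _).mp ((PMF.mem_support_iff m g).mpr hg)
      exact ⟨t, h1 t ht, fun _ => rfl⟩
  choose t ht1 ht2 using hrep
  have hsum : ∑ g, (m g).toReal = 1 := by
    rw [← ENNReal.toReal_sum fun g _ => m.apply_ne_top g, ← tsum_fintype (L := .unconditional _),
      m.tsum_coe]; simp
  have hb : ∀ x, 2 / 3 ≤ ∑ g, (m g).toReal * ind ((t g).eval x = f x) := fun x => by
    have := h2 x
    rw [show (fun t : DTree (Fin n) => t.eval x) = (fun g => g x) ∘ fun t => t.eval from rfl,
      ← PMF.map_comp, PMF.map_apply, tsum_fintype] at this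
    have h3 := ENNReal.toReal_mono (ENNReal.sum_ne_top.mpr fun g _ => by
      split_ifs
      · exact PMF.apply_ne_top _ g
      · simp) this
    rw [ENNReal.toReal_sum fun g _ => by
      split_ifs
      · exact PMF.apply_ne_top _ g
      · simp] at h3
    refine le_trans (by simp) (h3.trans (sum_le_sum fun g _ => ?_))
    by_cases hg : m g = 0
    · have hg' : (μ.map fun t => t.eval) g = 0 := hg
      simp [hg, hg']
    · rw [ht2 g hg]
      split_ifs with h
      · rw [ind_pos h.symm, mul_one]
      · exact mul_nonneg ENNReal.toReal_nonneg (ind_nonneg _)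
  refine ⟨fun x => ∑ g, (m g).toReal * ind ((t g).eval (x ∘ e) = true),
    ⟨fun φ => ∑ g, (m g).toReal * φ ((t g).relabel e), ⟨_, inferInstance, _, _,
      fun _ => ENNReal.toReal_nonneg, hsum, fun _ => rfl⟩, fun φ ψ hle => sum_le_sum fun g _ =>
        mul_le_mul_of_nonneg_left (hle _ fun x => by rw [DTree.cost_relabel]; exact ht1 g _)
          ENNReal.toReal_nonneg, fun x => by simp only [DTree.eval_relabel]⟩, fun x =>
    ⟨sum_nonneg fun g _ => mul_nonneg ENNReal.toReal_nonneg (ind_nonneg _),
      fun hx => hx ▸ hb (x ∘ e), fun hx => ?_⟩⟩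
  have := hb (x ∘ e)
  rw [hx] at this
  have e2 : ∀ g, ind ((t g).eval (x ∘ e) = true) = 1 - ind ((t g).eval (x ∘ e) = false) :=
    fun g => by cases (t g).eval (x ∘ e) <;> simp [ind]
  simp only [e2, mul_sub, mul_one, sum_sub_distrib, hsum]
  linarith

end Vale.Agent.P362
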