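import Vale.Agent.P362.Func
import Vale.Agent.P362.Tree

set_option linter.unusedSectionVars false

namespace Vale.Agent.P362

open Finset Matrix

section av
variable {C D : Type} [Fintype C] [Fintype D]

noncomputable def av (φ : C → ℝ) : ℝ := (∑ c, φ c) / Fintype.card C

lemma av_isP [Nonempty C] : IsP (av (C := C)) := (Has.unif (ι := Unit) C).isP fun _ => true

lemma av_comm (f : C → D → ℝ) : av (fun c => av fun d => f c d) = av fun d => av fun c => f c d := by
  simp only [av, ← sum_div]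
  rw [sum_comm, div_right_comm]

lemma av_prod (f : C × D → ℝ) : av f = av fun c => av fun d => f (c, d) := by
  simp only [av, ← sum_div, Fintype.sum_prod_type, Fintype.card_prod, Nat.cast_mul]
  rw [div_div, mul_comm]

lemma av_equiv (e : C ≃ D) (f : D → ℝ) : av (fun c => f (e c)) = av f := by
  simp only [av, e.sum_comp, Fintype.card_congr e]

lemma av_update [DecidableEq C] [Nonempty D] (c : C) (f : (C → D) → ℝ) :
    av (fun l => av fun d => f (Function.update l c d)) = av f := by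
  have h : Function.Involutive fun q : (C → D) × D => (Function.update q.1 c q.2, q.1 c) := by
    rintro ⟨l, d⟩; simp
  rw [← av_prod fun q : (C → D) × D => f (Function.update q.1 c q.2)]
  have := av_equiv (h.toPerm _) fun q => f q.1
  simp only [Function.Involutive.coe_toPerm] at this
  rw [this, av_prod]
  simp only [av_isP.const]

lemma av_markov [Nonempty C] (n : C → ℕ) {T d : ℕ} (hd : 0 < d) (h : ∑ c, n c ≤ T) :
    av (fun c => ind (d < n c)) ≤ T / (d * Fintype.card C) := by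
  have hd' : (0 : ℝ) < d := by exact_mod_cast hd
  rw [av, ← div_div]
  refine div_le_div_of_nonneg_right ?_ (by positivity)
  rw [le_div_iff₀ hd', sum_mul]
  refine le_trans (sum_le_sum fun c _ => ?_) (show ∑ c, (n c : ℝ) ≤ T by exact_mod_cast h)
  by_cases hc : d < n c
  · rw [ind_pos hc, one_mul]; exact_mod_cast hc.le
  · rw [ind_neg hc, zero_mul]; positivity

end av

abbrev ZZ (ν K : ℕ) := Fin (K + 1) × GG ν → Bool

variable {ν K : ℕ}

def X0 (ρ : GG ν → GG ν) (l : GG ν → ZZ ν K × ZZ ν K) : Ix ν K → Bool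
  | .inl q => if q.2.1 = true then (l q.1).1 q.2.2 else (l q.1).2 q.2.2
  | .inr (a, .inl false) => decide (a.1 = ρ a.2)
  | .inr _ => false

lemma exists_tab (z : ZZ ν K) (j : Fin (K + 1)) (l : Fin (ν + 1)) (c : GG ν) :
    ∃ b, dec (ν * (K + 1)) b = lev (stage (Hn ν) (sgn z) j) l c := by
  refine exists_dec ((intB_lev (intB_stage (fun j c => z (Fin.ofNat (K + 1) j, c)) j) l c).mono ?_)
  rw [← pow_add]
  refine Nat.pow_le_pow_right (by norm_num) ?_
  have h1 := Nat.mul_le_mul_left ν (Nat.lt_succ_iff.mp j.2)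
  have h2 := l.2
  rw [mul_add]; omega

noncomputable def special (ρ : GG ν → GG ν) (v : GG ν) (e : ZZ ν K × ZZ ν K) : Slot ν K → Bool
  | .inl b => b
  | .inr (.inl q) => ρ q.1 q.2
  | .inr (.inr (.inl l)) => v l
  | .inr (.inr (.inr q)) =>
      (exists_tab (if q.1.1 = true then e.1 else e.2) q.1.2.1 q.1.2.2.1 q.1.2.2.2).choose q.2

noncomputable def X1 (ρ : GG ν → GG ν) (l : GG ν → ZZ ν K × ZZ ν K) (b v : GG ν)
    (e : ZZ ν K × ZZ ν K) : Ix ν K → Bool
  | .inl q => X0 ρ (Function.update l v e) (.inl q)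
  | .inr q => if q.1 = (ρ b, b) then special ρ v e q.2 else X0 ρ l (.inr q)

noncomputable def tw (u : GG ν) (z : ZZ ν K) : ZZ ν K := fun p => xor (z p) (twist u p)

lemma FF_X0 (δ : ℝ) (ρ : GG ν → GG ν) (l : GG ν → ZZ ν K × ZZ ν K) : FF δ (X0 ρ l) = false := by
  simp only [FF, decide_eq_false_iff_not]
  rintro ⟨a, ha⟩
  have := (ha (.inl (ρ a.2))).1
  simp [mark, X0] at this

lemma FF_X1 (hK : 0 < K) {δ : ℝ} (ρ : GG ν → GG ν) (l : GG ν → ZZ ν K × ZZ ν K) (b v : GG ν)
    {z1 z2 : ZZ ν K} (h1 : δ ≤ Fo (Had ν) z1) (h2 : δ ≤ Fo (Had ν) z2) :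
    FF δ (X1 ρ l b v (tw (ρ b) z1, tw b z2)) = true := by
  simp only [FF, decide_eq_true_eq]
  set e := (tw (ρ b) z1, tw b z2) with he
  have hidx : idx (X1 ρ l b v e) (ρ b, b) = v := by ext i; simp [idx, X1, special]
  have hent : ∀ s, ent (X1 ρ l b v e) v s = if s = true then e.1 else e.2 := fun s => by
    ext p; cases s <;> simp [ent, X1, X0]
  have htab : ∀ s, ∀ j ≤ K, ∀ i ≤ ν, tab (X1 ρ l b v e) (ρ b, b) s j i
      = lev (stage (Hn ν) (sgn (if s = true then e.1 else e.2)) j) i := fun s j hj i hi => by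
    ext c
    simp only [tab, X1, if_true, special]
    have := (exists_tab (if s = true then e.1 else e.2) (Fin.ofNat (K + 1) j)
      (Fin.ofNat (ν + 1) i) c).choose_spec
    rw [this]
    simp only [Fin.ofNat, Nat.mod_eq_of_lt (Nat.lt_succ_of_le hj),
      Nat.mod_eq_of_lt (Nat.lt_succ_of_le hi)]
  refine ⟨(ρ b, b), fun κ => ?_⟩
  rcases κ with r | c | q | s
  · simp only [ok, mark, flag, X1, Prod.mk.injEq, and_true]
    by_cases hr : r = ρ b <;> simp [hr, special, X0]
  · simp only [ok, elim]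
    by_cases hc : c = b
    · exact Or.inl hc
    · right
      have : ptr (X1 ρ l b v e) (ρ b, b) c = ρ c := by ext i; simp [ptr, X1, special]
      simp [this, mark, X1, hc, X0]
  · simp only [ok, hidx, hent]
    exact chk_congr (htab q.1) (Nat.lt_succ_iff.mp q.2.1.2) (Nat.lt_succ_iff.mp q.2.2.1.2)
      (chk_complete _ _ _ _)
  · simp only [ok]
    rw [htab s K le_rfl ν le_rfl, lev_full, ← amp_eq]
    cases s
    · simp only [Bool.false_eq_true, if_false, he]
      exact h2.trans (amp_twist hK b z2).ge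
    · simp only [if_true, he]
      exact h1.trans (amp_twist hK (ρ b) z1).ge

lemma av_tw (u : GG ν) (f : ZZ ν K → ℝ) : av (fun z => f (tw u z)) = av f := by
  have h : Function.Involutive (tw (K := K) u) := fun z => by ext p; simp [tw]
  exact av_equiv (h.toPerm _) f

noncomputable def D1 (w : ZZ ν K → ℝ) (p : (Ix ν K → Bool) → ℝ) : ℝ :=
  av fun ρ : GG ν → GG ν => av fun l => av fun b => av fun v =>
    ∑ z1, ∑ z2, w z1 * w z2 * p (X1 ρ l b v (tw (ρ b) z1, tw b z2))

noncomputable def D0 (p : (Ix ν K → Bool) → ℝ) : ℝ :=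
  av fun ρ : GG ν → GG ν => av fun l => p (X0 ρ l)

lemma two_hybrid {w : ZZ ν K → ℝ} (hw : ∀ z, 0 ≤ w z) (hw1 : ∑ z, w z ≤ 1) {d : ℕ} {η : ℝ}
    (hη : 0 ≤ η) (hind : ∀ t : DTree (Fin (K + 1) × GG ν), t.depth ≤ d →
      ∑ z, ind (t.eval z = true) * w z ≤ av (fun z => ind (t.eval z = true)) + η)
    (g : ZZ ν K → ZZ ν K → ℝ)
    (h1 : ∀ z1, ∃ t : DTree (Fin (K + 1) × GG ν), t.depth ≤ d ∧ ∀ z2, g z1 z2 = ind (t.eval z2 = true))
    (h2 : ∀ z2, ∃ t : DTree (Fin (K + 1) × GG ν), t.depth ≤ d ∧ ∀ z1, g z1 z2 = ind (t.eval z1 = true)) :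
    ∑ z1, ∑ z2, w z1 * w z2 * g z1 z2 ≤ av (fun z1 => av fun z2 => g z1 z2) + 2 * η := by
  have a1 : ∀ z1, ∑ z2, w z1 * w z2 * g z1 z2 ≤ w z1 * av (fun z2 => g z1 z2) + w z1 * η := by
    intro z1
    obtain ⟨t, ht, hg⟩ := h1 z1
    simp only [hg, mul_assoc, ← mul_sum, ← mul_add, mul_comm (w _) (ind _)]
    exact mul_le_mul_of_nonneg_left (hind t ht) (hw z1)
  have a2 : ∑ z1, w z1 * av (fun z2 => g z1 z2) ≤ av (fun z1 => av fun z2 => g z1 z2) + η := by
    rw [av_comm, ← av_isP.const (Y := ZZ ν K) η, ← av_isP.add]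
    simp only [← av_isP.const_mul]
    rw [← av_isP.sum]
    refine av_isP.mono fun z2 => ?_
    obtain ⟨t, ht, hg⟩ := h2 z2
    simp only [hg, mul_comm (w _) (ind _)]
    exact hind t ht
  refine (sum_le_sum fun z1 _ => a1 z1).trans ?_
  rw [sum_add_distrib, ← sum_mul]
  nlinarith

def inEnt (v : GG ν) (i : Ix ν K) : Prop := (i.elim (fun q => some q.1) fun _ => none) = some v

def rowOf (b : GG ν) : Ix ν K → Option (GG ν)
  | .inl _ => none
  | .inr q => if q.1.2 = b then some q.1.1 else none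

lemma tree_bound {w : ZZ ν K → ℝ} (hw : ∀ z, 0 ≤ w z) (hw1 : ∑ z, w z ≤ 1) {d d' : ℕ} {η : ℝ}
    (hd : 0 < d) (hd' : 0 < d')
    (hη : 0 ≤ η) (hind : ∀ t : DTree (Fin (K + 1) × GG ν), t.depth ≤ d →
      ∑ z, ind (t.eval z = true) * w z ≤ av (fun z => ind (t.eval z = true)) + η)
    {T : ℕ} (t : DTree (Ix ν K)) (ht : ∀ x, t.cost x ≤ T) :
    D1 w (fun x => ind (t.eval x = true)) ≤ D0 (fun x => ind (t.eval x = true))
      + (2 * η + T / (d * 2 ^ ν) + d' / 2 ^ ν + T / (d' * 2 ^ ν)) := by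
  let t' : (GG ν → GG ν) → GG ν → GG ν → DTree (Ix ν K) := fun ρ b v =>
    t.tr (fun i => rowOf b i = some (ρ b)) (inEnt v) d
  have hN : (Fintype.card (GG ν) : ℝ) = 2 ^ ν := by simp
  have s1 : ∀ (ρ : GG ν → GG ν) (l : GG ν → ZZ ν K × ZZ ν K) (b v : GG ν),
      ∑ z1, ∑ z2, w z1 * w z2 * ind (t.eval (X1 ρ l b v (tw (ρ b) z1, tw b z2)) = true)
      ≤ av (fun e => ind ((t' ρ b v).eval (X0 ρ (Function.update l v e)) = true)) + 2 * η := by
    intro ρ l b v
    refine le_trans (sum_le_sum fun z1 _ => sum_le_sum fun z2 _ => mul_le_mul_of_nonneg_left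
      (ind_mono (DTree.eval_tr_of (fun i => rowOf b i = some (ρ b)) (inEnt v)
        (x := X0 ρ (Function.update l v (tw (ρ b) z1, tw b z2))) (fun i hi => ?_) t d))
      (mul_nonneg (hw _) (hw _))) ((two_hybrid hw hw1 hη hind _ (fun z1 => ?_) fun z2 => ?_).trans
        (le_of_eq ?_))
    · rcases i with q | ⟨⟨r, c⟩, s⟩
      · rfl
      · have : (r, c) ≠ (ρ b, b) := by
          rintro h
          simp only [Prod.mk.injEq] at h
          exact hi (by simp [rowOf, h.1, h.2])
        simp only [X1, if_neg this]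
        rcases s with (_ | _) | s <;> rfl
    · let φ : Ix ν K → Bool ⊕ ((Fin (K + 1) × GG ν) × Bool) := fun i => match i with
        | .inl q => if q.1 = v ∧ q.2.1 = false then .inr (q.2.2, twist b q.2.2)
            else .inl (X0 ρ (Function.update l v (tw (ρ b) z1, z1)) i)
        | .inr _ => .inl (X0 ρ l i)
      refine ⟨(t' ρ b v).sub φ, (DTree.depth_sub (inEnt v) φ ?_ _).trans (DTree.bdepth_tr _ _ _ _),
        fun z2 => ?_⟩
      · rintro (q | q) q' h
        · simp only [φ] at h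
          split_ifs at h with h'
          simp [inEnt, h'.1]
        · simp [φ] at h
      · rw [DTree.eval_sub]
        congr 3
        ext i
        rcases i with ⟨v', s, p⟩ | ⟨a, (_ | _) | s⟩
        · by_cases hv : v' = v
          · subst hv; cases s <;> simp [φ, X0, tw]
          · simp [φ, X0, hv]
        all_goals rfl
    · let φ : Ix ν K → Bool ⊕ ((Fin (K + 1) × GG ν) × Bool) := fun i => match i with
        | .inl q => if q.1 = v ∧ q.2.1 = true then .inr (q.2.2, twist (ρ b) q.2.2)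
            else .inl (X0 ρ (Function.update l v (z2, tw b z2)) i)
        | .inr _ => .inl (X0 ρ l i)
      refine ⟨(t' ρ b v).sub φ, (DTree.depth_sub (inEnt v) φ ?_ _).trans (DTree.bdepth_tr _ _ _ _),
        fun z1 => ?_⟩
      · rintro (q | q) q' h
        · simp only [φ] at h
          split_ifs at h with h'
          simp [inEnt, h'.1]
        · simp [φ] at h
      · rw [DTree.eval_sub]
        congr 3
        ext i
        rcases i with ⟨v', s, p⟩ | ⟨a, (_ | _) | s⟩
        · by_cases hv : v' = v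
          · subst hv; cases s <;> simp [φ, X0, tw]
          · simp [φ, X0, hv]
        all_goals rfl
    · congr 1
      rw [av_prod, ← av_tw (ρ b) fun z1 => av fun z2 =>
        ind ((t' ρ b v).eval (X0 ρ (Function.update l v (z1, z2))) = true)]
      congr 1; ext z1
      exact av_tw b fun z2 =>
        ind ((t' ρ b v).eval (X0 ρ (Function.update l v (tw (ρ b) z1, z2))) = true)
  have s2 : D1 w (fun x => ind (t.eval x = true)) ≤ (av fun ρ : GG ν → GG ν => av fun l =>
      av fun b => av fun v => ind ((t' ρ b v).eval (X0 ρ l) = true)) + 2 * η := by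
    refine le_trans (av_isP.mono fun ρ => av_isP.mono fun l => av_isP.mono fun b =>
      av_isP.mono fun v => s1 ρ l b v) (le_of_eq ?_)
    simp only [av_isP.add, av_isP.const]
    congr 2; ext ρ
    rw [av_comm, av_comm (C := GG ν → ZZ ν K × ZZ ν K)]
    congr 1; ext b
    rw [av_comm, av_comm (C := GG ν → ZZ ν K × ZZ ν K)]
    congr 1; ext v
    exact av_update v fun l => ind ((t' ρ b v).eval (X0 ρ l) = true)
  have s3 : ∀ (ρ : GG ν → GG ν) (l : GG ν → ZZ ν K × ZZ ν K) (b v : GG ν),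
      ind ((t' ρ b v).eval (X0 ρ l) = true) ≤ ind (t.eval (X0 ρ l) = true)
        + ind (t.touch (fun i => rowOf b i = some (ρ b)) (X0 ρ l))
        + ind (d < t.cnt (inEnt v) (X0 ρ l)) := by
    intro ρ l b v
    have a1 := ind_nonneg (t.eval (X0 ρ l) = true)
    have a2 := ind_nonneg (t.touch (fun i => rowOf b i = some (ρ b)) (X0 ρ l))
    have a3 := ind_nonneg (d < t.cnt (inEnt v) (X0 ρ l))
    by_cases h : (t' ρ b v).eval (X0 ρ l) = true
    · rw [ind_pos h]
      rcases DTree.of_eval_tr _ _ _ t d h with h | h | h <;> rw [ind_pos h] <;> linarith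
    · rw [ind_neg h]; linarith
  have s4 : ∀ x : Ix ν K → Bool, av (fun v => ind (d < t.cnt (inEnt v) x)) ≤ T / (d * 2 ^ ν) :=
    fun x => by
      rw [← hN]
      exact av_markov _ hd ((DTree.sum_cnt_le _ x t).trans (ht x))
  have s5 : ∀ x : Ix ν K → Bool,
      av (fun b => ind (d' < t.cnt (fun i => rowOf b i ≠ none) x)) ≤ T / (d' * 2 ^ ν) := fun x => by
    rw [← hN]
    refine av_markov _ hd' (le_trans (le_of_eq ?_) ((DTree.sum_cnt_le
      (fun i : Ix ν K => i.elim (fun _ => none) fun q => some q.1.2) x t).trans (ht x)))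
    refine sum_congr rfl fun b _ => ?_
    congr 1; ext i
    rcases i with q | q <;> simp [rowOf]
  have s6 : ∀ (l : GG ν → ZZ ν K × ZZ ν K) (b : GG ν),
      av (fun ρ : GG ν → GG ν => ind (t.touch (fun i => rowOf b i = some (ρ b)) (X0 ρ l)))
      ≤ d' / 2 ^ ν + av fun ρ : GG ν → GG ν =>
        ind (d' < t.cnt (fun i => rowOf b i ≠ none) (X0 ρ l)) := by
    intro l b
    let Y : (GG ν → GG ν) → Ix ν K → Bool := fun ρ i => if rowOf b i = none then X0 ρ l i else false
    have hY : ∀ ρ r, Y (Function.update ρ b r) = Y ρ := fun ρ r => by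
      ext i
      rcases i with q | ⟨⟨r', c⟩, (_ | _) | s⟩
      · rfl
      · by_cases hc : c = b <;> simp [Y, rowOf, X0, hc]
      · rfl
      · rfl
    have h1 : ∀ ρ : GG ν → GG ν, ind (t.touch (fun i => rowOf b i = some (ρ b)) (X0 ρ l))
        ≤ ind (ρ b ∈ t.rows (rowOf b) (Y ρ) d')
          + ind (d' < t.cnt (fun i => rowOf b i ≠ none) (X0 ρ l)) := fun ρ => by
      have a1 := ind_nonneg (ρ b ∈ t.rows (rowOf b) (Y ρ) d')
      have a2 := ind_nonneg (d' < t.cnt (fun i => rowOf b i ≠ none) (X0 ρ l))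
      have hxy : ∀ i, rowOf b i ≠ some (ρ b) → X0 ρ l i = Y ρ i := by
        intro i hi
        rcases i with q | ⟨⟨r', c⟩, (_ | _) | s⟩
        · simp [Y, rowOf]
        · by_cases hc : c = b
          · subst hc
            have : r' ≠ ρ c := by simpa [rowOf] using hi
            simp [Y, rowOf, X0, this]
          · simp [Y, rowOf, hc]
        · simp [Y, X0]
        · simp [Y, X0]
      by_cases h : t.touch (fun i => rowOf b i = some (ρ b)) (X0 ρ l)
      · rw [ind_pos h]
        rcases DTree.touch_rows (rowOf b) hxy t d' h with h | h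
        · rw [ind_pos h]; linarith
        · rw [ind_pos h]; linarith
      · rw [ind_neg h]; linarith
    refine (av_isP.mono h1).trans ?_
    rw [av_isP.add, ← av_update b, ← av_isP.const (Y := GG ν → GG ν) (d' / 2 ^ ν)]
    refine add_le_add_left (av_isP.mono fun ρ => ?_) _
    simp only [hY, Function.update_self]
    rw [av, hN]
    refine div_le_div_of_nonneg_right ?_ (by positivity)
    have := DTree.card_rows (rowOf b) (Y ρ) t d'
    refine le_trans (le_of_eq ?_) (show ((t.rows (rowOf b) (Y ρ) d').card : ℝ) ≤ d' by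
      exact_mod_cast this)
    classical
    rw [card_eq_sum_ones, ← Finset.sum_subset (subset_univ (t.rows (rowOf b) (Y ρ) d'))
      fun c _ hc => ind_neg hc]
    push_cast
    exact sum_congr rfl fun c hc => ind_pos hc
  have s7 : (av fun ρ : GG ν → GG ν => av fun l : GG ν → ZZ ν K × ZZ ν K => av fun b =>
      ind (t.touch (fun i => rowOf b i = some (ρ b)) (X0 ρ l))) ≤ d' / 2 ^ ν + T / (d' * 2 ^ ν) := by
    rw [av_comm, ← av_isP.const (Y := GG ν → ZZ ν K × ZZ ν K) (_ + _)]
    refine av_isP.mono fun l => ?_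
    rw [av_comm]
    refine (av_isP.mono fun b => s6 l b).trans ?_
    rw [av_isP.add, av_isP.const, av_comm, ← av_isP.const (Y := GG ν → GG ν) (T / (d' * 2 ^ ν))]
    exact add_le_add_right (av_isP.mono fun ρ => s5 _) _
  have s8 : (av fun ρ : GG ν → GG ν => av fun l : GG ν → ZZ ν K × ZZ ν K => av fun v =>
      ind (d < t.cnt (inEnt v) (X0 ρ l))) ≤ T / (d * 2 ^ ν) :=
    (av_isP.mono fun ρ => (av_isP.mono fun l => s4 _).trans (av_isP.const _).le).trans
      (av_isP.const _).le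
  have s9 := av_isP.mono fun ρ => av_isP.mono fun l => av_isP.mono fun b =>
    av_isP.mono fun v => s3 ρ l b v
  simp only [av_isP.add, av_isP.const] at s9
  unfold D0
  linarith

lemma IsP.av_comm {Y C : Type} [Fintype C] {E : (Y → ℝ) → ℝ} (h : IsP E) (f : C → Y → ℝ) :
    av (fun c => E (f c)) = E fun y => av fun c => f c y := by
  simp only [av, div_eq_inv_mul, h.const_mul, h.sum]

theorem lower (hK : 0 < K) {w : ZZ ν K → ℝ} (hw : ∀ z, 0 ≤ w z) (hw1 : ∑ z, w z ≤ 1) {d d' : ℕ}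
    {η δ : ℝ} (hd : 0 < d) (hd' : 0 < d') (hδ : 0 ≤ δ)
    (hη : 0 ≤ η) (hind : ∀ t : DTree (Fin (K + 1) × GG ν), t.depth ≤ d →
      ∑ z, ind (t.eval z = true) * w z ≤ av (fun z => ind (t.eval z = true)) + η)
    (hsig : δ ≤ ∑ z, ind (δ ≤ Fo (Had ν) z) * w z)
    {T : ℕ} {p : (Ix ν K → Bool) → ℝ} (hp : Mix T p)
    (hF : ∀ x, 0 ≤ p x ∧ (FF δ x = true → 2 / 3 ≤ p x) ∧ (FF δ x = false → p x ≤ 1 / 3)) (t : ℕ) :
    δ ^ 2 * (2 / 3) ^ t ≤ (1 / 3) ^ t
      + (2 * η + (t * T : ℕ) / (d * 2 ^ ν) + d' / 2 ^ ν + (t * T : ℕ) / (d' * 2 ^ ν)) := by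
  obtain ⟨E, e1, e2, e3⟩ := hp.pow t
  have h1 : D1 w (fun x => p x ^ t) = E fun τ => D1 w fun x => ind (τ.eval x = true) := by
    simp only [D1, e3, ← e1.const_mul, ← e1.sum, e1.av_comm]
  have h0 : D0 (fun x => p x ^ t) = E fun τ => D0 fun x => ind (τ.eval x = true) := by
    simp only [D0, e3, e1.av_comm]
  have h2 := e2 _ _ fun τ hτ => tree_bound hw hw1 hd hd' hη hind τ hτ
  rw [e1.add, e1.const, ← h1, ← h0] at h2
  have h3 : D0 (fun x => p x ^ t) ≤ (1 / 3) ^ t :=
    (av_isP.mono fun ρ => (av_isP.mono fun l => pow_le_pow_left₀ (hF _).1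
      ((hF _).2.2 (FF_X0 δ ρ l)) t).trans (av_isP.const _).le).trans (av_isP.const _).le
  have h4 : δ ^ 2 * (2 / 3) ^ t ≤ D1 w (fun x => p x ^ t) := by
    refine le_trans (av_isP.const _).ge (av_isP.mono fun ρ => le_trans (av_isP.const _).ge
      (av_isP.mono fun l => le_trans (av_isP.const _).ge (av_isP.mono fun b =>
        le_trans (av_isP.const _).ge (av_isP.mono fun v => ?_))))
    refine le_trans (mul_le_mul_of_nonneg_right (pow_le_pow_left₀ hδ hsig 2) (by positivity)) ?_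
    rw [sq, sum_mul_sum, sum_mul]
    refine sum_le_sum fun z1 _ => ?_
    rw [sum_mul]
    refine sum_le_sum fun z2 _ => ?_
    have hww := mul_nonneg (hw z1) (hw z2)
    have hp0 := pow_nonneg (hF (X1 ρ l b v (tw (ρ b) z1, tw b z2))).1 t
    by_cases a1 : δ ≤ Fo (Had ν) z1
    · by_cases a2 : δ ≤ Fo (Had ν) z2
      · rw [ind_pos a1, ind_pos a2, one_mul, one_mul]
        exact mul_le_mul_of_nonneg_left (pow_le_pow_left₀ (by norm_num)
          ((hF _).2.1 (FF_X1 hK ρ l b v a1 a2)) t) hww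
      · rw [ind_neg a2]; simpa using mul_nonneg hww hp0
    · rw [ind_neg a1]; simpa using mul_nonneg hww hp0
  linarith

end Vale.Agent.P362
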