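import Vale.Agent.P362.Adv

namespace Vale.Agent.P362

open Finset Matrix

variable {n : ℕ}

open Classical in
noncomputable def top (f : (Fin n → Bool) → Bool) (S : Finset (Fin n)) (y : Fin n → Bool) : ℝ :=
  ∑ x, ind (∀ i ∉ S, x i = y i) * ((∏ i ∈ S, sg (x i)) * sg (f x))

lemma top_insert (f : (Fin n → Bool) → Bool) {S : Finset (Fin n)} {i : Fin n} (hi : i ∉ S)
    (y : Fin n → Bool) : top f (insert i S) y
      = top f S (Function.update y i false) - top f S (Function.update y i true) := by
  simp only [top, ← sum_sub_distrib]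
  refine sum_congr rfl fun x _ => ?_
  have e : ∀ b, ind (∀ j ∉ S, x j = Function.update y i b j)
      = ind (∀ j ∉ insert i S, x j = y j) * ind (x i = b) := fun b => by
    rw [← ind_and]
    refine ind_congr ⟨fun h => ⟨fun j hj => ?_, by simpa using h i hi⟩, fun h j hj => ?_⟩
    · simp only [mem_insert, not_or] at hj
      simpa [hj.1] using h j hj.2
    · by_cases hji : j = i
      · simp [hji, h.2]
      · simpa [hji] using h.1 j (by simp [hji, hj])
  rw [e, e, prod_insert hi]
  cases x i <;> simp [ind]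

lemma top_update (f : (Fin n → Bool) → Bool) {S : Finset (Fin n)} {i : Fin n} (hi : i ∈ S)
    (y : Fin n → Bool) (b : Bool) : top f S (Function.update y i b) = top f S y := by
  refine sum_congr rfl fun x _ => ?_
  congr 1
  refine ind_congr (forall₂_congr fun j hj => ?_)
  rw [Function.update_of_ne]
  rintro rfl; exact hj hi

def embS (S : Finset (Fin n)) (y : Fin n → Bool) (u : S → Bool) : Fin n → Bool :=
  fun i => if h : i ∈ S then u ⟨i, h⟩ else y i

lemma top_eq (f : (Fin n → Bool) → Bool) (S : Finset (Fin n)) (y : Fin n → Bool) :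
    top f S y = ∑ u : S → Bool, (∏ i, sg (u i)) * sg (f (embS S y u)) := by
  symm
  refine Finset.sum_of_injOn (embS S y) (fun a _ b _ h => ?_) (by simp) (fun x _ hx => ?_)
    (fun u _ => ?_)
  · ext i; simpa [embS] using congrFun h i
  · rw [ind_neg, zero_mul]
    intro h
    refine hx ⟨fun i => x i, by simp, ?_⟩
    ext i
    by_cases hi : i ∈ S
    · simp [embS, hi]
    · simp [embS, hi, h i hi]
  · rw [ind_pos fun i hi => by simp [embS, hi], one_mul, ← prod_coe_sort S]
    simp [embS]

lemma flp_ne {κ : Type} [LinearOrder κ] (u : κ → Bool) {i j : κ} (h : j ≠ i) : flp u i j = u j :=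
  Function.update_of_ne h _ _

lemma embS_flp (S : Finset (Fin n)) (y : Fin n → Bool) (u : S → Bool) (i : S) (j : Fin n)
    (h : embS S y u j ≠ embS S y (flp u i) j) : j = i := by
  by_contra hj
  apply h
  by_cases hS : j ∈ S
  · have : (⟨j, hS⟩ : S) ≠ i := fun h => hj (congrArg Subtype.val h)
    simp only [embS, dif_pos hS, flp_ne u this]
  · simp [embS, hS]

lemma card_le_of_top {f : (Fin n → Bool) → Bool} {T : ℕ} (h : QuantComputes f T)
    {S : Finset (Fin n)} {y : Fin n → Bool} (ht : top f S y ≠ 0) : S.card ≤ (36 * T) ^ 2 := by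
  obtain ⟨M, M0, M1, hM⟩ := h.adv
  rw [top_eq] at ht
  obtain ⟨δ, h0, h1, h2⟩ : ∃ δ : (S → Bool) → ℝ, (∀ u, 0 ≤ δ u) ∧ 0 < ∑ u, δ u ^ 2 ∧
      √(Fintype.card S) * ∑ u, δ u ^ 2 ≤ ∑ u, ∑ i,
        if f (embS S y u) ≠ f (embS S y (flp u i)) then δ u * δ (flp u i) else 0 := by
    exact huang (fun u => f (embS S y u)) ht
  have key : ∀ u i, (if f (embS S y u) ≠ f (embS S y (flp u i)) then δ u * δ (flp u i) else 0) ≤
      18 * ∑ t ∈ range T, (δ u ^ 2 * M (embS S y u) t i
        + δ (flp u i) ^ 2 * M (embS S y (flp u i)) t i) := by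
    intro u i
    have hn : 0 ≤ 18 * ∑ t ∈ range T, (δ u ^ 2 * M (embS S y u) t i
        + δ (flp u i) ^ 2 * M (embS S y (flp u i)) t i) :=
      mul_nonneg (by norm_num) (sum_nonneg fun t _ => add_nonneg (mul_nonneg (sq_nonneg _) (M0 _ _ _))
        (mul_nonneg (sq_nonneg _) (M0 _ _ _)))
    split_ifs with hf
    · rcases (h0 u).eq_or_lt with a | a
      · exact le_trans (by rw [← a, zero_mul]) hn
      rcases (h0 (flp u i)).eq_or_lt with b | b
      · exact le_trans (by rw [← b, mul_zero]) hn
      have h3 := hM _ _ hf (δ u / δ (flp u i)) (div_pos a b)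
      have h4 : ∑ t ∈ range T, ∑ j ∈ univ.filter (fun j => embS S y u j ≠ embS S y (flp u i) j),
          (δ u / δ (flp u i) * M (embS S y u) t j + M (embS S y (flp u i)) t j / (δ u / δ (flp u i)))
          ≤ ∑ t ∈ range T, (δ u / δ (flp u i) * M (embS S y u) t i
            + M (embS S y (flp u i)) t i / (δ u / δ (flp u i))) := by
        refine sum_le_sum fun t _ => ?_
        refine (sum_le_sum_of_subset_of_nonneg (t := {(i : Fin n)}) (fun j hj => ?_)
          fun j _ _ => ?_).trans (by simp)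
        · simpa using embS_flp S y u i j (by simpa using hj)
        · have := M0 (embS S y u) t j
          have := M0 (embS S y (flp u i)) t j
          positivity
      have h5 := mul_le_mul_of_nonneg_left (h3.trans h4) (show 0 ≤ 18 * (δ u * δ (flp u i)) by
        positivity)
      rw [mul_assoc 18 _ (∑ t ∈ range T, _), mul_sum] at h5
      refine le_trans (le_of_eq (by ring)) (h5.trans (le_of_eq ?_))
      congr 1
      exact sum_congr rfl fun t _ => by field_simp
    · exact hn
  have hM1 : ∀ x t, ∑ i : S, M x t i ≤ 1 := fun x t => by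
    rw [sum_coe_sort S (M x t), ← M1 x t]
    exact sum_le_sum_of_subset_of_nonneg (subset_univ _) fun i _ _ => M0 x t i
  have a1 : ∀ t, ∑ u : S → Bool, ∑ i : S, δ u ^ 2 * M (embS S y u) t i ≤ ∑ u, δ u ^ 2 := fun t =>
    sum_le_sum fun u _ => by
      rw [← mul_sum]; exact mul_le_of_le_one_right (sq_nonneg _) (hM1 _ t)
  have a2 : ∀ t, ∑ u : S → Bool, ∑ i : S, δ (flp u i) ^ 2 * M (embS S y (flp u i)) t i
      = ∑ u : S → Bool, ∑ i : S, δ u ^ 2 * M (embS S y u) t i := fun t => by
    rw [sum_comm, sum_comm (f := fun u (i : S) => δ u ^ 2 * M (embS S y u) t i)]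
    refine sum_congr rfl fun i _ => ?_
    have hi : Function.Involutive fun u : S → Bool => flp u i := fun u => flp_flp u i
    exact Equiv.sum_comp (hi.toPerm _) fun u => δ u ^ 2 * M (embS S y u) t i
  have h6 := h2.trans (sum_le_sum fun u _ => sum_le_sum fun i _ => key u i)
  simp only [← mul_sum] at h6
  rw [sum_congr rfl fun u _ => sum_comm, sum_comm] at h6
  simp only [sum_add_distrib] at h6
  rw [sum_congr rfl fun t _ => a2 t] at h6
  have h7 : ∑ t ∈ range T, ∑ u : S → Bool, ∑ i : S, δ u ^ 2 * M (embS S y u) t i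
      ≤ T * ∑ u, δ u ^ 2 := by simpa using sum_le_sum fun t (_ : t ∈ range T) => a1 t
  have h8 : √(Fintype.card S : ℝ) ≤ 36 * T := by
    refine le_of_mul_le_mul_right ?_ h1
    linarith
  rw [Real.sqrt_le_left (by positivity), Fintype.card_coe] at h8
  exact_mod_cast h8

def Blocks (f : (Fin n → Bool) → Bool) (y : Fin n → Bool) : ℕ → Finset (Fin n) → Prop
  | 0, _ => True
  | r + 1, K => ∃ z, f y ≠ f z ∧ (∀ i ∈ K, z i = y i) ∧
      Blocks f y r (K ∪ univ.filter fun i => y i ≠ z i)

lemma Blocks.mono {f : (Fin n → Bool) → Bool} {y : Fin n → Bool} :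
    ∀ {r : ℕ} {K K' : Finset (Fin n)}, K ⊆ K' → Blocks f y r K' → Blocks f y r K
  | 0, _, _, _, _ => trivial
  | _ + 1, _, _, h, ⟨z, h1, h2, h3⟩ =>
      ⟨z, h1, fun i hi => h2 i (h hi), h3.mono (union_subset_union h subset_rfl)⟩

lemma Blocks.le {f : (Fin n → Bool) → Bool} {T : ℕ} (h : QuantComputes f T) {y : Fin n → Bool}
    {r : ℕ} (hb : Blocks f y r ∅) : r ≤ (36 * T) ^ 2 := by
  obtain ⟨M, M0, M1, hM⟩ := h.adv
  have key : ∀ κ : ℝ, 0 < κ → ∀ r K, Blocks f y r K →
      (r : ℝ) / 18 ≤ ∑ t ∈ range T, (κ * ∑ i ∈ Kᶜ, M y t i + r / κ) := by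
    intro κ hκ r
    induction r with
    | zero =>
      intro K _
      simp only [Nat.cast_zero, zero_div, add_zero]
      exact sum_nonneg fun t _ => mul_nonneg hκ.le (sum_nonneg fun i _ => M0 _ _ _)
    | succ r ih =>
      rintro K ⟨z, h1, h2, h3⟩
      have a1 := add_le_add (ih _ h3) (hM y z h1 κ hκ)
      rw [← sum_add_distrib] at a1
      push_cast
      rw [add_div]
      refine a1.trans (sum_le_sum fun t _ => ?_)
      have e : Kᶜ = (K ∪ univ.filter fun i => y i ≠ z i)ᶜ ∪ univ.filter fun i => y i ≠ z i := by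
        ext i
        simp only [mem_compl, mem_union, mem_filter, mem_univ, true_and]
        have := h2 i
        tauto
      have a2 : ∑ i ∈ univ.filter (fun i => y i ≠ z i), M z t i ≤ 1 := by
        rw [← M1 z t]
        exact sum_le_sum_of_subset_of_nonneg (subset_univ _) fun i _ _ => M0 z t i
      rw [e, sum_union (by simp +contextual [disjoint_left]), sum_add_distrib, ← mul_sum, ← sum_div,
        add_div]
      have := div_le_div_of_nonneg_right a2 hκ.le
      linarith
  rcases Nat.eq_zero_or_pos T with rfl | hT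
  · have := key 1 one_pos r ∅ hb
    simp only [range_zero, sum_empty] at this
    have : (r : ℝ) ≤ 0 := by linarith
    exact_mod_cast this
  · have hT' : (0 : ℝ) < T := by exact_mod_cast hT
    have := key (36 * T) (by positivity) r ∅ hb
    simp only [compl_empty, M1, sum_const, card_range, nsmul_eq_mul] at this
    have e : (T : ℝ) * (36 * T * 1 + r / (36 * T)) = 36 * T ^ 2 + r / 36 := by field_simp
    rw [e] at this
    have : (r : ℝ) ≤ (36 * T) ^ 2 := by linarith
    exact_mod_cast this

lemma const_of_update {α : Type} (h : (Fin n → Bool) → α) (K : Finset (Fin n)) (y0 : Fin n → Bool)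
    (hh : ∀ y, (∀ i ∈ K, y i = y0 i) → ∀ i ∉ K, ∀ b, h (Function.update y i b) = h y)
    (y : Fin n → Bool) (hy : ∀ i ∈ K, y i = y0 i) : h y = h y0 := by
  have key : ∀ D : Finset (Fin n), h (D.piecewise y y0) = h y0 := by
    intro D
    induction D using Finset.induction_on with
    | empty => simp
    | insert i D hi ih =>
      rw [piecewise_insert, ← ih]
      have hD : ∀ j ∈ K, D.piecewise y y0 j = y0 j := fun j hj => by
        by_cases h' : j ∈ D <;> simp [piecewise, h', hy j hj]
      by_cases hK : i ∈ K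
      · rw [hy i hK, ← hD i hK, Function.update_eq_self]
      · exact hh _ hD i hK _
  simpa using key univ

lemma exists_S {f : (Fin n → Bool) → Bool} {m : ℕ}
    (hm : ∀ S y, top f S y ≠ 0 → S.card ≤ m) (K : Finset (Fin n)) (y0 : Fin n → Bool) :
    (∀ y, (∀ i ∈ K, y i = y0 i) → f y = f y0) ∨ ∃ S : Finset (Fin n), S.card ≤ m ∧ Disjoint S K ∧
      ∀ y, (∀ i ∈ K, y i = y0 i) → ∃ z, f y ≠ f z ∧ ∀ i ∉ S, z i = y i := by
  classical
  have h0 : ∀ y, top f ∅ y = sg (f y) := fun y => by
    rw [top, Finset.sum_eq_single y]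
    · simp [ind]
    · intro x _ hx
      rw [ind_neg, zero_mul]
      intro h; exact hx (funext fun i => h i (by simp))
    · simp
  obtain ⟨S, hS, hmax⟩ := exists_max_image (univ.filter fun S : Finset (Fin n) => Disjoint S K ∧
    ∃ y, (∀ i ∈ K, y i = y0 i) ∧ top f S y ≠ 0) card ⟨∅, by
      simp only [mem_filter, mem_univ, true_and, disjoint_empty_left]
      refine ⟨y0, fun _ _ => rfl, ?_⟩
      rw [h0]; cases f y0 <;> simp⟩
  simp only [mem_filter, mem_univ, true_and] at hS hmax
  obtain ⟨hd, y1, hy1, ht⟩ := hS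
  have hc : ∀ y, (∀ i ∈ K, y i = y0 i) → top f S y = top f S y0 := by
    refine const_of_update _ K y0 fun y hy i hi b => ?_
    by_cases hS : i ∈ S
    · exact top_update f hS y b
    · have : top f (insert i S) y = 0 := by
        by_contra hne
        have := hmax (insert i S) ⟨by simp [hi, hd], y, hy, hne⟩
        rw [card_insert_of_notMem hS] at this
        omega
      rw [top_insert f hS, sub_eq_zero] at this
      conv_rhs => rw [← Function.update_eq_self i y]
      cases b <;> cases y i <;> simp [this]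
  rcases S.eq_empty_or_nonempty with rfl | ⟨i, hi⟩
  · left
    intro y hy
    have := hc y hy
    rw [h0, h0] at this
    revert this; cases f y <;> cases f y0 <;> norm_num
  · refine Or.inr ⟨S, hm S y1 ht, hd, fun y hy => ?_⟩
    by_contra hz
    push Not at hz
    have h1 : top f S y ≠ 0 := by rw [hc y hy, ← hc y1 hy1]; exact ht
    apply h1
    have h2 : ∀ u, f (embS S y u) = f y := fun u => by
      by_contra h
      obtain ⟨j, hj, h'⟩ := hz _ (Ne.symm h)
      exact h' (by simp [embS, hj])
    rw [top_eq]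
    simp only [h2, ← sum_mul]
    rw [← Fintype.piFinset_univ, ← prod_univ_sum (fun _ => univ) (fun _ b => sg b),
      prod_eq_zero (mem_univ ⟨i, hi⟩) (by simp), zero_mul]

lemma query_set (τ : (Fin n → Bool) → DTree (Fin n)) (S : Finset (Fin n)) :
    ∀ y0 : Fin n → Bool, ∃ t : DTree (Fin n), ∀ y, t.eval y = (τ (S.piecewise y y0)).eval y ∧
      t.cost y = (τ (S.piecewise y y0)).cost y + S.card := by
  induction S using Finset.induction_on with
  | empty => intro y0; exact ⟨τ y0, by simp⟩
  | insert i S hi ih =>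
    intro y0
    obtain ⟨t0, h0⟩ := ih (Function.update y0 i false)
    obtain ⟨t1, h1⟩ := ih (Function.update y0 i true)
    refine ⟨.node i t0 t1, fun y => ?_⟩
    have e : (insert i S).piecewise y y0 = S.piecewise y (Function.update y0 i (y i)) := by
      ext j
      by_cases hj : j = i
      · subst hj; simp [piecewise, hi]
      · by_cases hS : j ∈ S <;> simp [piecewise, hj, hS]
    rw [e, card_insert_of_notMem hi]
    simp only [DTree.eval, DTree.cost]
    cases y i <;> simp [h0, h1, add_assoc]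

lemma exists_tree {f : (Fin n → Bool) → Bool} {m : ℕ} (hm : ∀ S y, top f S y ≠ 0 → S.card ≤ m) :
    ∀ (r : ℕ) (K : Finset (Fin n)) (y0 : Fin n → Bool),
      (∀ y, (∀ i ∈ K, y i = y0 i) → ¬ Blocks f y (r + 1) K) →
      ∃ t : DTree (Fin n), ∀ y, (∀ i ∈ K, y i = y0 i) → t.eval y = f y ∧ t.cost y ≤ r * m
  | 0, K, y0, h => ⟨.leaf (f y0), fun y hy => ⟨by
      by_contra hne
      exact h y0 (fun _ _ => rfl) ⟨y, hne, hy, trivial⟩, by simp [DTree.cost]⟩⟩
  | r + 1, K, y0, h => by
      rcases exists_S hm K y0 with hc | ⟨S, h1, h2, h3⟩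
      · exact ⟨.leaf (f y0), fun y hy => ⟨(hc y hy).symm, by simp [DTree.cost]⟩⟩
      have ih : ∀ y1 : Fin n → Bool, ∃ t : DTree (Fin n), (∀ i ∈ K, y1 i = y0 i) →
          ∀ y, (∀ i ∈ K ∪ S, y i = y1 i) → t.eval y = f y ∧ t.cost y ≤ r * m := by
        intro y1
        by_cases hy1 : ∀ i ∈ K, y1 i = y0 i
        · obtain ⟨t, ht⟩ := exists_tree hm r (K ∪ S) y1 fun y hy hb => by
            have hy' : ∀ i ∈ K, y i = y0 i := fun i hi => (hy i (by simp [hi])).trans (hy1 i hi)
            obtain ⟨z, a1, a2⟩ := h3 y hy'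
            refine h y hy' ⟨z, a1, fun i hi => a2 i (disjoint_right.mp h2 hi), hb.mono ?_⟩
            refine union_subset_union subset_rfl fun i hi => ?_
            by_contra hS
            exact (mem_filter.mp hi).2 (a2 i hS).symm
          exact ⟨t, fun _ => ht⟩
        · exact ⟨.leaf true, fun h => absurd h hy1⟩
      choose τ hτ using ih
      obtain ⟨t, ht⟩ := query_set τ S y0
      refine ⟨t, fun y hy => ?_⟩
      have := hτ (S.piecewise y y0) (fun i hi => by simp [piecewise, disjoint_right.mp h2 hi]) y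
        fun i hi => by
          by_cases hS : i ∈ S
          · simp [piecewise, hS]
          · simpa [piecewise, hS] using hy i (by simpa [hS] using hi)
      rw [(ht y).1, (ht y).2, Nat.succ_mul]
      exact ⟨this.1, Nat.add_le_add this.2 h1⟩

theorem QuantComputes.rand {f : (Fin n → Bool) → Bool} {T : ℕ} (h : QuantComputes f T) :
    RandComputes f ((36 * T) ^ 4) := by
  obtain ⟨t, ht⟩ := exists_tree (fun S y hS => card_le_of_top h hS) ((36 * T) ^ 2) ∅
    (fun _ => false) fun y _ hb => by have := hb.le h; omega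
  refine ⟨PMF.pure t, fun t' ht' x => ?_, fun x => ?_⟩
  · rw [(PMF.mem_support_pure_iff _ _).mp ht']
    exact (ht x (by simp)).2.trans (le_of_eq (by ring))
  · rw [PMF.pure_map, (ht x (by simp)).1, PMF.pure_apply_self]
    exact ENNReal.div_le_of_le_mul (by norm_num)

lemma det_all (hn : 1 ≤ n) (f : (Fin n → Bool) → Bool) : QuantComputes f n :=
  Has.quant ((Det.word (ι := Fin n) id).map f) hn fun x => by
    simp only [id]; rw [ind_pos trivial]; norm_num

lemma Q_spec (hn : 1 ≤ n) (f : (Fin n → Bool) → Bool) : QuantComputes f (Q f) :=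
  Nat.sInf_mem (s := {T | QuantComputes f T}) ⟨n, det_all hn f⟩

lemma R_spec (hn : 1 ≤ n) (f : (Fin n → Bool) → Bool) : RandComputes f (R f) :=
  Nat.sInf_mem (s := {T | RandComputes f T}) ⟨_, (det_all hn f).rand⟩

theorem four_mem : (4 : ℝ) ∈ admissible := by
  refine ⟨by norm_num, 36 ^ 4, fun n hn f => ?_⟩
  have h : R f ≤ (36 * Q f) ^ 4 := Nat.sInf_le (Q_spec hn f).rand
  have h' : (R f : ℝ) ≤ (36 * Q f) ^ 4 := by exact_mod_cast h
  rw [show (4 : ℝ) = (4 : ℕ) by norm_num, Real.rpow_natCast, ← mul_pow]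
  refine h'.trans (pow_le_pow_left₀ (by positivity) (by linarith) 4)

end Vale.Agent.P362
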