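import Vale.Agent.P362.Lower
import Vale.Agent.P362.Algo
import Vale.Agent.P362.Upper

set_option linter.unusedSectionVars false

namespace Vale.Agent.P362

open Finset Matrix

variable {ν K : ℕ}

lemma abs_cc_le (a : Fin (K + 1) → Option (GG ν)) : |cc (Had ν) a| ≤ hh ν ^ K := by
  rw [cc, abs_prod]
  refine (prod_le_prod (fun _ _ => abs_nonneg _) (g := fun _ => hh ν) fun j _ => ?_).trans (by simp)
  rcases a j.succ with _ | c <;> rcases a j.castSucc with _ | i <;>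
    simp [Hopt, hh_pos.le, abs_Had]

lemma hh_le_one : hh ν ≤ 1 := by
  have h : hh ν ^ 2 ≤ 1 := by
    rw [hh_sq]; exact inv_le_one_of_one_le₀ (one_le_pow₀ (by norm_num))
  nlinarith [hh_pos (ν := ν)]

lemma card_tuples : (Fintype.card (Fin (K + 1) → Option (GG ν)) : ℝ) ≤ (2 * 2 ^ ν) ^ (K + 1) := by
  simp only [Fintype.card_pi, Fintype.card_option, Fintype.card_bool, prod_const, card_univ,
    Fintype.card_fin]
  push_cast
  refine pow_le_pow_left₀ (by positivity) ?_ _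
  have : (1 : ℝ) ≤ 2 ^ ν := one_le_pow₀ (by norm_num)
  linarith

lemma dd_bound {p d : ℕ} (hp : Even p) (hp0 : p ≠ 0) (hd : 0 < d) {M B : ℝ} (hM : 1 ≤ M)
    (hDM : d * 2 ^ p ≤ M ^ 2) (hB : 0 ≤ B)
    (h : 9 * ((2 * 2 ^ ν) ^ (K + 1) * ((d * (4 * M) ^ p) ^ (K + 1) * (hh ν ^ K) ^ p)) ≤ B ^ p)
    (t : DTree (Fin (K + 1) × GG ν)) (ht : t.depth ≤ d) (y : Fin (K + 1) × GG ν → ℝ)
    (hy : ∀ q, |y q| ≤ 1 / 2) : DD (cc (Had ν)) y (fun x => ind (t.eval x = true)) ≤ B := by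
  have hd' : (1 : ℝ) ≤ d := by exact_mod_cast hd
  have h1 := pot hp hp0 (D := d) (by linarith) hM hDM t (cc (Had ν)) y fun q => Or.inl (hy q)
  have hΛ : 1 ≤ d * (4 * M) ^ p := one_le_mul_of_one_le_of_one_le hd' (one_le_pow₀ (by linarith))
  have h2 : (1 + 2 / (d : ℝ)) ^ t.depth ≤ 9 := by
    have h0 : (0 : ℝ) ≤ 2 / d := by positivity
    refine (pow_le_pow_right₀ (by linarith) ht).trans ((pow_le_pow_left₀ (by linarith)
      (add_comm (2 / (d : ℝ)) 1 ▸ Real.add_one_le_exp _) d).trans ?_)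
    rw [← Real.exp_nat_mul, mul_div_cancel₀ _ (by linarith : (d : ℝ) ≠ 0),
      show (2 : ℝ) = (2 : ℕ) * 1 by norm_num, Real.exp_nat_mul]
    have := Real.exp_one_lt_three
    have := Real.exp_pos 1
    nlinarith
  have h3 : Psi (d * (4 * M) ^ p) p (cc (K := K) (Had ν))
      ≤ (2 * 2 ^ ν) ^ (K + 1) * ((d * (4 * M) ^ p) ^ (K + 1) * (hh ν ^ K) ^ p) := by
    refine (sum_le_card_nsmul _ _ ((d * (4 * M) ^ p) ^ (K + 1) * (hh ν ^ K) ^ p)
      fun a _ => ?_).trans ?_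
    · refine mul_le_mul ((prod_le_prod (fun _ _ => by split_ifs <;> linarith)
        (g := fun _ => d * (4 * M) ^ p) fun j _ => by split_ifs <;> linarith).trans (by simp))
        ?_ (hp.pow_nonneg _) (by positivity)
      rw [← hp.pow_abs]
      exact pow_le_pow_left₀ (abs_nonneg _) (abs_cc_le a) p
    · rw [nsmul_eq_mul, card_univ]
      have := hh_pos (ν := ν)
      exact mul_le_mul_of_nonneg_right card_tuples (by positivity)
  have hP : 0 ≤ Psi (d * (4 * M) ^ p) p (cc (K := K) (Had ν)) :=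
    sum_nonneg fun a _ => mul_nonneg (prod_nonneg fun j _ => by split_ifs <;> linarith)
      (hp.pow_nonneg _)
  refine le_of_pow_le_pow_left₀ hp0 hB (h1.trans (le_trans ?_ h))
  exact mul_le_mul h2 h3 hP (by norm_num)

lemma mom_nonneg (r : ℕ) : 0 ≤ mom (2 * r) :=
  MeasureTheory.integral_nonneg fun x => (even_two_mul r).pow_nonneg x

lemma tl_bound {ε : ℝ} (h0 : 0 ≤ ε) (h1 : ε ≤ 1) (r : ℕ)
    (h : K * 2 ^ ν * (ε ^ (2 * r) * (2 * mom (2 * r) + mom (4 * r))) ≤ 1) :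
    tl (Had ν) ε K r ≤ (1 + 4 ^ r) *
      (2 * (K * 2 ^ ν * (ε ^ (2 * r) * (2 * mom (2 * r) + mom (4 * r))))) := by
  refine (tl_le _ ε Had_orth r).trans (mul_le_mul_of_nonneg_left ?_ (by positivity))
  have m1 := mom_nonneg r
  have m2 : 0 ≤ mom (4 * r) := by rw [show 4 * r = 2 * (2 * r) by ring]; exact mom_nonneg _
  set κ := ε ^ (2 * r) * (2 * mom (2 * r) + mom (4 * r))
  have hκ : 0 ≤ κ := by positivity
  have a1 : 1 + 2 * ε ^ (2 * r) * mom (2 * r) + ε ^ (4 * r) * mom (4 * r) ≤ Real.exp κ := by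
    have : ε ^ (4 * r) ≤ ε ^ (2 * r) := pow_le_pow_of_le_one h0 h1 (by omega)
    have := mul_le_mul_of_nonneg_right this m2
    have := Real.add_one_le_exp κ
    simp only [κ] at *
    linarith
  have a2 := pow_le_pow_left₀ (by positivity) a1 (K * Fintype.card (GG ν))
  rw [← Real.exp_nat_mul] at a2
  have e : ((K * Fintype.card (GG ν) : ℕ) : ℝ) = K * 2 ^ ν := by simp
  rw [e] at a2
  have a3 := Real.abs_exp_sub_one_le (x := K * 2 ^ ν * κ) (by rwa [abs_of_nonneg (by positivity)])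
  rw [abs_of_nonneg (show 0 ≤ K * 2 ^ ν * κ by positivity)] at a3
  linarith [le_abs_self (Real.exp (K * 2 ^ ν * κ) - 1)]

lemma R_lower (hK : 0 < K) {ε δ η B : ℝ} {r d t : ℕ} (hr : r ≠ 0) (hε0 : 0 ≤ ε) (hε : ε ≤ 1)
    (hδ : 0 ≤ δ) (hd : 0 < d) (hB : 0 ≤ B)
    (h1 : ∀ τ : DTree (Fin (K + 1) × GG ν), τ.depth ≤ d → ∀ y : Fin (K + 1) × GG ν → ℝ,
      (∀ q, |y q| ≤ 1 / 2) → DD (cc (Had ν)) y (fun x => ind (τ.eval x = true)) ≤ B)
    (h2 : 2 * δ + tl (Had ν) ε K r ≤ ε ^ (2 * K))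
    (h3 : B + (1 + (2 * 2 ^ ν) ^ (K + 1)) * tl (Had ν) ε K r ≤ η)
    {n : ℕ} (e : Fin n ≃ Ix ν K) {T : ℕ} (hT : RandComputes (fun x => FF δ (x ∘ e.symm)) T) :
    δ ^ 2 * (2 / 3) ^ t ≤ (1 / 3) ^ t + (2 * η + d / 2 ^ ν + 2 * (t * T) / (d * 2 ^ ν)) := by
  obtain ⟨p, hp, hF⟩ := hT.mix e
  have htl := tl_nonneg (K := K) (Had ν) ε r
  have hη : 0 ≤ η := le_trans (by positivity) h3
  have := lower hK (w := Dw (Had ν) ε) (Dw_nonneg _ _ hK) (sum_Dw_le _ _) hd hd hδ hη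
    (fun τ hτ => ?_) (signal ε Had_orth hK hr hδ h2) hp (fun x => by
      simpa [Function.comp_assoc] using hF x) t
  · push_cast at this
    rw [mul_div_assoc 2]; linarith
  · have h4 := indist (Had ν) ε Had_orth hK hr (fun x => ind (τ.eval x = true))
      (fun x => by rw [abs_of_nonneg (ind_nonneg _)]; exact ind_le_one _) hB (h1 τ hτ)
      (S := (2 * 2 ^ ν) ^ (K + 1)) ((sum_le_card_nsmul _ _ 1 fun a _ => (abs_cc_le a).trans
        (pow_le_one₀ hh_pos.le hh_le_one)).trans (by simpa using card_tuples))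
    have e1 : av (fun z : ZZ ν K => ind (τ.eval z = true))
        = (1 / 2) ^ Fintype.card (Fin (K + 1) × GG ν) * ∑ x, ind (τ.eval x = true) := by
      rw [av, Fintype.card_fun, div_eq_inv_mul]; simp
    have h5 : ε ^ (2 * K) * (B + (2 * 2 ^ ν) ^ (K + 1) * tl (Had ν) ε K r)
        ≤ B + (2 * 2 ^ ν) ^ (K + 1) * tl (Had ν) ε K r :=
      mul_le_of_le_one_left (by positivity) (pow_le_one₀ hε0 hε)
    rw [e1]; linarith

lemma Q_upper {δ : ℝ} (hδ : 0 < δ) (hδ1 : δ ≤ 1) {X A : ℕ} (hX : (2 : ℝ) ^ ν ≤ X ^ 2 * δ ^ 4)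
    (hX2 : 4 * A ^ 2 * 2 ^ ν ≤ X ^ 2) (hXA : X ≤ 2 ^ (ν + 5)) (hA : ν + K + 10 ≤ A)
    (hA2 : 24 * A ^ 2 ≤ 2 ^ ν)
    {n : ℕ} (hn : 1 ≤ n) (e : Fin n ≃ Ix ν K) :
    Q (fun x => FF δ (x ∘ e.symm)) ≤ 54000 * A ^ 9 * X := by
  have hX0 : X ≠ 0 := by
    rintro rfl
    have : (0 : ℝ) < 2 ^ ν := by positivity
    simp at hX; linarith
  set S := Nat.log 3 X + 1
  have hS1 : X < 3 ^ S := Nat.lt_pow_succ_log_self (by norm_num) X
  have hS2 : 3 ^ S ≤ 3 * X := by rw [pow_succ']; exact Nat.mul_le_mul_left _ (Nat.pow_log_le_self 3 hX0)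
  have hS3 : S + 1 ≤ A := by
    have : Nat.log 3 X ≤ ν + 5 := by
      have h1 := (Nat.pow_log_le_self 3 hX0).trans hXA
      have h2 : 2 ^ Nat.log 3 X ≤ 3 ^ Nat.log 3 X := Nat.pow_le_pow_left (by norm_num) _
      exact (Nat.pow_le_pow_iff_right (by norm_num)).mp (h2.trans h1)
    omega
  have h9 : (X : ℝ) ^ 2 ≤ 9 ^ S := by
    have : (X : ℝ) ≤ 3 ^ S := by exact_mod_cast hS1.le
    rw [show (9 : ℝ) = 3 ^ 2 by norm_num, ← pow_mul, mul_comm, pow_mul]
    exact pow_le_pow_left₀ (by positivity) this 2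
  set r := 8 * (S + 1) * (3 * ν + 3)
  have hr : r ≤ 24 * A ^ 2 := by
    have : 3 * ν + 3 ≤ 3 * A := by omega
    calc r ≤ 8 * A * (3 * A) := Nat.mul_le_mul (by omega) this
      _ = _ := by ring
  have hρ : (1 - 1 / (8 * ((S : ℝ) + 1))) ^ r ≤ (1 / 2) ^ (3 * ν + 3) := by
    rw [pow_mul]
    have h0 : (0 : ℝ) ≤ 1 - 1 / (8 * (S + 1)) := by
      rw [sub_nonneg, div_le_one (by positivity)]
      have : (0 : ℝ) ≤ S := by positivity
      linarith
    refine pow_le_pow_left₀ (pow_nonneg h0 _) ?_ _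
    have h1 : 1 - 1 / (8 * ((S : ℝ) + 1)) ≤ Real.exp (-(1 / (8 * (S + 1)))) := by
      linarith [Real.add_one_le_exp (-(1 / (8 * ((S : ℝ) + 1))))]
    refine (pow_le_pow_left₀ h0 h1 _).trans ?_
    rw [← Real.exp_nat_mul]
    have : ((8 * (S + 1) : ℕ) : ℝ) * -(1 / (8 * (S + 1))) = -1 := by push_cast; field_simp
    rw [this, Real.exp_neg, one_div]
    exact inv_anti₀ (by norm_num) (by linarith [Real.add_one_le_exp 1])
  have hν : (ν : ℝ) + 1 ≤ 2 ^ ν := by exact_mod_cast Nat.lt_two_pow_self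
  have hN : (1 : ℝ) ≤ 2 ^ ν := one_le_pow₀ (by norm_num)
  have e3 : (1 / 2 : ℝ) ^ (3 * ν + 3) = 1 / (8 * (2 ^ ν) ^ 3) := by
    rw [div_pow, one_pow, pow_add, mul_comm 3 ν, pow_mul]; norm_num [mul_comm]
  have e4 : (4 : ℝ) ^ ν = (2 ^ ν) ^ 2 := by rw [← pow_mul, mul_comm, pow_mul]; norm_num
  have hA1 : 1 ≤ A := by omega
  have hA2' : A ≤ A ^ 2 := Nat.le_self_pow (by norm_num) A
  have hA3 : A ^ 2 ≤ A ^ 3 := Nat.pow_le_pow_right hA1 (by norm_num)
  have halg := algo (ν := ν) (K := K) hδ S r (r * (3 ^ S * (30 * A ^ 3))) ?_ ?_ ?_ ?_ ?_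
    ?_ ?_
  · obtain ⟨E, h1, h2⟩ := halg
    obtain ⟨B, _, _, s, W, out, hW, h⟩ := h1
    have h3 : Has _ fun (x : Fin n → Bool) φ => E (x ∘ e.symm) φ :=
      ⟨B, _, _, s, _, out, hW.relabel e.symm, fun x φ => h _ φ⟩
    refine (Nat.sInf_le (h3.quant hn fun x => h2 _)).trans ?_
    have a1 : (ν + 1) * r + 1 ≤ 25 * A ^ 3 := by
      have : (ν + 1) * r ≤ A * (24 * A ^ 2) := Nat.mul_le_mul (by omega) hr
      nlinarith
    calc _ ≤ A * (25 * A ^ 3 * (24 * A ^ 2 * (3 * X * (30 * A ^ 3)))) :=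
          Nat.mul_le_mul (by omega) (Nat.mul_le_mul a1 (Nat.mul_le_mul hr
            (Nat.mul_le_mul_right _ hS2)))
      _ = _ := by ring
  · refine le_trans ?_ h9
    have : Fintype.card (Kx ν K) ≤ X ^ 2 := by
      refine le_trans ?_ hX2
      simp only [Fintype.card_sum, Fintype.card_prod, Fintype.card_pi, Fintype.card_bool,
        prod_const, card_univ, Fintype.card_fin]
      have a1 : (K + 1) * (ν + 1) ≤ A ^ 2 := by rw [sq]; exact Nat.mul_le_mul (by omega) (by omega)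
      have a2 : 1 ≤ 2 ^ ν := Nat.one_le_two_pow
      have a3 : 2 ≤ A ^ 2 := by omega
      nlinarith [Nat.mul_le_mul_right (2 ^ ν) a1, Nat.mul_le_mul_right (2 ^ ν) a3]
    exact_mod_cast this
  · exact hX.trans ((mul_le_of_le_one_right (by positivity) (pow_le_one₀ hδ.le hδ1)).trans h9)
  · exact hX.trans (mul_le_mul_of_nonneg_right h9 (by positivity))
  · refine Nat.mul_le_mul_left _ (Nat.mul_le_mul_left _ ?_)
    have a1 : ν * (K + 1) ≤ A ^ 2 := by rw [sq]; exact Nat.mul_le_mul (by omega) (by omega)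
    omega
  · refine Nat.mul_le_mul_left _ (Nat.mul_le_mul_left _ ?_)
    have : r * (ν + 1) ≤ 24 * A ^ 2 * A := Nat.mul_le_mul hr (by omega)
    have e : 24 * A ^ 2 * A = 24 * A ^ 3 := by ring
    omega
  · refine (mul_le_mul hν (mul_le_mul_of_nonneg_left hρ (by positivity)) (mul_nonneg
      (by positivity) (pow_nonneg ?_ _)) (by positivity)).trans ?_
    · rw [sub_nonneg, div_le_one (by positivity)]
      have : (0 : ℝ) ≤ S := by positivity
      linarith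
    · rw [e3, e4, mul_one_div, ← mul_div_assoc, div_le_div_iff₀ (by positivity) (by norm_num)]
      nlinarith [pow_pos (show (0 : ℝ) < 2 ^ ν by positivity) 2, mul_le_mul hN hN zero_le_one (by positivity)]
  · have hr' : (r : ℝ) ≤ 2 ^ ν := by exact_mod_cast hr.trans hA2
    refine (mul_le_mul (mul_le_mul hν hr' (by positivity) (by positivity)) hρ (pow_nonneg ?_ _)
      (by positivity)).trans ?_
    · rw [sub_nonneg, div_le_one (by positivity)]
      have : (0 : ℝ) ≤ S := by positivity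
      linarith
    · rw [e3, mul_one_div, div_le_div_iff₀ (by positivity) (by norm_num)]
      nlinarith [pow_pos (show (0 : ℝ) < 2 ^ ν by positivity) 2, mul_le_mul hN hN zero_le_one (by positivity)]

end Vale.Agent.P362
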