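import Vale.Agent.P362.Prog

namespace Vale.Agent.P362

open Finset

/-- depth of a decision tree -/
def DTree.depth {ι : Type} : DTree ι → ℕ
  | .leaf _ => 0
  | .node _ t0 t1 => max t0.depth t1.depth + 1

lemma one_add_pow_le (p : ℕ) {z : ℝ} (h : |z| ≤ 1) :
    (1 + z) ^ p ≤ 1 + p * z + (2 ^ p - p - 1) * z ^ 2 := by
  have h1 := abs_le.mp h
  induction p with
  | zero => simp
  | succ p ih =>
    have hc : (0 : ℝ) ≤ 2 ^ p - p - 1 := by
      have : (p : ℝ) + 1 ≤ 2 ^ p := by exact_mod_cast Nat.lt_two_pow_self
      linarith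
    rw [pow_succ, pow_succ (2 : ℝ)]
    push_cast
    have := mul_le_mul_of_nonneg_right ih (show 0 ≤ 1 + z by linarith)
    nlinarith [mul_nonneg (mul_nonneg hc (sq_nonneg z)) (show 0 ≤ 1 - z by linarith)]

lemma scalar_step {p : ℕ} (hp : Even p) {D M : ℝ} (hD : 0 < D) (hM : 1 ≤ M) (hDM : D * 2 ^ p ≤ M ^ 2)
    (q ξ : Bool → ℝ) (hq : ∀ b, 0 ≤ q b) (hq1 : q true + q false = 1)
    (hξ : q true * ξ true + q false * ξ false = 0) (hξ2 : ∀ b, |ξ b| ≤ 2) (X w : ℝ) :
    q true * (X + ξ true * w) ^ p + q false * (X + ξ false * w) ^ p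
      ≤ (1 + 1 / D) * X ^ p + (4 * M) ^ p * w ^ p := by
  have hX : 0 ≤ X ^ p := hp.pow_nonneg X
  have hw : 0 ≤ (4 * M) ^ p * w ^ p := mul_nonneg (by positivity) (hp.pow_nonneg w)
  have hY : ∀ b, |ξ b * w| ≤ 2 * |w| := fun b => by
    rw [abs_mul]; exact mul_le_mul_of_nonneg_right (hξ2 b) (abs_nonneg w)
  by_cases h : M * (2 * |w|) < |X|
  · have hX0 : X ≠ 0 := by
      rintro rfl
      have : 0 ≤ M * (2 * |w|) := by positivity
      simp at h; linarith
    have hXp : 0 < |X| := abs_pos.mpr hX0
    have hz : ∀ b, |ξ b * w / X| ≤ 1 / M := fun b => by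
      rw [abs_div, div_le_div_iff₀ hXp (by linarith)]
      nlinarith [hY b]
    have key : ∀ b, (X + ξ b * w) ^ p ≤ X ^ p * (1 + p * (ξ b * w / X) + 1 / D) := fun b => by
      have e : X + ξ b * w = X * (1 + ξ b * w / X) := by field_simp
      rw [e, mul_pow]
      refine mul_le_mul_of_nonneg_left ?_ hX
      have h1 : 1 / M ≤ 1 := by rw [div_le_one (by linarith)]; exact hM
      refine (one_add_pow_le p ((hz b).trans h1)).trans ?_
      have h2 : (ξ b * w / X) ^ 2 ≤ (1 / M) ^ 2 := by
        rw [← sq_abs]; exact pow_le_pow_left₀ (abs_nonneg _) (hz b) 2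
      have h3 : 2 ^ p * (1 / M) ^ 2 ≤ 1 / D := by
        rw [div_pow, one_pow, mul_one_div, div_le_div_iff₀ (by positivity) hD]; linarith
      have h4 : (0 : ℝ) ≤ p := by positivity
      have h5 : (0 : ℝ) ≤ 2 ^ p := by positivity
      nlinarith [sq_nonneg (ξ b * w / X), mul_le_mul_of_nonneg_left h2 h5]
    have e : q true * (X ^ p * (1 + p * (ξ true * w / X) + 1 / D))
        + q false * (X ^ p * (1 + p * (ξ false * w / X) + 1 / D)) = (1 + 1 / D) * X ^ p := by
      have : q true * (X ^ p * (1 + p * (ξ true * w / X) + 1 / D))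
        + q false * (X ^ p * (1 + p * (ξ false * w / X) + 1 / D))
          = (q true + q false) * ((1 + 1 / D) * X ^ p)
            + (q true * ξ true + q false * ξ false) * (X ^ p * p * w / X) := by ring
      rw [this, hq1, hξ]; ring
    nlinarith [mul_le_mul_of_nonneg_left (key true) (hq true),
      mul_le_mul_of_nonneg_left (key false) (hq false)]
  · have key : ∀ b, (X + ξ b * w) ^ p ≤ (4 * M) ^ p * w ^ p := fun b => by
      rw [← hp.pow_abs, ← hp.pow_abs w, ← mul_pow]
      refine pow_le_pow_left₀ (abs_nonneg _) ((abs_add_le _ _).trans ?_) p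
      nlinarith [hY b, abs_nonneg w]
    have : 0 ≤ (1 + 1 / D) * X ^ p := by positivity
    nlinarith [mul_le_mul_of_nonneg_left (key true) (hq true),
      mul_le_mul_of_nonneg_left (key false) (hq false)]

variable {J G : Type} [Fintype J] [DecidableEq J] [Fintype G] [DecidableEq G]

/-- the weight of `x` for the mixed derivative along `a` of the product measure with means `y` -/
noncomputable def wt (a : J → Option G) (y : J × G → ℝ) (x : J × G → Bool) : ℝ :=
  ∏ p, if a p.1 = some p.2 then sg (x p) / 2 else (1 + sg (x p) * y p) / 2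

noncomputable def DD (c : (J → Option G) → ℝ) (y : J × G → ℝ) (g : (J × G → Bool) → ℝ) : ℝ :=
  ∑ x, g x * ∑ a, c a * wt a y x

lemma sum_wt (a : J → Option G) (y : J × G → ℝ) :
    ∑ x, wt a y x = if a = fun _ => none then 1 else 0 := by
  unfold wt
  rw [← Fintype.piFinset_univ, ← prod_univ_sum (fun _ => univ)
    (fun p b => if a p.1 = some p.2 then sg b / 2 else (1 + sg b * y p) / 2)]
  split_ifs with h
  · subst h
    refine prod_eq_one fun p _ => ?_
    simp; ring
  · obtain ⟨j, hj⟩ := Function.ne_iff.mp h
    obtain ⟨i, hi⟩ := Option.ne_none_iff_exists'.mp hj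
    refine prod_eq_zero (mem_univ (j, i)) ?_
    simp [hi]; ring

lemma sum_reidx (j : J) (i : G) (F : (J → Option G) → ℝ) :
    ∑ a, (if a j = some i then F a else 0)
      = ∑ a, if a j = none then F (Function.update a j (some i)) else 0 := by
  rw [← sum_filter, ← sum_filter]
  refine sum_nbij' (fun a => Function.update a j none) (fun a => Function.update a j (some i))
    (by simp) (by simp) ?_ ?_ ?_
  · intro a ha
    simp only [mem_filter, mem_univ, true_and] at ha
    simp [← ha]
  · intro a ha
    simp only [mem_filter, mem_univ, true_and] at ha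
    simp [← ha]
  · intro a ha
    simp only [mem_filter, mem_univ, true_and] at ha
    simp [← ha]

noncomputable def stepc (c : (J → Option G) → ℝ) (j : J) (i : G) (ξ : ℝ) (a : J → Option G) : ℝ :=
  if a j = some i then 0 else c a + if a j = none then ξ * c (Function.update a j (some i)) else 0

lemma wt_step (c : (J → Option G) → ℝ) (y : J × G → ℝ) (j : J) (i : G) (b : Bool) (ξ : ℝ)
    (h : (1 + sg b * y (j, i)) / 2 * ξ = sg b / 2 ∨ ∀ a, a j = some i → c a = 0)
    (x : J × G → Bool) :
    (if x (j, i) = b then ∑ a, c a * wt a y x else 0) = (1 + sg b * y (j, i)) / 2 *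
      ∑ a, stepc c j i ξ a * wt a (Function.update y (j, i) (sg b)) x := by
  let rest : (J → Option G) → ℝ := fun a => ∏ p ∈ univ.erase (j, i),
    if a p.1 = some p.2 then sg (x p) / 2 else (1 + sg (x p) * y p) / 2
  have e1 : ∀ a, wt a y x = (if a j = some i then sg (x (j, i)) / 2
      else (1 + sg (x (j, i)) * y (j, i)) / 2) * rest a := fun a =>
    (mul_prod_erase _ _ (mem_univ (j, i))).symm
  have e2 : ∀ a, wt a (Function.update y (j, i) (sg b)) x = (if a j = some i then sg (x (j, i)) / 2
      else (1 + sg (x (j, i)) * sg b) / 2) * rest a := fun a => by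
    rw [wt, ← mul_prod_erase _ _ (mem_univ (j, i)), Function.update_self]
    congr 1
    exact prod_congr rfl fun p hp => by rw [Function.update_of_ne (ne_of_mem_erase hp)]
  have e3 : ∀ a, a j = none → rest (Function.update a j (some i)) = rest a := fun a ha => by
    refine prod_congr rfl fun p hp => ?_
    by_cases hj : p.1 = j
    · have : p.2 ≠ i := fun hi => ne_of_mem_erase hp (Prod.ext hj hi)
      simp [hj, ha, this.symm]
    · rw [Function.update_of_ne hj]
  simp only [e1, e2]
  by_cases hx : x (j, i) = b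
  · rw [if_pos hx, hx, sg_mul_self]
    have s1 : ∑ a, c a * ((if a j = some i then sg b / 2 else (1 + sg b * y (j, i)) / 2) * rest a)
        = ∑ a, (if a j = some i then sg b / 2 * c a * rest a else 0)
          + ∑ a, (if a j = some i then 0 else (1 + sg b * y (j, i)) / 2 * c a * rest a) := by
      rw [← sum_add_distrib]
      exact sum_congr rfl fun a _ => by split_ifs <;> ring
    rw [s1, sum_reidx, ← sum_add_distrib, mul_sum]
    refine sum_congr rfl fun a _ => ?_
    unfold stepc
    by_cases h1 : a j = none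
    · have h2 : ¬ a j = some i := by simp [h1]
      simp only [if_pos h1, if_neg h2, e3 a h1]
      rcases h with h | h
      · rw [← h]; ring
      · rw [h _ (Function.update_self _ _ _)]; ring
    · simp only [if_neg h1]
      split_ifs <;> ring
  · rw [if_neg hx]
    have : sg (x (j, i)) * sg b = -1 := by
      revert hx; cases x (j, i) <;> cases b <;> simp
    rw [this, eq_comm, sum_eq_zero, mul_zero]
    intro a _
    unfold stepc
    split_ifs <;> simp

noncomputable def Psi (Λ : ℝ) (p : ℕ) (c : (J → Option G) → ℝ) : ℝ :=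
  ∑ a, (∏ j, if a j = none then 1 else Λ) * c a ^ p

lemma Psi_step {p : ℕ} (hp : Even p) (hp0 : p ≠ 0) {D M : ℝ} (hD : 0 < D) (hM : 1 ≤ M)
    (hDM : D * 2 ^ p ≤ M ^ 2)
    (q ξ : Bool → ℝ) (hq : ∀ b, 0 ≤ q b) (hq1 : q true + q false = 1)
    (hξ : q true * ξ true + q false * ξ false = 0) (hξ2 : ∀ b, |ξ b| ≤ 2)
    (c : (J → Option G) → ℝ) (j : J) (i : G) :
    q true * Psi (D * (4 * M) ^ p) p (stepc c j i (ξ true))
      + q false * Psi (D * (4 * M) ^ p) p (stepc c j i (ξ false))
      ≤ (1 + 2 / D) * Psi (D * (4 * M) ^ p) p c := by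
  set Λ := D * (4 * M) ^ p with hΛ
  have hΛ0 : 0 ≤ Λ := by positivity
  let w : (J → Option G) → ℝ := fun a => ∏ j, if a j = none then 1 else Λ
  have hw : ∀ a, 0 ≤ w a := fun a => prod_nonneg fun j _ => by split_ifs <;> positivity
  have hwu : ∀ a, a j = none → w (Function.update a j (some i)) = Λ * w a := fun a ha => by
    simp only [w]
    rw [← mul_prod_erase _ _ (mem_univ j), ← mul_prod_erase _ _ (mem_univ j)]
    simp only [Function.update_self, ha, if_true, one_mul, reduceCtorEq, if_false]
    congr 1
    exact prod_congr rfl fun j' hj => by rw [Function.update_of_ne (ne_of_mem_erase hj)]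
  have h1 : ∑ a, (if a j = none then w (Function.update a j (some i)) *
      c (Function.update a j (some i)) ^ p else 0) ≤ Psi Λ p c := by
    rw [← sum_reidx j i fun a => w a * c a ^ p]
    refine sum_le_sum fun a _ => ?_
    split_ifs
    · exact le_rfl
    · exact mul_nonneg (hw a) (hp.pow_nonneg _)
  have h2 : q true * Psi Λ p (stepc c j i (ξ true)) + q false * Psi Λ p (stepc c j i (ξ false))
      ≤ (1 + 1 / D) * Psi Λ p c + 1 / D * ∑ a, (if a j = none then
        w (Function.update a j (some i)) * c (Function.update a j (some i)) ^ p else 0) := by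
    simp only [Psi, mul_sum, ← sum_add_distrib]
    refine sum_le_sum fun a _ => ?_
    change q true * (w a * _) + q false * (w a * _) ≤ (1 + 1 / D) * (w a * _) + _
    have hc : 0 ≤ w a * c a ^ p := mul_nonneg (hw a) (hp.pow_nonneg _)
    have hD' : 0 ≤ 1 / D * (w a * c a ^ p) := by positivity
    unfold stepc
    by_cases h1 : a j = none
    · have h2 : ¬ a j = some i := by simp [h1]
      simp only [if_pos h1, if_neg h2, hwu a h1]
      have := mul_le_mul_of_nonneg_left (scalar_step hp hD hM hDM q ξ hq hq1 hξ hξ2 (c a)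
        (c (Function.update a j (some i)))) (hw a)
      have e : 1 / D * (Λ * w a * c (Function.update a j (some i)) ^ p)
          = w a * ((4 * M) ^ p * c (Function.update a j (some i)) ^ p) := by
        rw [hΛ]; field_simp
      rw [e]; nlinarith
    · simp only [if_neg h1]
      split_ifs
      · simp only [zero_pow hp0]; nlinarith
      · simp only [add_zero]
        have : q true * (w a * c a ^ p) + q false * (w a * c a ^ p) = w a * c a ^ p := by
          rw [← add_mul, hq1, one_mul]
        nlinarith
  have h3 := mul_le_mul_of_nonneg_left h1 (show 0 ≤ 1 / D by positivity)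
  have : (1 + 2 / D) * Psi Λ p c = (1 + 1 / D) * Psi Λ p c + 1 / D * Psi Λ p c := by ring
  linarith

lemma pot {p : ℕ} (hp : Even p) (hp0 : p ≠ 0) {D M : ℝ} (hD : 0 < D) (hM : 1 ≤ M)
    (hDM : D * 2 ^ p ≤ M ^ 2) (t : DTree (J × G)) :
    ∀ (c : (J → Option G) → ℝ) (y : J × G → ℝ),
      (∀ q : J × G, |y q| ≤ 1 / 2 ∨ (|y q| ≤ 1 ∧ ∀ a, a q.1 = some q.2 → c a = 0)) →
      DD c y (fun x => ind (t.eval x = true)) ^ p
        ≤ (1 + 2 / D) ^ t.depth * Psi (D * (4 * M) ^ p) p c := by
  induction t with
  | leaf b =>
    intro c y _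
    have e : DD c y (fun x => ind ((DTree.leaf b).eval x = true))
        = ind (b = true) * c fun _ => none := by
      simp only [DD, DTree.eval, ← mul_sum]
      rw [sum_comm]
      simp [← mul_sum, sum_wt]
    have hΛ0 : 0 ≤ D * (4 * M) ^ p := by positivity
    rw [e, DTree.depth, pow_zero, one_mul, mul_pow]
    have h1 : (c fun _ => none) ^ p ≤ Psi (D * (4 * M) ^ p) p c := by
      have := single_le_sum (f := fun a : J → Option G =>
        (∏ j, if a j = none then 1 else D * (4 * M) ^ p) * c a ^ p)
        (fun a _ => mul_nonneg (prod_nonneg fun j _ => by split_ifs <;> positivity)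
          (hp.pow_nonneg _)) (mem_univ fun _ => none)
      simpa [Psi] using this
    have h2 : ind (b = true) ^ p ≤ 1 := pow_le_one₀ (ind_nonneg _) (ind_le_one _)
    nlinarith [hp.pow_nonneg (c fun _ => none)]
  | node r t0 t1 ih0 ih1 =>
    obtain ⟨j, i⟩ := r
    intro c y hy
    let q : Bool → ℝ := fun b => (1 + sg b * y (j, i)) / 2
    have hy1 : |y (j, i)| ≤ 1 := by
      rcases hy (j, i) with h | h
      · linarith
      · exact h.1
    have hq : ∀ b, 0 ≤ q b := fun b => by
      have := abs_le.mp hy1
      cases b <;> simp only [q, sg_true, sg_false] <;> linarith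
    have hq1 : q true + q false = 1 := by simp only [q, sg_true, sg_false]; ring
    obtain ⟨ξ, hξ, hξ2, hξ3⟩ : ∃ ξ : Bool → ℝ, q true * ξ true + q false * ξ false = 0 ∧
        (∀ b, |ξ b| ≤ 2) ∧ ∀ b, q b * ξ b = sg b / 2 ∨ ∀ a, a j = some i → c a = 0 := by
      rcases hy (j, i) with h | h
      · have := abs_le.mp h
        have hq2 : ∀ b, 1 / 4 ≤ q b := fun b => by
          cases b <;> simp only [q, sg_true, sg_false] <;> linarith
        have h3 : ∀ b, q b * (sg b / (2 * q b)) = sg b / 2 := fun b => by
          have := hq2 b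
          field_simp
        refine ⟨fun b => sg b / (2 * q b), by simp only [h3]; norm_num, fun b => ?_, fun b => Or.inl (h3 b)⟩
        have := hq2 b
        rw [abs_div, abs_sg, abs_of_pos (by linarith), div_le_iff₀ (by linarith)]
        linarith
      · exact ⟨fun _ => 0, by simp, by simp, fun _ => Or.inr h.2⟩
    have hinv : ∀ b, ∀ r : J × G, |Function.update y (j, i) (sg b) r| ≤ 1 / 2 ∨
        (|Function.update y (j, i) (sg b) r| ≤ 1 ∧
          ∀ a, a r.1 = some r.2 → stepc c j i (ξ b) a = 0) := by
      intro b r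
      by_cases hr : r = (j, i)
      · subst hr
        refine Or.inr ⟨by simp [abs_sg], fun a ha => by simp [stepc, ha]⟩
      · rw [Function.update_of_ne hr]
        refine (hy r).imp id fun h => ⟨h.1, fun a ha => ?_⟩
        unfold stepc
        split_ifs with h1 h2
        · rfl
        · have : r.1 ≠ j := fun hj => by simp [← hj, ha] at h2
          rw [h.2 a ha, h.2 _ (by rw [Function.update_of_ne this, ha])]; simp
        · rw [h.2 a ha]; simp
    have e : DD c y (fun x => ind ((DTree.node (j, i) t0 t1).eval x = true))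
        = q true * DD (stepc c j i (ξ true)) (Function.update y (j, i) (sg true))
            (fun x => ind (t1.eval x = true))
          + q false * DD (stepc c j i (ξ false)) (Function.update y (j, i) (sg false))
            (fun x => ind (t0.eval x = true)) := by
      simp only [DD, mul_sum _ _ (q _), ← sum_add_distrib]
      refine sum_congr rfl fun x _ => ?_
      rw [mul_left_comm (q true), mul_left_comm (q false), ← wt_step c y j i true _ (hξ3 true),
        ← wt_step c y j i false _ (hξ3 false)]
      cases hx : x (j, i) <;> simp [DTree.eval, hx]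
    rw [e]
    have hJ := (hp.convexOn_pow (𝕜 := ℝ)).2 (Set.mem_univ (DD (stepc c j i (ξ true))
      (Function.update y (j, i) (sg true)) (fun x => ind (t1.eval x = true))))
      (Set.mem_univ (DD (stepc c j i (ξ false))
      (Function.update y (j, i) (sg false)) (fun x => ind (t0.eval x = true))))
      (hq true) (hq false) hq1
    simp only [smul_eq_mul] at hJ
    refine hJ.trans ?_
    have hP : ∀ c : (J → Option G) → ℝ, 0 ≤ Psi (D * (4 * M) ^ p) p c := fun c =>
      sum_nonneg fun a _ => mul_nonneg (prod_nonneg fun j _ => by split_ifs <;> positivity)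
        (hp.pow_nonneg _)
    have h1D : 1 ≤ 1 + 2 / D := by have : 0 ≤ 2 / D := by positivity
                                   linarith
    have a1 := (ih1 _ _ (hinv true)).trans (mul_le_mul_of_nonneg_right
      (pow_le_pow_right₀ h1D (le_max_right t0.depth t1.depth)) (hP _))
    have a0 := (ih0 _ _ (hinv false)).trans (mul_le_mul_of_nonneg_right
      (pow_le_pow_right₀ h1D (le_max_left t0.depth t1.depth)) (hP _))
    have a2 := mul_le_mul_of_nonneg_left (Psi_step hp hp0 hD hM hDM q ξ hq hq1 hξ hξ2 c j i)
      (show 0 ≤ (1 + 2 / D) ^ max t0.depth t1.depth by positivity)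
    rw [DTree.depth, pow_succ]
    nlinarith [mul_le_mul_of_nonneg_left a1 (hq true), mul_le_mul_of_nonneg_left a0 (hq false)]

end Vale.Agent.P362
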