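import Vale.Agent.P362.Impl

namespace Vale.Agent.P362

open Matrix Finset
open scoped Kronecker

variable {ι Y Z : Type}

open Classical in
/-- indicator of a proposition -/
noncomputable def ind (p : Prop) : ℝ := if p then 1 else 0

lemma ind_pos {p : Prop} (h : p) : ind p = 1 := by simp [ind, h]
lemma ind_neg {p : Prop} (h : ¬ p) : ind p = 0 := by simp [ind, h]
lemma ind_nonneg (p : Prop) : 0 ≤ ind p := by unfold ind; split_ifs <;> simp
lemma ind_le_one (p : Prop) : ind p ≤ 1 := by unfold ind; split_ifs <;> simp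
lemma ind_mono {p q : Prop} (h : p → q) : ind p ≤ ind q := by
  by_cases hp : p
  · rw [ind_pos hp, ind_pos (h hp)]
  · rw [ind_neg hp]; exact ind_nonneg q
lemma ind_and (p q : Prop) : ind (p ∧ q) = ind p * ind q := by
  by_cases hp : p <;> by_cases hq : q <;> simp [ind, hp, hq]
lemma ind_not (p : Prop) : ind (¬ p) = 1 - ind p := by
  by_cases hp : p <;> simp [ind, hp]
lemma ind_congr {p q : Prop} (h : p ↔ q) : ind p = ind q := by rw [propext h]

/-- expectation functionals of finitely supported probability distributions -/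
def IsP (E : (Y → ℝ) → ℝ) : Prop :=
  ∃ (B : Type) (_ : Fintype B) (w : B → ℝ) (out : B → Y),
    (∀ b, 0 ≤ w b) ∧ ∑ b, w b = 1 ∧ ∀ φ, E φ = ∑ b, w b * φ (out b)

/-- the functional only sees the event `A` -/
def Sure (E : (Y → ℝ) → ℝ) (A : Y → Prop) : Prop :=
  ∀ φ ψ : Y → ℝ, (∀ y, A y → φ y ≤ ψ y) → E φ ≤ E ψ

namespace IsP
variable {E : (Y → ℝ) → ℝ}

lemma mono (h : IsP E) {φ ψ : Y → ℝ} (hle : ∀ y, φ y ≤ ψ y) : E φ ≤ E ψ := by
  obtain ⟨B, _, w, out, hw, -, h⟩ := h
  rw [h, h]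
  exact sum_le_sum fun b _ => mul_le_mul_of_nonneg_left (hle _) (hw b)

lemma sure_true (h : IsP E) : Sure E fun _ => True := fun _ _ hle => h.mono fun y => hle y trivial

lemma add (h : IsP E) (φ ψ : Y → ℝ) : E (fun y => φ y + ψ y) = E φ + E ψ := by
  obtain ⟨B, _, w, out, -, -, h⟩ := h
  simp only [h, mul_add, sum_add_distrib]

lemma const_mul (h : IsP E) (c : ℝ) (φ : Y → ℝ) : E (fun y => c * φ y) = c * E φ := by
  obtain ⟨B, _, w, out, -, -, h⟩ := h
  simp only [h, mul_sum]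
  exact sum_congr rfl fun b _ => by ring

lemma const (h : IsP E) (c : ℝ) : E (fun _ => c) = c := by
  obtain ⟨B, _, w, out, -, h1, h⟩ := h
  rw [h, ← sum_mul, h1, one_mul]

lemma sub (h : IsP E) (φ ψ : Y → ℝ) : E (fun y => φ y - ψ y) = E φ - E ψ := by
  obtain ⟨B, _, w, out, -, -, h⟩ := h
  simp only [h, mul_sub, sum_sub_distrib]

lemma sum (h : IsP E) {C : Type} (s : Finset C) (φ : C → Y → ℝ) :
    E (fun y => ∑ c ∈ s, φ c y) = ∑ c ∈ s, E (φ c) := by
  obtain ⟨B, _, w, out, -, -, h⟩ := h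
  simp only [h, mul_sum]
  exact sum_comm

lemma nonneg (h : IsP E) {φ : Y → ℝ} (hφ : ∀ y, 0 ≤ φ y) : 0 ≤ E φ := by
  simpa [h.const] using h.mono (φ := fun _ => 0) hφ

lemma le_one (h : IsP E) {φ : Y → ℝ} (hφ : ∀ y, φ y ≤ 1) : E φ ≤ 1 := by
  simpa [h.const] using h.mono (ψ := fun _ => 1) hφ

end IsP

lemma Sure.imp {E : (Y → ℝ) → ℝ} {A A' : Y → Prop} (h : Sure E A) (hA : ∀ y, A y → A' y) :
    Sure E A' := fun φ ψ hle => h φ ψ fun y hy => hle y (hA y hy)

lemma Sure.bind {E : (Y → ℝ) → ℝ} {A : Y → Prop} {F : Y → (Z → ℝ) → ℝ} {C : Z → Prop}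
    (h : Sure E A) (hF : ∀ y, A y → Sure (F y) C) : Sure (fun φ => E fun y => F y φ) C :=
  fun φ ψ hle => h _ _ fun y hy => hF y hy φ ψ hle

lemma Sure.pure {A : Y → Prop} {y : Y} (h : A y) : Sure (fun φ => φ y) A :=
  fun _ _ hle => hle y h

/-- output distributions of `T`-query quantum algorithms -/
def Has (T : ℕ) (E : (ι → Bool) → (Y → ℝ) → ℝ) : Prop :=
  ∃ (B : Type) (_ : Fintype B) (_ : DecidableEq B) (s : B) (W : (ι → Bool) → Matrix B B ℝ)
    (out : B → Y), Impl T W ∧ ∀ x φ, E x φ = ∑ b, W x b s ^ 2 * φ (out b)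

lemma Has.isP {T : ℕ} {E : (ι → Bool) → (Y → ℝ) → ℝ} (h : Has T E) (x : ι → Bool) :
    IsP (E x) := by
  obtain ⟨B, _, _, s, W, out, hW, h⟩ := h
  exact ⟨B, inferInstance, fun b => W x b s ^ 2, out, fun b => sq_nonneg _,
    (hW.orth x).sum_sq s, h x⟩

lemma Has.mono {T T' : ℕ} {E : (ι → Bool) → (Y → ℝ) → ℝ} (h : Has T E) (hT : T ≤ T') :
    Has T' E := by
  obtain ⟨B, _, _, s, W, out, hW, h⟩ := h
  exact ⟨B, _, _, s, W, out, hW.mono hT, h⟩

lemma Has.map {T : ℕ} {E : (ι → Bool) → (Y → ℝ) → ℝ} (h : Has T E) (g : Y → Z) :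
    Has T fun x (φ : Z → ℝ) => E x fun y => φ (g y) := by
  obtain ⟨B, _, _, s, W, out, hW, h⟩ := h
  exact ⟨B, _, _, s, W, fun b => g (out b), hW, fun x φ => h x _⟩

lemma Has.pure (y : Y) : Has (ι := ι) 0 fun _ φ => φ y :=
  ⟨Unit, inferInstance, inferInstance, (), fun _ => 1, fun _ => y, Impl.const Orth.one,
    fun x φ => by simp⟩

lemma Has.unif (C : Type) [Fintype C] [Nonempty C] :
    Has (ι := ι) 0 fun _ (φ : C → ℝ) => (∑ c, φ c) / Fintype.card C := by
  classical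
  have hc : (0 : ℝ) < Fintype.card C := by exact_mod_cast Fintype.card_pos
  obtain ⟨U, hU, h⟩ := exists_orth_col (fun _ : C => (√(Fintype.card C))⁻¹)
    (by simp [Real.sq_sqrt hc.le, hc.ne']) (Classical.arbitrary C)
  refine ⟨C, inferInstance, inferInstance, Classical.arbitrary C, fun _ => U, id, Impl.const hU,
    fun x φ => ?_⟩
  simp only [h, inv_pow, Real.sq_sqrt hc.le, id, ← mul_sum]
  ring

lemma Has.bind {T1 T2 : ℕ} {E : (ι → Bool) → (Y → ℝ) → ℝ}
    {F : Y → (ι → Bool) → (Z → ℝ) → ℝ} (h1 : Has T1 E) (h2 : ∀ y, Has T2 (F y)) :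
    Has (T1 + T2) fun x φ => E x fun y => F y x φ := by
  obtain ⟨B, _, _, s, W, out, hW, h⟩ := h1
  choose D iD dD s2 W2 out2 hW2 h2 using h2
  let S := Σ b : B, D (out b)
  let st : B → S := fun b => ⟨b, s2 (out b)⟩
  let σ : Equiv.Perm (B × S) := Equiv.prodCongrRight fun b => Equiv.swap (st s) (st b)
  let BD : (ι → Bool) → Matrix S S ℝ := fun x => blockDiagonal' fun b => W2 (out b) x
  have hI : Impl (T1 + T2) fun x =>
      ((1 : Matrix B B ℝ) ⊗ₖ BD x) * (permM σ * (W x ⊗ₖ (1 : Matrix S S ℝ))) :=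
    (hW.kronL.const_mul (Orth.permM σ)).mul (Impl.block fun b => hW2 (out b)).kronR
  refine ⟨B × S, inferInstance, inferInstance, (s, st s), _, fun p => out2 (out p.2.1) p.2.2, hI,
    fun x φ => ?_⟩
  have e1 : ∀ p : B × S, (permM σ * (W x ⊗ₖ (1 : Matrix S S ℝ))) p (s, st s)
      = if p.2 = st p.1 then W x p.1 s else 0 := by
    rintro ⟨b, t⟩
    rw [permM_mul_apply]
    simp only [σ, Equiv.prodCongrRight_symm, Equiv.prodCongrRight_apply, Function.comp,
      Equiv.symm_swap, kroneckerMap_apply, Matrix.one_apply, mul_ite, mul_one, mul_zero]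
    congr 1
    rw [Equiv.swap_apply_eq_iff, Equiv.swap_apply_left]
  have e2 : ∀ p : B × S, (((1 : Matrix B B ℝ) ⊗ₖ BD x) * (permM σ * (W x ⊗ₖ (1 : Matrix S S ℝ))))
      p (s, st s) = BD x p.2 (st p.1) * W x p.1 s := by
    rintro ⟨b, t⟩
    rw [Matrix.mul_apply, Finset.sum_eq_single (b, st b)]
    · simp [e1]
    · rintro ⟨b', t'⟩ _ hne
      rw [e1]
      by_cases hb : b = b'
      · subst hb
        rw [if_neg, mul_zero]
        intro ht; exact hne (by simp at ht; rw [ht])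
      · simp [hb]
    · simp
  simp only [h, h2, e2]
  rw [Fintype.sum_prod_type]
  refine sum_congr rfl fun b _ => ?_
  rw [Fintype.sum_sigma, Finset.sum_eq_single b, mul_sum]
  · refine sum_congr rfl fun d _ => ?_
    simp only [BD, st, blockDiagonal'_apply_eq]
    ring
  · intro c _ hc
    refine sum_eq_zero fun d _ => ?_
    simp only [BD, st]
    rw [blockDiagonal'_apply_ne _ _ _ hc]
    simp
  · simp

lemma Has.amp {T : ℕ} {E : (ι → Bool) → (Y → ℝ) → ℝ} (h : Has T E) (good : Y → Prop) :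
    Has (3 * T) fun x φ =>
      (3 - 4 * E x fun y => ind (good y)) ^ 2 * E x (fun y => ind (good y) * φ y) +
      (1 - 4 * E x fun y => ind (good y)) ^ 2 * E x (fun y => ind (¬ good y) * φ y) := by
  obtain ⟨B, _, _, s, W, out, hW, h⟩ := h
  let Rg : Matrix B B ℝ := diagonal fun b => 1 - 2 * ind (good (out b))
  let Rs : Matrix B B ℝ := diagonal fun b => if b = s then 1 else -1
  have hg : Orth Rg := Orth.diag fun b => by
    by_cases hb : good (out b)
    · rw [ind_pos hb]; norm_num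
    · rw [ind_neg hb]; norm_num
  have hs : Orth Rs := Orth.diag fun b => by split_ifs <;> norm_num
  have hI : Impl (T + T + T) fun x => W x * (Rs * ((W x)ᵀ * (Rg * W x))) :=
    (((hW.const_mul hg).mul hW.transpose).const_mul hs).mul hW
  refine ⟨B, _, _, s, _, out, hI.mono (by omega), fun x φ => ?_⟩
  set a := E x fun y => ind (good y) with ha
  have hRs : Rs = (2 : ℝ) • vecMulVec (Pi.single s 1) (Pi.single s 1) - 1 := by
    ext i j
    simp only [Rs, diagonal_apply, Matrix.sub_apply, Matrix.smul_apply, vecMulVec_apply,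
      Pi.single_apply, Matrix.one_apply, smul_eq_mul]
    split_ifs <;> simp_all <;> norm_num
  have hss : ((W x)ᵀ * (Rg * W x)) s s = 1 - 2 * a := by
    rw [ha, h, ← (hW.orth x).sum_sq s, mul_sum, ← sum_sub_distrib, Matrix.mul_apply]
    refine sum_congr rfl fun b _ => ?_
    simp only [Rg, diagonal_mul, transpose_apply]
    ring
  have key : ∀ b, (W x * (Rs * ((W x)ᵀ * (Rg * W x)))) b s
      = (2 * (1 - 2 * a) - (1 - 2 * ind (good (out b)))) * W x b s := by
    intro b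
    rw [hRs, Matrix.sub_mul, Matrix.one_mul, Matrix.mul_sub, ← Matrix.mul_assoc (W x) (W x)ᵀ,
      (hW.orth x).mul_transpose, Matrix.one_mul, Matrix.sub_apply, Matrix.smul_mul,
      Matrix.mul_smul, ← Matrix.mul_assoc, mul_vecMulVec, vecMulVec_mul, Matrix.smul_apply,
      vecMulVec_apply]
    simp only [mulVec_single_one, single_one_vecMul, col_apply, row_apply, hss, Rg, diagonal_mul,
      smul_eq_mul]
    ring
  beta_reduce
  rw [← ha]
  clear_value a
  simp only [key, h, mul_sum, ← sum_add_distrib]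
  refine sum_congr rfl fun b _ => ?_
  by_cases hb : good (out b)
  · rw [ind_pos hb, ind_neg (not_not.mpr hb)]; ring
  · rw [ind_neg hb, ind_pos hb]; ring

end Vale.Agent.P362
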