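import Vale.Agent.P362.Param

namespace Vale.Agent.P362

open Finset Matrix

set_option maxHeartbeats 2000000 in
lemma sep {K : ℕ} (hK : 2 ≤ K) : ∃ c : ℝ, ∀ σ : ℕ, c ≤ 2 ^ σ →
    10 ^ 6 * (8 * K * (K + 1) * σ + K + 10) ^ 9 ≤ 2 ^ σ →
    ∃ n : ℕ, 1 ≤ n ∧ ∃ f : (Fin n → Bool) → Bool,
      ((2 : ℝ) ^ σ) ^ (16 * K ^ 2) ≤ R f * (2 ^ σ) ^ 20 ∧
        (1 + Q f : ℝ) ≤ (2 ^ σ) ^ (4 * K ^ 2 + 8 * K + 1) := by
  obtain ⟨a, ha⟩ : ∃ a, 4 * K ^ 2 = a + 9 := Nat.exists_eq_add_of_le' (by nlinarith)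
  obtain ⟨p, hp⟩ : ∃ p, p = 8 * K * (K + 1) * (K + 1) := ⟨_, rfl⟩
  obtain ⟨r, hr⟩ : ∃ r, r = 4 * K * (K + 1) * (K + 2) + 4 * K + 1 := ⟨_, rfl⟩
  obtain ⟨Cm, hCm⟩ : ∃ Cm, Cm = 2 * mom (2 * r) + mom (4 * r) := ⟨_, rfl⟩
  have hCm0 : 0 ≤ Cm := by
    have m1 := mom_nonneg r
    have m2 : 0 ≤ mom (4 * r) := by rw [show 4 * r = 2 * (2 * r) by ring]; exact mom_nonneg _
    linarith
  refine ⟨32768 * (4 * 2 ^ p) ^ (K + 1) + K * Cm + 16384 * 2 ^ (K + 2) * ((1 + 4 ^ r) * (2 * (K * Cm))),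
    fun σ hc hA => ?_⟩
  obtain ⟨ν, hν⟩ : ∃ ν, ν = 8 * K * (K + 1) * σ := ⟨_, rfl⟩
  rw [← hν] at hA
  obtain ⟨A, hAd⟩ : ∃ A, A = ν + K + 10 := ⟨_, rfl⟩
  rw [← hAd] at hA
  have hA1 : 1 ≤ A := by omega
  have hA9 : A ^ 2 ≤ A ^ 9 := Nat.pow_le_pow_right hA1 (by norm_num)
  have hA19 : A ≤ A ^ 9 := Nat.le_self_pow (by norm_num) A
  have hσν : σ ≤ ν := by rw [hν]; exact Nat.le_mul_of_pos_left _ (by positivity)
  have hsN : 2 ^ σ ≤ 2 ^ ν := Nat.pow_le_pow_right (by norm_num) hσν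
  let e : Fin (Fintype.card (Ix ν K)) ≃ Ix ν K := (Fintype.equivFin _).symm
  have hn : 1 ≤ Fintype.card (Ix ν K) := Fintype.card_pos
  obtain ⟨s, hs⟩ : ∃ s : ℝ, s = 2 ^ σ := ⟨_, rfl⟩
  have hAs : 10 ^ 6 * (A : ℝ) ^ 9 ≤ s := by rw [hs]; exact_mod_cast hA
  have hA1' : (1 : ℝ) ≤ (A : ℝ) ^ 9 := one_le_pow₀ (by exact_mod_cast hA1)
  have hs1 : 4096 ≤ s := by linarith
  have hs0 : 0 < s := by linarith
  have hs1' : 1 ≤ s := by linarith
  have hN : (2 : ℝ) ^ ν = s ^ (8 * K * (K + 1)) := by rw [hs, ← pow_mul, hν]; ring_nf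
  rw [← hs] at hc ⊢
  have c0 : (0 : ℝ) ≤ 32768 * (4 * 2 ^ p) ^ (K + 1) := by positivity
  have c1 : (0 : ℝ) ≤ K * Cm := by positivity
  have c2 : (0 : ℝ) ≤ 16384 * 2 ^ (K + 2) * ((1 + 4 ^ r) * (2 * (K * Cm))) := by positivity
  refine ⟨_, hn, fun x => FF ((1 / s) ^ (2 * K) / 4) (x ∘ e.symm), ?_, ?_⟩
  · have hh' : hh ν = 1 / s ^ (4 * K * (K + 1)) := by
      rw [hh, hN, show 8 * K * (K + 1) = 4 * K * (K + 1) * 2 by ring, pow_mul,
        Real.sqrt_sq (by positivity), one_div]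
    have hd : ((2 ^ (2 * a * σ) : ℕ) : ℝ) = s ^ (2 * a) := by
      rw [hs, ← pow_mul]; push_cast; ring_nf
    have hε : 1 / s ≤ 1 := by rw [div_le_one hs0]; exact hs1'
    have htl : (1 + (2 * 2 ^ ν) ^ (K + 1)) * tl (Had ν) (1 / s) K r ≤ 1 / (16384 * s ^ (8 * K)) := by
      have e1 : (K : ℝ) * 2 ^ ν * ((1 / s) ^ (2 * r) * (2 * mom (2 * r) + mom (4 * r)))
          = K * Cm / ((2 ^ ν) ^ (K + 1) * s ^ (8 * K + 2)) := by
        rw [← hCm, hN, ← pow_mul, ← pow_add, div_pow, one_pow,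
          show 2 * r = 8 * K * (K + 1) + (8 * K * (K + 1) * (K + 1) + (8 * K + 2)) by rw [hr]; ring,
          pow_add s (8 * K * (K + 1))]
        field_simp
      have hN1 : (1 : ℝ) ≤ (2 ^ ν) ^ (K + 1) := one_le_pow₀ (one_le_pow₀ (by norm_num))
      have h1 := tl_bound (ν := ν) (K := K) (by positivity) hε r (by
        rw [e1, div_le_one (by positivity)]
        have : s ≤ s ^ (8 * K + 2) := le_self_pow₀ hs1' (by omega)
        nlinarith)
      rw [e1] at h1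
      have h2 : (1 : ℝ) + (2 * 2 ^ ν) ^ (K + 1) ≤ 2 ^ (K + 2) * (2 ^ ν) ^ (K + 1) := by
        have : (1 : ℝ) ≤ (2 * 2 ^ ν) ^ (K + 1) :=
          one_le_pow₀ (by have : (1 : ℝ) ≤ 2 ^ ν := one_le_pow₀ (by norm_num); linarith)
        rw [pow_succ' 2 (K + 1), mul_assoc, ← mul_pow]; linarith
      refine (mul_le_mul h2 h1 (tl_nonneg _ _ _) (by positivity)).trans ?_
      have e2 : 2 ^ (K + 2) * ((2 : ℝ) ^ ν) ^ (K + 1) * ((1 + 4 ^ r) *
          (2 * (K * Cm / ((2 ^ ν) ^ (K + 1) * s ^ (8 * K + 2)))))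
          = 16384 * 2 ^ (K + 2) * ((1 + 4 ^ r) * (2 * (K * Cm))) / s ^ 2 / (16384 * s ^ (8 * K)) := by
        field_simp
        ring
      rw [e2]
      refine div_le_div_of_nonneg_right ?_ (by positivity)
      rw [div_le_one (by positivity)]
      nlinarith
    have hB : 2 * s * ((4 * (s ^ a * 2 ^ p)) ^ (K + 1) * hh ν ^ K) ≤ 1 / (16384 * s ^ (8 * K)) := by
      have e1 : 2 * s * ((4 * (s ^ a * 2 ^ p)) ^ (K + 1) * hh ν ^ K)
          = 32768 * (4 * 2 ^ p) ^ (K + 1) / s ^ (K + 8) / (16384 * s ^ (8 * K)) := by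
        rw [hh', div_pow, one_pow, ← pow_mul,
          show 4 * K * (K + 1) * K = a * (K + 1) + (K + 8) + 8 * K + 1 by
            have : 4 * K * (K + 1) * K = 4 * K ^ 2 * (K + 1) := by ring
            rw [this, ha]; ring,
          mul_left_comm 4, mul_pow, ← pow_mul]
        field_simp
        ring
      rw [e1]
      refine div_le_div_of_nonneg_right ?_ (by positivity)
      rw [div_le_one (by positivity)]
      have : s ≤ s ^ (K + 8) := le_self_pow₀ hs1' (by omega)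
      linarith
    have key := R_lower (ν := ν) (K := K) (by omega) (ε := 1 / s) (δ := (1 / s) ^ (2 * K) / 4)
      (η := 1 / (8192 * s ^ (8 * K))) (r := r) (d := 2 ^ (2 * a * σ)) (t := 4 * K * σ + 5)
      (B := 2 * s * ((4 * (s ^ a * 2 ^ p)) ^ (K + 1) * hh ν ^ K)) (by omega) (by positivity) hε
      (by positivity) (by positivity) (by have := hh_pos (ν := ν); positivity)
      (fun τ hτ y hy => dd_bound (p := 2 * p) (M := s ^ a * 2 ^ p) (even_two_mul p)
        (by rw [hp]; positivity) (by positivity)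
        (one_le_mul_of_one_le_of_one_le (one_le_pow₀ hs1') (one_le_pow₀ (by norm_num)))
        (by rw [hd]; exact le_of_eq (by ring)) (by have := hh_pos (ν := ν); positivity) ?_ τ hτ y hy)
      ?_ ?_ e (R_spec hn _)
    · set T := R fun x => FF ((1 / s) ^ (2 * K) / 4) (x ∘ e.symm)
      have e1 : ((1 / s) ^ (2 * K) / 4) ^ 2 * (2 / 3) ^ (4 * K * σ + 5)
          = 2 * (1 / 3) ^ (4 * K * σ + 5) := by
        rw [show (2 / 3 : ℝ) = 2 * (1 / 3) by norm_num, mul_pow, pow_add 2,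
          show (2 : ℝ) ^ (4 * K * σ) = s ^ (4 * K) by rw [hs, ← pow_mul]; ring_nf, div_pow 1 s,
          one_pow]
        field_simp
        ring
      have e2 : 1 / (1024 * s ^ (8 * K)) ≤ (1 / 3) ^ (4 * K * σ + 5) := by
        refine le_trans (le_of_eq ?_) (pow_le_pow_left₀ (by norm_num : (0 : ℝ) ≤ 1 / 4)
          (by norm_num) _)
        rw [div_pow, one_pow, pow_add, show (4 : ℝ) ^ (4 * K * σ) = s ^ (8 * K) by
          rw [hs, ← pow_mul, show (4 : ℝ) = 2 ^ 2 by norm_num, ← pow_mul]; ring_nf]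
        norm_num [mul_comm]
      have e3 : s ^ (2 * a) / s ^ (8 * K * (K + 1)) ≤ 1 / (4096 * s ^ (8 * K)) := by
        rw [div_le_div_iff₀ (by positivity) (by positivity), one_mul,
          show 8 * K * (K + 1) = 2 * a + 8 * K + 18 by nlinarith, pow_add, pow_add]
        have : s ≤ s ^ 18 := le_self_pow₀ hs1' (by omega)
        have h3 : 0 < s ^ (2 * a) * s ^ (8 * K) := by positivity
        nlinarith
      rw [e1, hd, hN] at key
      have ht : ((4 * K * σ + 5 : ℕ) : ℝ) * 4096 ≤ s := by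
        have : 4 * K * σ + 5 ≤ A ^ 9 := by
          have : 4 * K * σ ≤ ν := by
            rw [hν]
            exact Nat.mul_le_mul_right _ ((show 4 * K ≤ 8 * K by omega).trans
              (Nat.le_mul_of_pos_right _ (by omega)))
          omega
        have : ((4 * K * σ + 5 : ℕ) : ℝ) ≤ (A : ℝ) ^ 9 := by exact_mod_cast this
        linarith
      generalize ((4 * K * σ + 5 : ℕ) : ℝ) = t at key ht
      have e4 : 1 / (2048 * s ^ (8 * K)) ≤ 2 * (t * T) / (s ^ (2 * a) * s ^ (8 * K * (K + 1))) := by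
        have a1 : 1 / (1024 * s ^ (8 * K)) = 2 * (1 / (2048 * s ^ (8 * K))) := by field_simp; ring
        have a2 : 1 / (4096 * s ^ (8 * K)) = 1 / (2048 * s ^ (8 * K)) / 2 := by field_simp; ring
        have a3 : 1 / (8192 * s ^ (8 * K)) = 1 / (2048 * s ^ (8 * K)) / 4 := by field_simp; ring
        linarith
      rw [div_le_div_iff₀ (by positivity) (by positivity), one_mul, ← pow_add,
        show 2 * a + 8 * K * (K + 1) = (2 * a + 8 * K ^ 2) + 8 * K by ring, pow_add] at e4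
      have e5 : s ^ (2 * a + 8 * K ^ 2) ≤ T * s := by
        have hT : (0 : ℝ) ≤ T := by positivity
        refine le_of_mul_le_mul_right (e4.trans ?_) (show 0 < s ^ (8 * K) by positivity)
        have := mul_le_mul_of_nonneg_right (mul_le_mul_of_nonneg_right ht hT)
          (show 0 ≤ s ^ (8 * K) by positivity)
        nlinarith
      rw [show 16 * K ^ 2 = (2 * a + 8 * K ^ 2) + 18 by omega, pow_add]
      have hT : (0 : ℝ) ≤ T := by positivity
      calc _ ≤ T * s * s ^ 18 := mul_le_mul_of_nonneg_right e5 (by positivity)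
        _ = T * s ^ 19 := by ring
        _ ≤ _ := mul_le_mul_of_nonneg_left (pow_le_pow_right₀ hs1' (by norm_num)) hT
    · have h1 : s ^ (2 * a) ≤ 2 ^ ν := by
        rw [hN]; exact pow_le_pow_right₀ hs1' (by nlinarith)
      have h2 : (9 : ℝ) * 2 ^ (K + 1) ≤ 2 ^ (2 * p) := by
        refine le_trans ?_ (pow_le_pow_right₀ one_le_two (show K + 1 + 4 ≤ 2 * p by
          rw [hp]; nlinarith [Nat.zero_le (K * K * K), Nat.zero_le (K * K)]))
        rw [pow_add _ (K + 1)]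
        have : (0 : ℝ) < 2 ^ (K + 1) := by positivity
        linarith
      have h3 : ((2 : ℝ) ^ ν) ^ (K + 1) * (2 ^ ν) ^ (K + 1) = s ^ (2 * p) := by
        rw [hN, ← pow_mul, ← pow_add, hp]; ring_nf
      have h4 := pow_le_pow_left₀ (by positivity) h1 (K + 1)
      rw [hd, mul_pow (2 * s), mul_pow 2 s, ← h3, mul_pow 2, mul_pow (s ^ (2 * a)),
        mul_pow _ (hh ν ^ K), ← pow_mul _ (2 * p), ← pow_mul _ (K + 1) (2 * p), mul_comm (2 * p)]
      have := hh_pos (ν := ν)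
      have hZ : 0 ≤ (4 * (s ^ a * 2 ^ p)) ^ ((K + 1) * (2 * p)) * (hh ν ^ K) ^ (2 * p) := by
        positivity
      have h5 := mul_le_mul h2 (mul_le_mul_of_nonneg_left h4
        (show 0 ≤ ((2 : ℝ) ^ ν) ^ (K + 1) by positivity)) (by positivity) (by positivity)
      refine le_trans (le_of_eq ?_) (mul_le_mul_of_nonneg_right h5 hZ)
      ring
    · have h1 : tl (Had ν) (1 / s) K r ≤ 1 / (16384 * s ^ (8 * K)) :=
        le_trans (le_mul_of_one_le_left (tl_nonneg _ _ _) (le_add_of_nonneg_right (by positivity)))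
          htl
      have h2 : 1 / (16384 * s ^ (8 * K)) ≤ (1 / s) ^ (2 * K) / 2 := by
        rw [div_pow, one_pow, div_div]
        refine one_div_le_one_div_of_le (by positivity) ?_
        have : s ^ (2 * K) ≤ s ^ (8 * K) := pow_le_pow_right₀ hs1' (by omega)
        have : 0 < s ^ (8 * K) := by positivity
        linarith
      linarith
    · have a1 : 1 / (8192 * s ^ (8 * K)) = 2 * (1 / (16384 * s ^ (8 * K))) := by field_simp; ring
      linarith
  · have hX : ((16 * 2 ^ ((4 * K ^ 2 + 8 * K) * σ) : ℕ) : ℝ) = 16 * s ^ (4 * K ^ 2 + 8 * K) := by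
      rw [hs, ← pow_mul]; push_cast; ring_nf
    have h := Q_upper (ν := ν) (K := K) (δ := (1 / s) ^ (2 * K) / 4) (by positivity)
      (by
        have : (1 / s) ^ (2 * K) ≤ 1 := pow_le_one₀ (by positivity) (by rw [div_le_one hs0]; exact hs1')
        linarith) (X := 16 * 2 ^ ((4 * K ^ 2 + 8 * K) * σ)) (A := A)
      (by
        rw [hX, hN, div_pow 1 s, one_pow]
        refine le_of_eq ?_
        field_simp
        ring)
      (by
        have e1 : (16 * 2 ^ ((4 * K ^ 2 + 8 * K) * σ)) ^ 2 = 256 * 2 ^ (8 * K * σ) * 2 ^ ν := by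
          rw [hν]; ring
        have e2 : 2 ^ σ ≤ 2 ^ (8 * K * σ) :=
          Nat.pow_le_pow_right (by norm_num) (Nat.le_mul_of_pos_left _ (by omega))
        rw [e1]
        exact Nat.mul_le_mul_right _ (by omega))
      (by
        rw [pow_add, mul_comm]
        exact Nat.mul_le_mul (Nat.pow_le_pow_right (by norm_num) (by
          rw [hν]; exact Nat.mul_le_mul_right _ (by nlinarith))) (by norm_num))
      hAd.ge (by omega) hn e
    have h' : (Q (fun x => FF ((1 / s) ^ (2 * K) / 4) (x ∘ e.symm)) : ℝ)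
        ≤ 54000 * (A : ℝ) ^ 9 * (16 * s ^ (4 * K ^ 2 + 8 * K)) := by
      rw [← hX]; exact_mod_cast h
    have h1 : 1 ≤ s ^ (4 * K ^ 2 + 8 * K) := one_le_pow₀ hs1'
    rw [pow_succ]
    nlinarith [mul_le_mul_of_nonneg_left hAs (le_trans zero_le_one h1)]

end Vale.Agent.P362
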